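import Vale.Agent.P183M.IF

/-!
Further interfaces of the block `SameChar`.
-/

set_option autoImplicit false
set_option linter.all false

namespace Vale.Agent.P183M

open Matrix Subgroup Vale.Agent.P183NK

section
variable {G : Type} [Group G] {R F0 : Type} [CommRing R] [Field F0] {d : ℕ}

/-- `τ` is a twisted tensor product of natural modules, indexed by the set `A` of embeddings. -/
structure TV (D : Dat G R F0 d) {k : Type} [Field k] {n : ℕ}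
    (τ : G →* Matrix (Fin n) (Fin n) k) where
  A : Finset (R →+* k)
  P : Matrix (Fin n) (A → Fin d) k
  Q : Matrix (A → Fin d) (Fin n) k
  inj : ∀ θ ∈ A, ∀ θ' ∈ A, θ.comp D.ι = θ'.comp D.ι → θ = θ'
  pq : P * Q = 1
  qp : Q * P = 1
  eq : ∀ g, τ g = P * kr (fun θ : A => (D.ρ g).map θ.1) * Q

/-- conjugates of the root nilpotent -/
def Dat.Nn (D : Dat G R F0 d) (y : G) : Matrix (Fin d) (Fin d) R := D.ρ y * D.N0 * D.ρ y⁻¹

/-- products of three root nilpotents -/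
def Dat.W3 (D : Dat G R F0 d) (a b c : G) : Matrix (Fin d) (Fin d) R := D.Nn a * D.Nn b * D.Nn c

/-- Words in root nilpotents. -/
structure Wd (D : Dat G R F0 d) (a b c y : G) (i j l : Fin d) (v : Fin d → R) : Prop where
  nn : D.N0 * D.N0 = 0
  s11 : D.W3 a b c * D.W3 a b c = 0
  s12 : D.W3 a b c * D.W3 c b a = 0
  s21 : D.W3 c b a * D.W3 a b c = 0
  s22 : D.W3 c b a * D.W3 c b a = 0
  ij : i ≠ j
  vi : v i = 0
  vj : v j = 0
  v1 : D.W3 a b c *ᵥ v = 0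
  v2 : D.W3 c b a *ᵥ v = 0
  v3 : ∃ u : Rˣ, D.Nn y *ᵥ v = (u : R) • ee j
  j1 : ∃ u : Rˣ, D.W3 a b c *ᵥ ee j = (u : R) • ee i
  j2 : D.W3 c b a *ᵥ ee j = 0
  j3 : D.Nn y *ᵥ ee j = 0
  l1 : D.W3 a b c *ᵥ ee l = 0
  l2 : D.W3 c b a *ᵥ ee l = 0
  l3 : D.Nn y *ᵥ ee l = 0
  q : D.quad → ∃ (y0 : G) (u : R), D.Nn y0 = u • (D.W3 a b c + D.W3 c b a)

end

/-- Existence of the words. -/
def WD : Prop := ∀ (p : ℕ) (G : Type) [Group G] (R F0 : Type) [CommRing R] [Field F0] (d : ℕ)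
  (D : Dat G R F0 d), CD p D → 8 ≤ D.m → ∃ a b c y i j l v, Wd D a b c y i j l v

/-- End type passes to the factors of a twisted tensor product. -/
def ET : Prop := ∀ (p : ℕ) [Fact p.Prime] (G : Type) [Group G] (T T' : Subgroup G) (C : Cv p T)
  (C' : Cv p T') (ψ : C.E →* C'.E) (n : ℕ) (τ : C'.E →* Matrix (Fin n) (Fin n) (kk p))
  (V : TV C'.D τ), 5 ≤ C.D.m → 5 ≤ C'.D.m → P3 p (kk p) C.D → V.A.Nonempty → AI (τ.comp ψ) →
    (∀ θ : C'.R →+* kk p, AI (tw θ (C'.D.ρ.comp ψ))) ∧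
    ∀ v : Fin n → kk p, v ≠ 0 → (∀ u ∈ C.D.U, τ (ψ u) *ᵥ v = v) →
      C.D.EndP (LS (τ.comp ψ) v) → EndPair C.D C'.D ψ

/-- the nodes of the final configuration -/
inductive Nd
  | z | x | xm | y (i : Fin 3) | w (i : Fin 3) | wm

instance : Finite Nd := Finite.of_surjective
  (fun t : Fin 6 × Fin 3 => (![.z, .x, .xm, .y t.2, .w t.2, .wm] : Fin 6 → Nd) t.1) (by
    rintro (_ | _ | _ | i | i | _)
    exacts [⟨(0, 0), rfl⟩, ⟨(1, 0), rfl⟩, ⟨(2, 0), rfl⟩, ⟨(3, i), rfl⟩, ⟨(4, i), rfl⟩,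
      ⟨(5, 0), rfl⟩])

/-- `T'` is full and of end type in `T` -/
def Low {p : ℕ} {G : Type} [Group G] {T T' : Subgroup G} (C' : Cv p T') (C : Cv p T) : Prop :=
  C'.End C ∧ C.Full T'

/-- The final configuration does not occur. -/
def CORE : Prop := ∃ m₀ : ℕ, ∀ (p : ℕ) [Fact p.Prime] (G : Type) [Group G] [Finite G]
  (H T x b : Subgroup G), Reg H T x b → ∀ (N : Nd → Subgroup G) (C : ∀ i, Cv p (EE H (N i)))
    (t : Prop × Prop × Prop), (∀ i, x ≤ N i ∧ N i ≤ b) →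
    (∀ i, m₀ ≤ (C i).D.m ∧ (C i).Ty t ∧ (C i).Lifts) →
    (∀ i j, EE H (N i) ≤ EE H (N j) → ∃ ψ, (C i).Over (C j) ψ) →
    (∀ i, i ≠ .z → N i < N .z ∧ Low (C i) (C .z)) →
    (N .xm < N .x ∧ Low (C .xm) (C .x)) →
    (∀ i, N .x ≤ N (.w i) ∧ N (.w i) < N (.y i) ∧ Low (C (.w i)) (C (.y i))) →
    (N .wm < N (.w 2) ∧ Low (C .wm) (C (.w 2)) ∧ Low (C .wm) (C (.y 2))) →
    N (.y 2) ≤ N (.y 0) ⊔ N (.y 1) → N (.y 0) ⊓ N (.y 2) ≤ N (.w 2) →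
    N (.y 1) ⊓ N (.y 2) ≤ N (.w 2) → False

/-- Assembly. -/
def ASM : Prop := BR → TOW → S1 → RM → (∃ d, LIFTS d) → CORE → SameChar

end Vale.Agent.P183M
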