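import Vale.Agent.P183M.B1

/-!
Realised functions; digits of an end type module which stays irreducible for a subgroup are at most
one.
-/

set_option autoImplicit false
set_option linter.all false

namespace Vale.Agent.P183M

open Matrix Subgroup Vale.Agent.P240.H195 Vale.Agent.P183CR

universe u

section
variable {G : Type u} [Group G] {R F0 : Type} [CommRing R] [Field F0] {d : ℕ}
  {k : Type} [Field k] {n : ℕ}

/-- functions on the natural module which are matrix coefficients with functionals in `W` -/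
def Rz (D : Dat G R F0 d) (W : Submodule k (Fin n → k)) (y : G → Fin n → k) :
    Submodule k ((Fin d → R) → k) where
  carrier := {φ | ∃ l ∈ W, ∀ g, l ⬝ᵥ y g = φ (D.ρ g *ᵥ ee D.z)}
  add_mem' := by
    rintro a b ⟨l, hl, ha⟩ ⟨l', hl', hb⟩
    exact ⟨l + l', W.add_mem hl hl', fun g => by rw [add_dotProduct, ha, hb, Pi.add_apply]⟩
  zero_mem' := ⟨0, W.zero_mem, fun g => by rw [zero_dotProduct, Pi.zero_apply]⟩
  smul_mem' := by
    rintro c a ⟨l, hl, ha⟩
    exact ⟨c • l, W.smul_mem c hl, fun g => by rw [smul_dotProduct, ha, Pi.smul_apply]⟩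

variable {D : Dat G R F0 d} {p : ℕ} [Finite R]

lemma CD.rz_basic (h : CD p D) {τ : G →* Matrix (Fin n) (Fin n) k} {v f : Fin n → k}
    {c : (R →+* k) →₀ ℕ} (hE : EndFun D τ v f c) {u : Fin d → R} (hu : D.sing u) :
    (fun w => mono c (D.β u w)) ∈ Rz D ⊤ fun g => τ g *ᵥ v := by
  obtain ⟨κ, hκ, hE⟩ := hE
  obtain ⟨r, g, rfl⟩ := h.pts u hu
  refine ⟨(mono c (D.σ r) * κ⁻¹) • (f ᵥ* τ g⁻¹), trivial, fun x => ?_⟩
  beta_reduce
  rw [smul_dotProduct, ← dotProduct_mulVec, ← mul_vec, hE, chi_eq, D.β_smul_left, mono_mul, h.inv',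
    ← mul_vec, smul_eq_mul]
  field_simp

variable [hp : Fact p.Prime] [CharP k p] [IsAlgClosed k]

lemma CD.rz_exp (h : CD p D) (W : Submodule k ((Fin d → R) → k)) {c : (R →+* k) → ℕ}
    (hc : ∀ θ, c θ < p) {u0 u1 : Fin d → R}
    (hW : ∀ μ : R, (fun w => mono c (D.β (u0 + μ • u1) w)) ∈ W) {e : (R →+* k) → ℕ}
    (he : e ≤ c) : (fun w => mono e (D.β u1 w) * mono (c - e) (D.β u0 w)) ∈ W := by
  have := h.char
  have := h.red
  have h1 := extract (p := p) W (Fintype.piFinset fun θ => Finset.range (c θ + 1))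
    (fun e he θ => lt_of_le_of_lt (Nat.lt_succ_iff.1 (Finset.mem_range.1
      (Fintype.mem_piFinset.1 he θ))) (hc θ))
    (fun e => bin c e • fun w => mono e (D.β u1 w) * mono (c - e) (D.β u0 w)) (fun μ => by
      convert hW (D.σ μ) using 1
      funext w
      rw [D.β_add_left, D.β_smul_left, h.sq, mono_expand, Finset.sum_apply]
      rfl) e (Fintype.mem_piFinset.2 fun θ => Finset.mem_range.2 (Nat.lt_succ_iff.2 (he θ)))
  have h2 := W.smul_mem (bin c e)⁻¹ h1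
  rwa [smul_smul, inv_mul_cancel₀ (bin_ne_zero hc he), one_smul] at h2

omit [Finite R] hp [CharP k p] [IsAlgClosed k] in
lemma CD.ts_span (h : CD p D) (hm : 0 < D.m) {s : Set (Fin d → R)} (h1 : ∀ x ∈ s, D.sing x)
    (h2 : ∀ x ∈ s, ∀ y ∈ s, D.β x y = 0) : D.TS (Submodule.span R s) := by
  have h3 : ∀ x ∈ Submodule.span R s, ∀ y ∈ Submodule.span R s, D.β x y = 0 := by
    intro x hx y hy
    induction hx using Submodule.span_induction with
    | mem x hx =>
      induction hy using Submodule.span_induction with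
      | mem y hy => exact h2 x hx y hy
      | zero => exact D.β_zero_right _
      | add y z _ _ hy hz => rw [D.β_add_right, hy, hz, add_zero]
      | smul a y _ hy => rw [D.β_smul_right, hy, mul_zero]
    | zero => exact D.β_zero_left _
    | add x z _ _ hx hz => rw [D.β_add_left, hx, hz, add_zero]
    | smul a x _ hx => rw [D.β_smul_left, hx, mul_zero]
  refine ⟨fun x hx => ?_, h3⟩
  induction hx using Submodule.span_induction with
  | mem x hx => exact h1 x hx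
  | zero => exact h.sing_zero.resolve_right hm.ne'
  | add x z hx' hz' hx hz => exact h.sing_add _ _ hx hz (h3 _ hx' _ hz')
  | smul a x _ hx => exact h.sing_smul _ _ hx

omit [Finite R] hp [CharP k p] [IsAlgClosed k] in
lemma CD.pts_unit (h : CD p D) {x : Fin d → R} (hx : D.sing x) {a : Fin d} (ha : IsUnit (x a)) :
    ∃ (r : Rˣ) (g : G), D.ρ g *ᵥ ee D.z = (r : R) • x := by
  obtain ⟨r, g, e⟩ := h.pts x hx
  have h1 : IsUnit r := by
    rw [e, Pi.smul_apply, smul_eq_mul] at ha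
    exact isUnit_of_mul_isUnit_left ha
  obtain ⟨r, rfl⟩ := h1
  exact ⟨r⁻¹, g, by rw [e, smul_smul, Units.inv_mul, one_smul]⟩

omit [Finite R] hp [CharP k p] [IsAlgClosed k] in
lemma CD.pt_line (h : CD p D) {b : Fin d} (hb : b.val < D.m) (hbz : b ≠ D.z) (μ : R) :
    ∃ g, D.ρ g *ᵥ ee D.z = ee D.z + μ • ee b := by
  have hz : D.z.val < D.m := by rw [h.z0]; omega
  obtain ⟨g, c', -, hg⟩ := h.rootel b D.z (D.not_mid hb) (D.not_mid hz) hbz (h.rev_ne hb hz) μ
  refine ⟨g, ?_⟩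
  rw [hg, add_mulVec, add_mulVec, one_mulVec, single_mulVec, single_mulVec, ee_self,
    ee_ne (h.rev_ne hz hb).symm, mul_zero, mul_one]
  funext a
  by_cases h1 : a = b
  · subst h1
    simp [ee_self]
  · simp [ee_ne h1, h1]

end

section
variable {G : Type u} [Group G] {R F0 : Type} [CommRing R] [Field F0] {d : ℕ} [Finite R]
  {G' : Type u} [Group G'] {R' F0' : Type} [CommRing R'] [Field F0'] {d' : ℕ} [Finite R']
  {k : Type} [Field k]

/-- the natural module of `G'` has monomial matrix coefficients for `G` -/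
def EP (p : ℕ) (D : Dat G R F0 d) (D' : Dat G' R' F0' d') (ψ : G →* G')
    (cs : (R' →+* k) → (R →+* k) → ℕ) : Prop :=
  ∀ θ, cs θ ≠ 0 ∧ (∀ θ', cs θ θ' < p) ∧ ∃ κ : k, κ ≠ 0 ∧ ∀ g g',
    θ (D'.β (D'.ρ (ψ g) *ᵥ ee D'.z) (D'.ρ (ψ g') *ᵥ ee D'.z)) =
      κ * mono (cs θ) (D.β (D.ρ g *ᵥ ee D.z) (D.ρ g' *ᵥ ee D.z))

variable {p : ℕ} {D : Dat G R F0 d} {D' : Dat G' R' F0' d'} {ψ : G →* G'}
  {cs : (R' →+* k) → (R →+* k) → ℕ} [hp : Fact p.Prime] [CharP k p] [IsAlgClosed k]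

lemma EP.orth (hE : EP p D D' ψ cs) (h' : CD p D') {g g' : G}
    (h0 : D.β (D.ρ g *ᵥ ee D.z) (D.ρ g' *ᵥ ee D.z) = 0) :
    D'.β (D'.ρ (ψ g) *ᵥ ee D'.z) (D'.ρ (ψ g') *ᵥ ee D'.z) = 0 := by
  have := h'.char
  have := h'.red
  refine eq_zero_of_hom (k := k) (p := p) fun θ => ?_
  obtain ⟨h1, -, κ, -, h2⟩ := hE θ
  rw [h2, h0, mono_zero' h1, mul_zero]

lemma EP.unit (hE : EP p D D' ψ cs) (h' : CD p D') {g g' : G}
    (h0 : IsUnit (D.β (D.ρ g *ᵥ ee D.z) (D.ρ g' *ᵥ ee D.z))) :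
    IsUnit (D'.β (D'.ρ (ψ g) *ᵥ ee D'.z) (D'.ρ (ψ g') *ᵥ ee D'.z)) := by
  have := h'.char
  refine isUnit_of_hom (k := k) (p := p) fun θ => ?_
  obtain ⟨-, -, κ, hκ, h2⟩ := hE θ
  rw [h2]
  exact mul_ne_zero hκ (mono_ne_zero _ h0)

lemma dot_map_add (θ : R' →+* k) (l : Fin d' → k) (x y : Fin d' → R') :
    l ⬝ᵥ (fun a => θ ((x + y) a)) = l ⬝ᵥ (fun a => θ (x a)) + l ⬝ᵥ fun a => θ (y a) := by
  rw [← dotProduct_add]
  congr 1
  funext a
  simp

lemma dot_map_smul (θ : R' →+* k) (l : Fin d' → k) (r : R') (x : Fin d' → R') :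
    l ⬝ᵥ (fun a => θ ((r • x) a)) = θ r * l ⬝ᵥ fun a => θ (x a) := by
  rw [← smul_eq_mul, ← dotProduct_smul]
  congr 1
  funext a
  simp

theorem digit_le_one (h : CD p D) (h' : CD p D') (hm : 2 ≤ D.m) (hm' : 0 < D'.m)
    (hE : EP p D D' ψ cs) {θ : R' →+* k} {θ1 θ2 : R →+* k}
    (hj : Pi.single θ1 1 + Pi.single θ2 1 ≤ cs θ) {n : ℕ} {τ : G' →* Matrix (Fin n) (Fin n) k}
    {v f : Fin n → k} {c : (R' →+* k) →₀ ℕ} (hc : ∀ θ, c θ < p) (hV : EndFun D' τ v f c)
    (hv : v ≠ 0) (hτ : AI (τ.comp ψ)) : c θ ≤ 1 := by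
  by_contra hc2
  push Not at hc2
  have h2 : (2 : k) ≠ 0 := by
    intro h0
    have h1 : p ∣ 2 := (CharP.cast_eq_zero_iff k p 2).1 (by exact_mod_cast h0)
    have := Nat.le_of_dvd two_pos h1
    have := hc θ
    omega
  have hd := h.le_d
  let b : Fin d := ⟨1, by omega⟩
  have hb : b.val < D.m := hm
  have hz : D.z.val < D.m := by rw [h.z0]; omega
  have hbz : b ≠ D.z := fun h0 => by
    have := congrArg Fin.val h0
    rw [h.z0] at this
    exact one_ne_zero this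
  set e := (ee D.z : Fin d → R) with he
  set e' := (ee D'.z : Fin d' → R') with he'
  let s : Set (Fin d' → R') := {x | ∃ (g : G) (μ : R), D.ρ g *ᵥ e = e + μ • ee b ∧
    x = D'.ρ (ψ g) *ᵥ e'}
  have hβ : ∀ μ ν : R, D.β (e + μ • ee b) (e + ν • ee b) = 0 := by
    intro μ ν
    simp only [D.β_add_left, D.β_add_right, D.β_smul_left, D.β_smul_right, he,
      h.β_pos (D.not_mid hz) (h.rev_ne hz hz), h.β_pos (D.not_mid hz) (h.rev_ne hb hz),
      h.β_pos (D.not_mid hb) (h.rev_ne hz hb), h.β_pos (D.not_mid hb) (h.rev_ne hb hb)]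
    ring
  have hTS : D'.TS (Submodule.span R' s) := by
    refine h'.ts_span hm' ?_ ?_
    · rintro _ ⟨g, μ, -, rfl⟩
      exact h'.sing_pt hm' _
    · rintro _ ⟨g, μ, hg, rfl⟩ _ ⟨g', ν, hg', rfl⟩
      exact hE.orth h' (by rw [← he, hg, hg', hβ])
  have he's : e' ∈ Submodule.span R' s := Submodule.subset_span
    ⟨1, 0, by rw [map_one, one_mulVec, zero_smul, add_zero], by rw [map_one, map_one, one_mulVec]⟩
  let L : Submodule k (Fin d' → k) :=
    Submodule.span k {l | ∃ u ∈ Submodule.span R' s, l = D'.bv θ u}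
  obtain ⟨-, hcs, κ, hκ, hEθ⟩ := hE θ
  have hX : ∀ {e0 : (R →+* k) → ℕ}, e0 ≤ cs θ → ∃ l ∈ L, ∀ g,
      l ⬝ᵥ (fun a => θ ((D'.ρ (ψ g) *ᵥ e') a)) =
        mono e0 (D.β (ee b) (D.ρ g *ᵥ e)) * mono (cs θ - e0) (D.β e (D.ρ g *ᵥ e)) := by
    intro e0 he0
    refine h.rz_exp (Rz D L fun g a => θ ((D'.ρ (ψ g) *ᵥ e') a)) hcs (fun μ => ?_) he0
    obtain ⟨g, hg⟩ := h.pt_line hb hbz μ
    refine ⟨κ⁻¹ • D'.bv θ (D'.ρ (ψ g) *ᵥ e'), L.smul_mem _ (Submodule.subset_span
      ⟨_, Submodule.subset_span ⟨g, μ, hg, rfl⟩, rfl⟩), fun x => ?_⟩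
    rw [smul_dotProduct, D'.bv_dot, hEθ, hg, smul_eq_mul, ← mul_assoc, inv_mul_cancel₀ hκ, one_mul]
  have hle1 : Pi.single θ1 1 ≤ cs θ := le_trans le_self_add hj
  have hle2 : Pi.single θ2 1 ≤ cs θ := le_trans le_add_self hj
  obtain ⟨l0, hl0, e0⟩ := hX (e0 := 0) (zero_le)
  obtain ⟨l1, hl1, e1⟩ := hX hle1
  obtain ⟨l2, hl2, e2⟩ := hX hle2
  obtain ⟨l3, hl3, e3⟩ := hX hj
  let q : (Fin d' → R') → k := fun w => mono (⇑c - Pi.single θ 2) (D'.β e' w)
  let W := Rz D' ⊤ fun g => τ g *ᵥ v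
  have hsq : ∀ u ∈ Submodule.span R' s, (fun w => θ (D'.β u w) ^ 2 * q w) ∈ W := by
    intro u hu
    have h1 := h'.rz_exp W hc (u0 := e') (u1 := u) (fun μ => h'.rz_basic hV
      (hTS.1 _ (Submodule.add_mem _ he's (Submodule.smul_mem _ _ hu)))) (e := Pi.single θ 2)
      (fun θ' => by
        by_cases h3 : θ' = θ
        · subst h3
          rw [Pi.single_eq_same]
          exact hc2
        · rw [Pi.single_eq_of_ne h3]
          exact Nat.zero_le _)
    simpa only [mono_single] using h1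
  have hbil : ∀ l ∈ L, ∀ l' ∈ L, (fun w => (l ⬝ᵥ fun a => θ (w a)) * (l' ⬝ᵥ fun a => θ (w a)) *
      q w) ∈ W := by
    intro l hl l' hl'
    induction hl using Submodule.span_induction with
    | mem l hl =>
      induction hl' using Submodule.span_induction with
      | mem l' hl' =>
        obtain ⟨u, hu, rfl⟩ := hl
        obtain ⟨u', hu', rfl⟩ := hl'
        have h1 := W.smul_mem (2 : k)⁻¹ (W.sub_mem (W.sub_mem
          (hsq _ (Submodule.add_mem _ hu hu')) (hsq _ hu)) (hsq _ hu'))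
        convert h1 using 1
        funext w
        simp only [D'.bv_dot, Pi.smul_apply, Pi.sub_apply, D'.β_add_left, map_add, smul_eq_mul]
        field_simp
        ring
      | zero => convert W.zero_mem using 1; funext w; simp
      | add y z _ _ hy hz =>
        convert W.add_mem hy hz using 1; funext w; simp only [add_dotProduct, Pi.add_apply]; ring
      | smul a y _ hy =>
        convert W.smul_mem a hy using 1; funext w
        simp only [smul_dotProduct, Pi.smul_apply, smul_eq_mul]; ring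
    | zero => convert W.zero_mem using 1; funext w; simp
    | add y z _ _ hy hz =>
      convert W.add_mem hy hz using 1; funext w; simp only [add_dotProduct, Pi.add_apply]; ring
    | smul a y _ hy =>
      convert W.smul_mem a hy using 1; funext w
      simp only [smul_dotProduct, Pi.smul_apply, smul_eq_mul]; ring
  obtain ⟨lam, -, hlam⟩ := W.sub_mem (hbil _ hl0 _ hl3) (hbil _ hl1 _ hl2)
  have hlam0 : lam = 0 := by
    refine hτ.eq_zero hv fun g => ?_
    change lam ⬝ᵥ (τ (ψ g) *ᵥ v) = 0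
    rw [hlam, Pi.sub_apply, ← he', e0, e1, e2, e3, ← sub_mul]
    refine mul_eq_zero_of_left (sub_eq_zero.2 ?_) _
    have h3 : cs θ - 0 + (cs θ - (Pi.single θ1 1 + Pi.single θ2 1)) =
        cs θ - Pi.single θ1 1 + (cs θ - Pi.single θ2 1) := by
      funext t
      have := hj t
      simp only [Pi.add_apply, Pi.sub_apply, Pi.zero_apply] at this ⊢
      omega
    have h4 := congrArg (fun t => mono t (D.β e (D.ρ g *ᵥ e))) h3
    simp only [mono_add] at h4 ⊢
    rw [mono_zero]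
    linear_combination (mono (Pi.single θ1 1) (D.β (ee b) (D.ρ g *ᵥ e)) *
      mono (Pi.single θ2 1) (D.β (ee b) (D.ρ g *ᵥ e))) * h4
  have hvan : ∀ w, D'.sing w → IsUnit (D'.β e' w) →
      (l0 ⬝ᵥ fun a => θ (w a)) * (l3 ⬝ᵥ fun a => θ (w a)) =
        (l1 ⬝ᵥ fun a => θ (w a)) * (l2 ⬝ᵥ fun a => θ (w a)) := by
    intro w hw hu
    obtain ⟨r, g, rfl⟩ := h'.pts w hw
    have h3 := hlam g
    rw [hlam0, zero_dotProduct, Pi.sub_apply, ← sub_mul] at h3
    rw [D'.β_smul_right] at hu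
    have h4 := (mul_eq_zero.1 h3.symm).resolve_right
      (mono_ne_zero _ (isUnit_of_mul_isUnit_right hu))
    simp only [dot_map_smul]
    linear_combination (θ r) ^ 2 * h4
  obtain ⟨r0, g0, hg0⟩ := h.pts_unit (h.sing_ee _ (D.not_mid' hz)) (a := D.z.rev)
    (by rw [ee_self]; exact isUnit_one)
  have hbz' : b.rev ≠ D.z.rev := fun h0 => hbz (Fin.rev_injective h0)
  have hrr : ∀ {a a' : Fin d}, a.val < D.m → a'.val < D.m → D.β (ee a.rev) (ee a'.rev) = 0 :=
    fun ha ha' => h.β_pos (D.not_mid' ha) (by rw [Fin.rev_rev]; exact (h.rev_ne ha ha').symm)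
  obtain ⟨r1, g1, hg1⟩ := h.pts_unit (h.sing_add _ _ (h.sing_ee _ (D.not_mid' hz))
    (h.sing_ee _ (D.not_mid' hb)) (hrr hz hb)) (a := D.z.rev)
    (by rw [Pi.add_apply, ee_self, ee_ne hbz'.symm, add_zero]; exact isUnit_one)
  rw [← he] at hg0 hg1
  have hx0 : IsUnit (D.β e (D.ρ g0 *ᵥ e)) := by
    rw [hg0, D.β_smul_right]
    exact r0.isUnit.mul (h.β_unit (D.not_mid hz))
  have hy0 : D.β (ee b) (D.ρ g0 *ᵥ e) = 0 := by
    rw [hg0, D.β_smul_right, h.β_pos (D.not_mid hb) hbz'.symm, mul_zero]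
  have hx1 : IsUnit (D.β e (D.ρ g1 *ᵥ e)) := by
    rw [hg1, D.β_smul_right, D.β_add_right, he, h.β_pos (D.not_mid hz) hbz', add_zero]
    exact r1.isUnit.mul (h.β_unit (D.not_mid hz))
  have hy1 : IsUnit (D.β (ee b) (D.ρ g1 *ᵥ e)) := by
    rw [hg1, D.β_smul_right, D.β_add_right, h.β_pos (D.not_mid hb) hbz'.symm, zero_add]
    exact r1.isUnit.mul (h.β_unit (D.not_mid hb))
  set w0 := D'.ρ (ψ g0) *ᵥ e' with hw0
  set w1 := D'.ρ (ψ g1) *ᵥ e' with hw1
  have hb0 : IsUnit (D'.β e' w0) := by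
    have := hE.unit h' (g := 1) (g' := g0) (by rwa [map_one, one_mulVec])
    rwa [map_one, map_one, one_mulVec] at this
  have h01 : D'.β w0 w1 = 0 := hE.orth h' (by
    rw [← he, hg0, hg1, D.β_smul_left, D.β_smul_right, D.β_add_right, hrr hz hz, hrr hz hb]
    ring)
  obtain ⟨b0, hb0'⟩ := hb0
  have hs : ∀ t : R', D'.sing ((1 - t * (D'.β e' w1 * (b0⁻¹ : R'ˣ))) • w0 + t • w1) :=
    fun t => h'.sing_comb (h'.sing_pt hm' _) (h'.sing_pt hm' _) h01 _ _
  have hu : ∀ t : R', IsUnit (D'.β e' ((1 - t * (D'.β e' w1 * (b0⁻¹ : R'ˣ))) • w0 + t • w1)) := by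
    intro t
    rw [D'.β_add_right, D'.β_smul_right, D'.β_smul_right, ← hb0']
    convert b0.isUnit using 1
    have := b0.inv_mul
    linear_combination (-t * D'.β e' w1) * this
  have k1 := hvan _ (hs 1) (hu 1)
  have k2 := hvan _ (hs (-1)) (hu (-1))
  have z1 : (l1 ⬝ᵥ fun a => θ (w0 a)) = 0 := by
    rw [e1, hy0, mono_single, map_zero, pow_one, zero_mul]
  have z2 : (l2 ⬝ᵥ fun a => θ (w0 a)) = 0 := by
    rw [e2, hy0, mono_single, map_zero, pow_one, zero_mul]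
  have z3 : (l3 ⬝ᵥ fun a => θ (w0 a)) = 0 := by
    rw [e3, hy0, mono_add, mono_single, map_zero, pow_one, zero_mul, zero_mul]
  have n0 : (l0 ⬝ᵥ fun a => θ (w0 a)) ≠ 0 := by
    rw [e0, mono_zero, one_mul]
    exact mono_ne_zero _ hx0
  have n3 : (l3 ⬝ᵥ fun a => θ (w1 a)) ≠ 0 := by
    rw [e3]
    exact mul_ne_zero (mono_ne_zero _ hy1) (mono_ne_zero _ hx1)
  simp only [dot_map_add, dot_map_smul, z1, z2, z3, map_sub, map_mul, map_one, map_neg] at k1 k2
  refine mul_ne_zero h2 (mul_ne_zero n0 n3) ?_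
  linear_combination k1 - k2

end

end Vale.Agent.P183M
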