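import Vale.Agent.P183M.R1
import Vale.Agent.P183CR.Abs

/-!
Basic facts: the form, matrix representations, homomorphisms of the coefficient ring.
-/

set_option autoImplicit false
set_option linter.all false

namespace Vale.Agent.P183M

open Matrix Subgroup Vale.Agent.P240.H195 Vale.Agent.P183CR

universe u

section
variable {G : Type u} [Group G] {K : Type} [CommRing K] {n : ℕ}

lemma mul_inv_vec (τ : G →* Matrix (Fin n) (Fin n) K) (g : G) (x : Fin n → K) :
    τ g *ᵥ (τ g⁻¹ *ᵥ x) = x := by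
  rw [mulVec_mulVec, ← map_mul, mul_inv_cancel, map_one, one_mulVec]

lemma inv_mul_vec (τ : G →* Matrix (Fin n) (Fin n) K) (g : G) (x : Fin n → K) :
    τ g⁻¹ *ᵥ (τ g *ᵥ x) = x := by
  rw [mulVec_mulVec, ← map_mul, inv_mul_cancel, map_one, one_mulVec]

lemma mul_vec (τ : G →* Matrix (Fin n) (Fin n) K) (g h : G) (x : Fin n → K) :
    τ (g * h) *ᵥ x = τ g *ᵥ (τ h *ᵥ x) := by
  rw [mulVec_mulVec, ← map_mul]

lemma tw_apply {k : Type} [CommRing k] (θ : K →+* k) (τ : G →* Matrix (Fin n) (Fin n) K) (g : G) :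
    tw θ τ g = (τ g).map θ := rfl

lemma map_mulVec' {k : Type} [CommRing k] (θ : K →+* k) (M : Matrix (Fin n) (Fin n) K)
    (x : Fin n → K) : M.map θ *ᵥ (fun a => θ (x a)) = fun a => θ ((M *ᵥ x) a) := by
  funext a
  exact (RingHom.map_mulVec θ M x a).symm

lemma map_ee {k : Type} [CommRing k] (θ : K →+* k) (a : Fin n) :
    (fun b => θ ((ee a : Fin n → K) b)) = ee a := by
  funext b
  unfold ee
  by_cases h : b = a
  · subst h
    simp
  · simp [Pi.single_eq_of_ne h]

lemma ee_self (a : Fin n) : (ee a : Fin n → K) a = 1 := Pi.single_eq_same _ _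

lemma ee_ne {a b : Fin n} (h : b ≠ a) : (ee a : Fin n → K) b = 0 := Pi.single_eq_of_ne h _

lemma mulVec_ee (M : Matrix (Fin n) (Fin n) K) (a b : Fin n) : (M *ᵥ ee a) b = M b a := by
  unfold ee
  rw [mulVec_single_one]
  rfl

lemma AI.ind {τ : G →* Matrix (Fin n) (Fin n) K} (h : AI τ) {P : Matrix (Fin n) (Fin n) K → Prop}
    (h1 : ∀ g, P (τ g)) (h0 : P 0) (ha : ∀ x y, P x → P y → P (x + y))
    (hs : ∀ (c : K) x, P x → P (c • x)) (M : Matrix (Fin n) (Fin n) K) : P M := by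
  have hM : M ∈ Submodule.span K (Set.range τ) := by rw [h]; trivial
  induction hM using Submodule.span_induction with
  | mem x hx =>
    obtain ⟨g, rfl⟩ := hx
    exact h1 g
  | zero => exact h0
  | add x y _ _ hx hy => exact ha x y hx hy
  | smul a x _ hx => exact hs a x hx

lemma AI.tw {τ : G →* Matrix (Fin n) (Fin n) K} (h : AI τ) {k : Type} [CommRing k]
    (θ : K →+* k) : AI (tw θ τ) := by
  have h1 : ∀ M : Matrix (Fin n) (Fin n) K,
      M.map θ ∈ Submodule.span k (Set.range (Vale.Agent.P183M.tw θ τ)) := by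
    refine h.ind (fun g => Submodule.subset_span ⟨g, rfl⟩) ?_ ?_ ?_
    · rw [Matrix.map_zero _ (map_zero θ)]
      exact Submodule.zero_mem _
    · intro x y hx hy
      rw [Matrix.map_add _ (map_add θ)]
      exact Submodule.add_mem _ hx hy
    · intro c x hx
      have : (c • x).map θ = θ c • x.map θ := by
        ext i j
        simp
      rw [this]
      exact Submodule.smul_mem _ _ hx
  rw [AI, eq_top_iff]
  intro M _
  rw [matrix_eq_sum_single M]
  refine Submodule.sum_mem _ fun i _ => Submodule.sum_mem _ fun j _ => ?_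
  have h2 : single i j (M i j) = M i j • (single i j (1 : K)).map θ := by
    rw [Matrix.map_single, map_one, smul_single, smul_eq_mul, mul_one]
  rw [h2]
  exact Submodule.smul_mem _ _ (h1 _)

lemma AI.of_comp {G' : Type u} [Group G'] {τ : G →* Matrix (Fin n) (Fin n) K} {ψ : G' →* G}
    (h : AI (τ.comp ψ)) : AI τ := by
  rw [AI, eq_top_iff, ← h]
  refine Submodule.span_mono ?_
  rintro _ ⟨g, rfl⟩
  exact ⟨ψ g, rfl⟩

/-- the dual representation -/
def dl (τ : G →* Matrix (Fin n) (Fin n) K) : G →* Matrix (Fin n) (Fin n) K where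
  toFun g := (τ g⁻¹)ᵀ
  map_one' := by rw [inv_one, map_one, transpose_one]
  map_mul' a b := by rw [_root_.mul_inv_rev, map_mul, transpose_mul]

lemma AI.dl {τ : G →* Matrix (Fin n) (Fin n) K} (h : AI τ) : AI (dl τ) := by
  rw [AI, eq_top_iff]
  intro M _
  rw [← transpose_transpose M]
  refine h.ind (P := fun M => Mᵀ ∈ Submodule.span K (Set.range (Vale.Agent.P183M.dl τ)))
    (fun g => Submodule.subset_span ⟨g⁻¹, ?_⟩) ?_ ?_ ?_ _
  · change (τ g⁻¹⁻¹)ᵀ = _
    rw [inv_inv]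
  · exact Submodule.zero_mem _
  · intro x y hx hy
    exact Submodule.add_mem _ hx hy
  · intro c x hx
    exact Submodule.smul_mem _ c hx

end

section
variable {G : Type u} [Group G] {k : Type} [Field k] {n : ℕ} {τ : G →* Matrix (Fin n) (Fin n) k}

lemma mrep_apply (g : G) (x : Fin n → k) : mrep τ g x = τ g *ᵥ x := by
  change Matrix.toLinAlgEquiv' (τ g) x = _
  rw [toLinAlgEquiv'_apply]

lemma AI.absIrr (h : AI τ) (hn : 0 < n) : AbsIrr (mrep τ) := by
  have : Nonempty (Fin n) := ⟨⟨0, hn⟩⟩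
  refine ⟨inferInstance, eq_top_iff.2 fun f _ => ?_⟩
  obtain ⟨M, rfl⟩ := (Matrix.toLinAlgEquiv' (R := k) (n := Fin n)).surjective f
  refine h.ind (P := fun M => Matrix.toLinAlgEquiv' M ∈ Submodule.span k (Set.range (mrep τ)))
    (fun g => Submodule.subset_span ⟨g, rfl⟩) ?_ ?_ ?_ _
  · rw [map_zero]
    exact Submodule.zero_mem _
  · intro x y hx hy
    rw [map_add]
    exact Submodule.add_mem _ hx hy
  · intro c x hx
    rw [map_smul]
    exact Submodule.smul_mem _ c hx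

lemma pos_of_ne {v : Fin n → k} (hv : v ≠ 0) : 0 < n := by
  obtain ⟨a, -⟩ := Function.ne_iff.1 hv
  exact Nat.lt_of_le_of_lt (Nat.zero_le _) a.2

lemma AI.eq_zero (h : AI τ) {v l : Fin n → k} (hv : v ≠ 0) (hl : ∀ g, l ⬝ᵥ (τ g *ᵥ v) = 0) :
    l = 0 := by
  have h1 : ∀ M : Matrix (Fin n) (Fin n) k, l ⬝ᵥ (M *ᵥ v) = 0 := by
    refine h.ind hl (by simp) ?_ ?_
    · intro x y hx hy
      rw [add_mulVec, dotProduct_add, hx, hy, add_zero]
    · intro c x hx
      rw [smul_mulVec, dotProduct_smul, hx, smul_zero]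
  obtain ⟨a, ha⟩ := Function.ne_iff.1 hv
  funext b
  have h2 := h1 (single b a 1)
  rw [single_mulVec, dotProduct_comm, dotProduct, Finset.sum_eq_single b] at h2
  · simp only [Function.update_self, one_mul, mul_eq_zero] at h2
    exact h2.resolve_left ha
  · intro c _ hc
    rw [Function.update_of_ne hc, Pi.zero_apply, zero_mul]
  · intro h3
    exact absurd (Finset.mem_univ _) h3

lemma AI.scalar (h : AI τ) {M : Matrix (Fin n) (Fin n) k} (hM : ∀ g, M * τ g = τ g * M) :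
    ∃ c : k, M = c • (1 : Matrix (Fin n) (Fin n) k) := by
  have h1 : ∀ N : Matrix (Fin n) (Fin n) k, M * N = N * M := by
    refine h.ind hM (by simp) ?_ ?_
    · intro x y hx hy
      rw [mul_add, add_mul, hx, hy]
    · intro c x hx
      rw [Matrix.mul_smul, Matrix.smul_mul, hx]
  obtain ⟨c, hc⟩ := Matrix.mem_range_scalar_iff_commute_single'.2
    fun i j => (h1 (single i j 1)).symm
  exact ⟨c, by rw [← hc, scalar_apply, smul_one_eq_diagonal]⟩

variable {p : ℕ} [CharP k p] [Finite G] {B N U : Subgroup G} {S : Set G}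

lemma fix_vec (h : SBA p B N U S) (hτ : AI τ) {v x : Fin n → k} (hv0 : v ≠ 0)
    (hv : ∀ u ∈ U, τ u *ᵥ v = v) (hx : ∀ u ∈ U, τ u *ᵥ x = x) : ∃ c : k, x = c • v :=
  h.toSBP.fix_line (h.good_of_absIrr (hτ.absIrr (pos_of_ne hv0)))
    (fun u hu => by rw [mrep_apply, hv u hu]) hv0 fun u hu => by rw [mrep_apply, hx u hu]

lemma fix_fun (h : SBA p B N U S) (hτ : AI τ) {v x : Fin n → k} (hv0 : v ≠ 0)
    (hv : ∀ u ∈ U, v ᵥ* τ u = v) (hx : ∀ u ∈ U, x ᵥ* τ u = x) : ∃ c : k, x = c • v :=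
  fix_vec h hτ.dl hv0 (fun u hu => by
    change (τ u⁻¹)ᵀ *ᵥ v = v
    rw [mulVec_transpose, hv _ (inv_mem hu)]) fun u hu => by
    change (τ u⁻¹)ᵀ *ᵥ x = x
    rw [mulVec_transpose, hx _ (inv_mem hu)]

end

namespace Dat

variable {G : Type u} [Group G] {R F0 : Type} [CommRing R] [Field F0] {d : ℕ}
  (D : Dat G R F0 d)

lemma β_add_left (x x' y : Fin d → R) : D.β (x + x') y = D.β x y + D.β x' y := by
  unfold β
  rw [← add_dotProduct]
  congr 1
  funext a
  simp

lemma β_add_right (x y y' : Fin d → R) : D.β x (y + y') = D.β x y + D.β x y' := by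
  unfold β
  rw [mulVec_add, dotProduct_add]

lemma β_smul_left (c : R) (x y : Fin d → R) : D.β (c • x) y = D.σ c * D.β x y := by
  unfold β
  rw [← smul_eq_mul, ← smul_dotProduct]
  congr 1
  funext a
  simp

lemma β_smul_right (c : R) (x y : Fin d → R) : D.β x (c • y) = c * D.β x y := by
  unfold β
  rw [mulVec_smul, dotProduct_smul, smul_eq_mul]

lemma β_zero_left (y : Fin d → R) : D.β 0 y = 0 := by
  have := D.β_smul_left 0 0 y
  rwa [zero_smul, map_zero, zero_mul] at this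

lemma β_zero_right (y : Fin d → R) : D.β y 0 = 0 := by
  have := D.β_smul_right 0 y 0
  rwa [zero_smul, zero_mul] at this

lemma β_neg_left (x y : Fin d → R) : D.β (-x) y = - D.β x y := by
  rw [← neg_one_smul R x, β_smul_left, map_neg, map_one, neg_one_mul]

lemma β_neg_right (x y : Fin d → R) : D.β x (-y) = - D.β x y := by
  rw [← neg_one_smul R y, β_smul_right, neg_one_mul]

lemma β_sub_left (x x' y : Fin d → R) : D.β (x - x') y = D.β x y - D.β x' y := by
  rw [sub_eq_add_neg, β_add_left, β_neg_left, sub_eq_add_neg]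

lemma β_sub_right (x y y' : Fin d → R) : D.β x (y - y') = D.β x y - D.β x y' := by
  rw [sub_eq_add_neg, β_add_right, β_neg_right, sub_eq_add_neg]

lemma β_ee_left (a : Fin d) (y : Fin d → R) : D.β (ee a) y = (D.J *ᵥ y) a := by
  unfold β
  rw [show (fun b => D.σ ((ee a : Fin d → R) b)) = ee a from map_ee (D.σ : R →+* R) a]
  unfold ee
  rw [single_dotProduct, one_mul]

lemma β_ee (a b : Fin d) : D.β (ee a) (ee b) = D.J a b := by
  rw [β_ee_left, mulVec_ee]

lemma ro_mulVec (u v y : Fin d → R) : D.ro u v *ᵥ y = D.β v y • u := by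
  unfold ro β
  rw [vecMulVec_mulVec, dotProduct_mulVec, op_smul_eq_smul]

/-- the coefficient vector of `θ (β u ·)` -/
def bv {k : Type} [CommRing k] (θ : R →+* k) (u : Fin d → R) : Fin d → k :=
  fun a => θ (((fun b => D.σ (u b)) ᵥ* D.J) a)

lemma bv_dot {k : Type} [CommRing k] (θ : R →+* k) (u w : Fin d → R) :
    D.bv θ u ⬝ᵥ (fun a => θ (w a)) = θ (D.β u w) := by
  unfold bv β
  rw [dotProduct_mulVec, dotProduct, dotProduct, map_sum]
  exact Finset.sum_congr rfl fun a _ => (map_mul θ _ _).symm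

lemma mid_rev {a : Fin d} : D.Mid a.rev ↔ D.Mid a := by
  unfold Mid
  rw [Fin.rev_rev, and_comm]

lemma not_mid {a : Fin d} (h : a.val < D.m) : ¬ D.Mid a := fun h1 => absurd h1.1 (not_le.2 h)

lemma not_mid' {a : Fin d} (h : a.val < D.m) : ¬ D.Mid a.rev := fun h1 =>
  D.not_mid h (D.mid_rev.1 h1)

end Dat

namespace CD

variable {G : Type u} [Group G] {R F0 : Type} [CommRing R] [Field F0] {d : ℕ}
  {D : Dat G R F0 d} {p : ℕ} (h : CD p D)
include h

lemma inv' (g : G) (x y : Fin d → R) : D.β (D.ρ g *ᵥ x) y = D.β x (D.ρ g⁻¹ *ᵥ y) := by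
  rw [← h.inv g x (D.ρ g⁻¹ *ᵥ y), mul_inv_vec]

lemma inv'' (g : G) (x y : Fin d → R) : D.β x (D.ρ g *ᵥ y) = D.β (D.ρ g⁻¹ *ᵥ x) y := by
  rw [h.inv', inv_inv]

lemma β_symm {x y : Fin d → R} (h0 : D.β x y = 0) : D.β y x = 0 := by
  obtain ⟨ε, -, hε⟩ := h.eps
  rw [hε, h0, map_zero, mul_zero]

lemma fix_z {u : G} (hu : u ∈ D.U) : D.ρ u *ᵥ ee D.z = ee D.z := by
  funext a
  rw [mulVec_ee]
  by_cases h1 : a = D.z
  · rw [h1, (h.up u hu).1.2, ee_self]
  · rw [ee_ne h1]
    refine (h.up u hu).1.1 _ _ (lt_of_le_of_ne ?_ (Ne.symm h1))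
    rw [Fin.le_def, h.z0]
    exact Nat.zero_le _

lemma rev_ne {a b : Fin d} (ha : a.val < D.m) (hb : b.val < D.m) : a ≠ b.rev := by
  intro h1
  have h2 := congrArg Fin.val h1
  rw [Fin.val_rev] at h2
  have := h.le_d
  omega

lemma β_pos {a b : Fin d} (ha : ¬ D.Mid a) (hab : b ≠ a.rev) : D.β (ee a) (ee b) = 0 := by
  rw [D.β_ee]
  exact h.J_zero a b hab fun h1 => ha h1.1

lemma β_unit {a : Fin d} (ha : ¬ D.Mid a) : IsUnit (D.β (ee a) (ee a.rev)) := by
  rw [D.β_ee]
  exact h.J_unit a ha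

lemma β_ee_eq {a : Fin d} (ha : ¬ D.Mid a) (y : Fin d → R) :
    D.β (ee a) y = D.J a a.rev * y a.rev := by
  rw [D.β_ee_left, mulVec, dotProduct, Finset.sum_eq_single a.rev]
  · intro b _ hb
    rw [h.J_zero a b hb fun h1 => ha h1.1, zero_mul]
  · intro h1
    exact absurd (Finset.mem_univ _) h1

lemma sing_zero : D.sing 0 ∨ D.m = 0 := by
  by_cases hm : D.m = 0
  · exact Or.inr hm
  · left
    have := h.sing_smul 0 _ (h.sing_ee D.z (D.not_mid (by rw [h.z0]; omega)))
    rwa [zero_smul] at this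

lemma sing_neg {x : Fin d → R} (hx : D.sing x) : D.sing (-x) := by
  rw [← neg_one_smul R x]
  exact h.sing_smul _ _ hx

lemma sing_comb {x y : Fin d → R} (hx : D.sing x) (hy : D.sing y) (hxy : D.β x y = 0) (a b : R) :
    D.sing (a • x + b • y) :=
  h.sing_add _ _ (h.sing_smul _ _ hx) (h.sing_smul _ _ hy) (by
    rw [D.β_smul_left, D.β_smul_right, hxy, mul_zero, mul_zero])

lemma sing_pt (hm : 0 < D.m) (g : G) : D.sing (D.ρ g *ᵥ ee D.z) :=
  h.sing_inv g _ (h.sing_ee D.z (D.not_mid (by rw [h.z0]; exact hm)))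

lemma eq_zero_of_β {y : Fin d → R} (hy : ∀ x, D.β x y = 0) : y = 0 := by
  have h1 : D.J *ᵥ y = 0 := funext fun a => by rw [← D.β_ee_left, hy]; rfl
  have h2 := congrArg (fun v => D.J⁻¹ *ᵥ v) h1
  simpa [mulVec_mulVec, nonsing_inv_mul _ h.nondeg] using h2

/-- two homomorphisms which agree on the fixed field differ by the involution -/
lemma hom_cases {k : Type} [Field k] {θ θ' : R →+* k} (h1 : θ.comp D.ι = θ'.comp D.ι) :
    θ' = θ ∨ θ' = θ.comp (D.σ : R →+* R) := by
  have h2 : ∀ r, D.σ r = r → θ r = θ' r := by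
    intro r hr
    obtain ⟨t, rfl⟩ := (h.fix r).1 hr
    exact DFunLike.congr_fun h1 t
  have h3 : ∀ r, θ' r = θ r ∨ θ' r = θ (D.σ r) := by
    intro r
    have e1 := h2 (r + D.σ r) (by rw [map_add, h.sq, add_comm])
    have e2 := h2 (r * D.σ r) (by rw [map_mul, h.sq, mul_comm])
    rw [map_add, map_add] at e1
    rw [map_mul, map_mul] at e2
    have e3 : (θ' r - θ r) * (θ' r - θ (D.σ r)) = 0 := by
      linear_combination (-θ' r) * e1 + e2
    rcases mul_eq_zero.1 e3 with e | e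
    · exact Or.inl (sub_eq_zero.1 e)
    · exact Or.inr (sub_eq_zero.1 e)
  by_contra h4
  push Not at h4
  obtain ⟨a, ha⟩ := DFunLike.ne_iff.1 h4.1
  obtain ⟨b, hb⟩ := DFunLike.ne_iff.1 h4.2
  have ha' := (h3 a).resolve_left ha
  have hb' : θ' b = θ b := (h3 b).resolve_right hb
  rcases h3 (a + b) with e | e
  · rw [map_add, map_add, hb'] at e
    exact ha (add_right_cancel e)
  · rw [map_add, map_add, map_add, ha'] at e
    exact hb (add_left_cancel e)

lemma σ_ι (t : F0) : D.σ (D.ι t) = D.ι t := (h.fix _).2 ⟨t, rfl⟩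

lemma comp_σ_ι {k : Type} [Field k] (θ : R →+* k) :
    (θ.comp (D.σ : R →+* R)).comp D.ι = θ.comp D.ι := by
  ext t
  simp [h.σ_ι]

end CD

end Vale.Agent.P183M
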