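import Vale.Agent.P183M.R1
import Vale.Agent.P183NK.CSI

/-!
Interfaces of the block `SameChar`.
-/

set_option autoImplicit false
set_option linter.all false

namespace Vale.Agent.P183M

open Matrix Subgroup Vale.Agent.P183NK

/-- the datum is of form type or of linear type -/
inductive Kind (p : ℕ) {G : Type} [Group G] {F0 : Type} [Field F0] {d : ℕ} :
    (R : Type) → [CommRing R] → Dat G R F0 d → Prop
  | f {F : Type} [Field F] {D : Dat G F F0 d} : CDF p D → Kind p F D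
  | l {F : Type} [Field F] {D : Dat G (F × F) F0 d} : CDL p D → Kind p (F × F) D

lemma Kind.cd {p : ℕ} {G : Type} [Group G] {F0 : Type} [Field F0] {d : ℕ} {R : Type} [CommRing R]
    {D : Dat G R F0 d} (h : Kind p R D) : CD p D := by
  cases h with
  | f h => exact h.toCD
  | l h => exact h.toCD

/-- A classical cover of the subgroup `T` of `G`. -/
structure Cv (p : ℕ) {G : Type} [Group G] (T : Subgroup G) where
  E : Type
  [grp : Group E]
  [fin : Finite E]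
  R : Type
  [cr : CommRing R]
  [finR : Finite R]
  F0 : Type
  [fd : Field F0]
  d : ℕ
  D : Dat E R F0 d
  kind : Kind p R D
  θ : E →* G
  range : θ.range = T
  ker : ∀ g, θ g = 1 ↔ ∃ c : R, D.ρ g = c • (1 : Matrix (Fin d) (Fin d) R)

attribute [instance] Cv.grp Cv.fin Cv.cr Cv.finR Cv.fd

namespace Cv

variable {p : ℕ} {G : Type} [Group G] {T T' : Subgroup G}

/-- the preimage of `X` spans the matrix ring over the prime field -/
def Full (C : Cv p T) (X : Subgroup G) : Prop :=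
  Subring.closure (C.D.ρ '' ((⁅X.comap C.θ, X.comap C.θ⁆ : Subgroup C.E) : Set C.E)) = ⊤

/-- automorphisms induced by `G` are semilinear -/
def Lifts (C : Cv p T) : Prop :=
  ∀ g : G, (∀ t ∈ T, g * t * g⁻¹ ∈ T) → ∃ (φ : C.R ≃+* C.R) (P P' : Matrix (Fin C.d) (Fin C.d) C.R),
    P * P' = 1 ∧ P' * P = 1 ∧ (∀ r, φ (C.D.σ r) = C.D.σ (φ r)) ∧
      ∀ ω ω' : C.E, C.θ ω' = g * C.θ ω * g⁻¹ →
        ∃ c : C.Rˣ, C.D.ρ ω' = (c : C.R) • (P * (C.D.ρ ω).map φ * P')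

/-- the natural module of `T` is of end type for `T'` -/
def End (C' : Cv p T') (C : Cv p T) : Prop :=
  ∃ g : C.E, (∀ u ∈ C'.D.U, ∀ y : C.E, IsP p y → C.θ y = C'.θ u → g⁻¹ * y * g ∈ C.D.U) ∧
    ∀ i < C'.D.rk, 0 < i → (C'.D.lty → i + 1 < C'.D.rk) → ∀ y : C.E, C.θ y = C'.θ (C'.D.nd i) →
      y ∈ LS C.D.ρ (C.D.ρ g *ᵥ ee C.D.z)

/-- the type of the datum -/
def Ty (C : Cv p T) (t : Prop × Prop × Prop) : Prop :=
  (C.D.lty ↔ t.1) ∧ (C.D.quad ↔ t.2.1) ∧ ((∃ r, C.D.σ r ≠ r) ↔ t.2.2)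

/-- `ψ` lies over the inclusion -/
def Over (C' : Cv p T') (C : Cv p T) (ψ : C'.E →* C.E) : Prop := ∀ g, C.θ (ψ g) = C'.θ g

end Cv

/-- the algebraic closure of the prime field -/
abbrev kk (p : ℕ) [Fact p.Prime] : Type := AlgebraicClosure (ZMod p)

/-- Bridge: models of large rank have coordinates. -/
def BR : Prop := ∀ m₀ : ℕ, ∃ d : ℕ, ∀ (G : Type) [Group G] (T : Subgroup G) (M : Model T),
  d < M.n → ∃ C : Cv M.p T, m₀ ≤ C.D.m ∧ (∀ X, M.Full X → C.Full X) ∧ (M.Lifts → C.Lifts)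

/-- Towers: compatible covers for a finite family of subgroups. -/
def TOW : Prop := ∀ (p : ℕ) (G : Type) [Group G] (ι : Type) [Finite ι] (T : ι → Subgroup G)
  (C : ∀ i, Cv p (T i)), (∀ i, 5 ≤ (C i).D.m) → ∃ C' : ∀ i, Cv p (T i),
    (∀ i j, T i ≤ T j → ∃ ψ, (C' i).Over (C' j) ψ) ∧
    (∀ i, (C' i).D.m = (C i).D.m ∧ (∀ t, (C i).Ty t → (C' i).Ty t) ∧
      (∀ X, (C i).Full X → (C' i).Full X) ∧ ((C i).Lifts → (C' i).Lifts)) ∧
    ∀ i j, (C' i).End (C' j) ↔ (C i).End (C j)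

/-- End type modules have monomial matrix coefficients. -/
def PP3 : Prop := ∀ (p : ℕ) [Fact p.Prime] (G : Type) [Group G] (T : Subgroup G) (C : Cv p T),
  5 ≤ C.D.m → P3 p (kk p) C.D

/-- No long chain in which all pairs are not of end type. -/
def S1 : Prop := ∃ m₀ l : ℕ, ∀ (p : ℕ) (G : Type) [Group G] (T : Fin (l + 1) → Subgroup G)
  (C : ∀ i, Cv p (T i)) (ψ : ∀ i j, i < j → ((C i).E →* (C j).E)),
    (∀ i, m₀ ≤ (C i).D.m) → (∀ i j, (C i).D.lty ↔ (C j).D.lty) →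
    (∀ i j h, (C i).Over (C j) (ψ i j h)) → (∀ i j h, AI ((C j).D.ρ.comp (ψ i j h))) →
    ∃ i j h, EndPair (C i).D (C j).D (ψ i j h)

/-- A full subgroup for which the natural module is natural is normal. -/
def NF : Prop := ∀ (p : ℕ) [Fact p.Prime] (G : Type) [Group G] (T' T : Subgroup G) (C' : Cv p T')
  (C : Cv p T) (ψ : C'.E →* C.E), 5 ≤ C'.D.m → 5 ≤ C.D.m → C'.Over C ψ → C.Full T' →
    (C'.D.quad → C.D.quad) → ∀ θ : C.R →+* kk p, Natural C'.D (tw θ (C.D.ρ.comp ψ)) →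
      ∀ t ∈ T, ∀ x ∈ T', t * x * t⁻¹ ∈ T'

/-- Nodes whose lower trees consist of nodes related to all their ancestors. -/
def PR {L : Type} [Lattice L] (m j : ℕ) (E : L → L → L → L → Prop) :
    ℕ → (L → L → Prop) → L → L → Prop
  | 0, P => P
  | r + 1, P => fun u z => P u z ∧ MT m (PR m j E r fun u' z' => P u' z' ∧ E u' z' u z) j u z

/-- Ramsey lemma for pairs of nodes. -/
def RM : Prop := ∀ m j r l : ℕ, 0 < m → ∃ M K : ℕ, 0 < M ∧ ∀ (L : Type) [Lattice L]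
  (P : L → L → Prop) (E : L → L → L → L → Prop) (a b : L), MT M P K a b →
    MT m (PR m j E r P) j a b ∨ ∃ u z : Fin (l + 1) → L,
      (∀ i, a ≤ u i ∧ u i < z i ∧ z i ≤ b ∧ P (u i) (z i)) ∧
      ∀ i i', i < i' → u i' ≤ u i ∧ z i < z i' ∧ ¬ E (u i) (z i) (u i') (z i')

end Vale.Agent.P183M
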