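import Vale.Agent.P183M.IF2
import Vale.Agent.P183M.B1
import Vale.Agent.P183K.Lift.Base

/-!
Basic facts on covers.
-/

set_option autoImplicit false
set_option linter.all false

namespace Vale.Agent.P183M

open Matrix Subgroup

lemma IsP.map {p : ℕ} {G G' : Type} [Group G] [Group G'] {g : G} (h : IsP p g) (f : G →* G') :
    IsP p (f g) := by
  obtain ⟨n, hn⟩ := h
  exact ⟨n, by rw [← map_pow, hn, map_one]⟩

lemma IsP.conj {p : ℕ} {G : Type} [Group G] {g : G} (h : IsP p g) (y : G) :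
    IsP p (y * g * y⁻¹) := h.map (MulAut.conj y).toMonoidHom

section
variable {G : Type} [Group G] {R F0 : Type} [CommRing R] [Field F0] {d : ℕ} {D : Dat G R F0 d}
  {p : ℕ}

lemma CD.isP (h : CD p D) {u : G} (hu : u ∈ D.U) : IsP p u := P183K.Lift.CD.isP h hu

lemma CD.gen_top (h : CD p D) : closure {g : G | IsP p g} = ⊤ := P183K.Lift.CD.gen_top h

lemma CD.scal_one (h : CD p D) {a b : G} (ha : IsP p a) (hb : IsP p b) {c : R}
    {M : Matrix (Fin d) (Fin d) R} (hM : ∀ n : ℕ, b ^ n = 1 → M ^ n = 1) (e : D.ρ a = c • M) :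
    c = 1 := by
  obtain ⟨n, hn⟩ := ha
  obtain ⟨n', hn'⟩ := hb
  have h1 : a ^ p ^ (n + n') = 1 := by rw [pow_add, pow_mul, hn, one_pow]
  have h2 : b ^ p ^ (n + n') = 1 := by rw [pow_add, mul_comm, pow_mul, hn', one_pow]
  have h3 := congrArg (· ^ p ^ (n + n')) e
  simp only [smul_pow, hM _ h2, ← map_pow, h1, map_one] at h3
  have h4 := congrFun (congrFun h3 D.z) D.z
  rw [Matrix.smul_apply, one_apply_eq, smul_eq_mul, mul_one] at h4
  exact P183K.Lift.CD.eq_one_of_pow h h4.symm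

end

namespace Cv

variable {p : ℕ} {G : Type} [Group G] {T T' T'' : Subgroup G} {C : Cv p T} {C' : Cv p T'}
  {C'' : Cv p T''}

lemma cd (C : Cv p T) : CD p C.D := C.kind.cd

lemma scal_of (C : Cv p T) {a b : C.E} (h : C.θ a = C.θ b) :
    ∃ c : C.Rˣ, C.D.ρ a = (c : C.R) • C.D.ρ b := by
  obtain ⟨c, hc⟩ := (C.ker (a * b⁻¹)).1 (by rw [map_mul, h, ← map_mul, mul_inv_cancel, map_one])
  obtain ⟨c', hc'⟩ := (C.ker (b * a⁻¹)).1 (by rw [map_mul, ← h, ← map_mul, mul_inv_cancel, map_one])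
  have h1 : c * c' = 1 := by
    have h2 : C.D.ρ (a * b⁻¹) * C.D.ρ (b * a⁻¹) = 1 := by
      rw [← map_mul, mul_assoc, inv_mul_cancel_left, mul_inv_cancel, map_one]
    rw [hc, hc', smul_mul_smul_comm, one_mul] at h2
    have h4 := congrFun (congrFun h2 C.D.z) C.D.z
    rwa [Matrix.smul_apply, one_apply_eq, smul_eq_mul, mul_one] at h4
  refine ⟨Units.mkOfMulEqOne c c' h1, ?_⟩
  rw [Units.val_mkOfMulEqOne, ← one_mul (C.D.ρ b), ← smul_mul_assoc, ← hc, ← map_mul,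
    inv_mul_cancel_right]

lemma eq_of_scal (C : Cv p T) {a b : C.E} {c : C.R} (h : C.D.ρ a = c • C.D.ρ b) :
    C.θ a = C.θ b := by
  rw [← mul_inv_eq_one, ← map_inv, ← map_mul, C.ker]
  exact ⟨c, by rw [map_mul, h, smul_mul_assoc, ← map_mul, mul_inv_cancel, map_one]⟩

lemma eq_of_isP (C : Cv p T) {a b : C.E} (ha : IsP p a) (hb : IsP p b) (h : C.θ a = C.θ b) :
    a = b := by
  obtain ⟨c, hc⟩ := C.scal_of h
  refine C.cd.pinj a b ha hb ?_
  rw [hc, C.cd.scal_one ha hb (fun n hn => by rw [← map_pow, hn, map_one]) hc, one_smul]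

lemma θ_mem (C : Cv p T) (g : C.E) : C.θ g ∈ T := C.range.le ⟨g, rfl⟩

lemma exists_θ (C : Cv p T) {t : G} (ht : t ∈ T) : ∃ g, C.θ g = t := C.range.ge ht

lemma Over.uniq {ψ ψ' : C'.E →* C.E} (h : C'.Over C ψ) (h' : C'.Over C ψ') : ψ = ψ' :=
  MonoidHom.eq_of_eqOn_dense C'.cd.gen_top fun g hg =>
    C.eq_of_isP (IsP.map hg ψ) (IsP.map hg ψ') ((h g).trans (h' g).symm)

lemma Over.comp {ψ : C'.E →* C.E} {ψ' : C''.E →* C'.E} (h : C'.Over C ψ) (h' : C''.Over C' ψ') :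
    C''.Over C (ψ.comp ψ') := fun g => (h _).trans (h' g)

lemma Full.mono {X X' : Subgroup G} (h : C.Full X) (hX : X ≤ X') : C.Full X' :=
  eq_top_iff.2 (h.ge.trans (Subring.closure_mono (Set.image_mono
    (commutator_mono (comap_mono hX) (comap_mono hX)))))

lemma Full.ai {ψ : C'.E →* C.E} (h : C.Full T') (hψ : C'.Over C ψ) : AI (C.D.ρ.comp ψ) := by
  let W := Submodule.span C.R (Set.range (C.D.ρ.comp ψ))
  have hW : ∀ x ∈ W, ∀ y ∈ W, x * y ∈ W := fun x hx y hy => by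
    have := Submodule.mul_mem_mul hx hy
    rw [Submodule.span_mul_span] at this
    refine Submodule.span_mono ?_ this
    rintro _ ⟨_, ⟨a, rfl⟩, _, ⟨b, rfl⟩, rfl⟩
    exact ⟨a * b, map_mul _ _ _⟩
  rw [AI, eq_top_iff]
  intro M _
  have hM : M ∈ Subring.closure (C.D.ρ '' ((⁅T'.comap C.θ, T'.comap C.θ⁆ : Subgroup C.E) :
      Set C.E)) := by rw [h]; trivial
  induction hM using Subring.closure_induction with
  | mem x hx =>
    obtain ⟨g, hg, rfl⟩ := hx
    obtain ⟨g', hg'⟩ := C'.exists_θ (t := C.θ g) (commutator_le_self (T'.comap C.θ) hg)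
    obtain ⟨c, hc⟩ := C.scal_of (hg'.symm.trans (hψ g').symm)
    rw [hc]
    exact W.smul_mem _ (Submodule.subset_span ⟨g', rfl⟩)
  | zero => exact W.zero_mem
  | one => exact Submodule.subset_span ⟨1, map_one _⟩
  | add x y _ _ hx hy => exact W.add_mem (hx trivial) (hy trivial)
  | neg x _ hx => exact W.neg_mem (hx trivial)
  | mul x y _ _ hx hy => exact hW _ (hx trivial) _ (hy trivial)

lemma end_iff {ψ : C'.E →* C.E} (hψ : C'.Over C ψ) : C'.End C ↔ EndPair C'.D C.D ψ := by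
  refine exists_congr fun g => and_congr ⟨fun h u hu => h u hu _ ((C'.cd.isP hu).map ψ) (hψ u),
    fun h u hu y hy e => ?_⟩ ⟨fun h i h1 h2 h3 => h i h1 h2 h3 _ (hψ _), fun h i h1 h2 h3 y e => ?_⟩
  · rw [C.eq_of_isP hy ((C'.cd.isP hu).map ψ) (e.trans (hψ u).symm)]
    exact h u hu
  · obtain ⟨c, hc⟩ := h i h1 h2 h3
    obtain ⟨c', hc'⟩ := C.scal_of (e.trans (hψ _).symm)
    exact ⟨c' * c, by rw [hc', smul_mulVec, Units.val_mul, mul_smul, ← hc]; rfl⟩

end Cv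

end Vale.Agent.P183M
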