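import Vale.Agent.P183M.T1
import Vale.Agent.P183M.Cvl

/-!
Twisted tensor products: coefficients and factor algebras.
-/

set_option autoImplicit false
set_option linter.all false

namespace Vale.Agent.P183M

open Matrix Subgroup

variable {p : ℕ} {G : Type} [Group G] {R F0 : Type} [CommRing R] [Field F0] {d : ℕ}
  {D : Dat G R F0 d} {k : Type} [Field k] {n : ℕ} {τ τ' : G →* Matrix (Fin n) (Fin n) k}

/-- conjugates of root elements -/
def Dat.xx (D : Dat G R F0 d) (y : G) (t : F0) : G := y * D.x t * y⁻¹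

lemma CD.ρ_xx (h : CD p D) (y : G) (t : F0) : D.ρ (D.xx y t) = 1 + D.ι t • D.Nn y := by
  rw [Dat.xx, map_mul, map_mul, h.x_eq, mul_add, add_mul, mul_one, ← map_mul, mul_inv_cancel,
    map_one, mul_smul_comm, smul_mul_assoc, Dat.Nn]

lemma CD.isP_xx (h : CD p D) (y : G) (t : F0) : IsP p (D.xx y t) := (h.isP (h.x_mem t)).conj y

lemma CD.ind_x [Finite G] (h : CD p D) {P : G → Prop} (h1 : P 1) (h2 : ∀ a b, P a → P b → P (a * b))
    (h3 : ∀ y t, P (D.xx y t)) (g : G) : P g := by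
  have hg : g ∈ (normalClosure (Set.range D.x)).toSubmonoid := by rw [h.x_gen]; trivial
  rw [normalClosure, closure_toSubmonoid_of_finite] at hg
  induction hg using Submonoid.closure_induction with
  | mem x hx =>
    obtain ⟨_, ⟨t, rfl⟩, hx⟩ := Group.mem_conjugatesOfSet_iff.1 hx
    obtain ⟨y, rfl⟩ := isConj_iff.1 hx
    exact h3 y t
  | one => exact h1
  | mul a b _ _ ha hb => exact h2 a b ha hb

lemma CD.xx_neg (h : CD p D) (nn : D.N0 * D.N0 = 0) (y : G) (t : F0) :
    D.xx y (-t) = (D.xx y t)⁻¹ := by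
  have h1 : D.x (-t) = (D.x t)⁻¹ := by
    refine h.pinj _ _ (h.isP (h.x_mem _)) (h.isP (inv_mem (h.x_mem _))) ?_
    rw [← mul_one (D.ρ (D.x (-t))), ← map_one D.ρ, ← mul_inv_cancel (D.x t), map_mul, ← mul_assoc,
      h.x_eq, h.x_eq, mul_add, mul_one, add_mul (1 : Matrix _ _ R), one_mul, smul_mul_smul_comm, nn,
      smul_zero, add_zero, map_neg, neg_smul, neg_add_cancel_right, one_mul]
  simp only [Dat.xx, h1, _root_.mul_inv_rev, inv_inv, mul_assoc]

lemma CD.two_le (h : CD p D) (hm : 0 < D.m) : 2 ≤ d := by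
  have := h.le_d
  omega

lemma AI.not_comm (h : AI τ) (hn : 2 ≤ n) (hc : ∀ a b, τ a * τ b = τ b * τ a) : False := by
  have h1 : ∀ M N : Matrix (Fin n) (Fin n) k, M * N = N * M := fun M N =>
    h.ind (P := fun M => M * N = N * M) (fun a => h.ind (P := fun N => τ a * N = N * τ a) (hc a)
      (by simp) (fun x y hx hy => by rw [mul_add, add_mul, hx, hy])
      (fun c x hx => by rw [mul_smul_comm, smul_mul_assoc, hx]) N)
      (by simp) (fun x y hx hy => by rw [mul_add, add_mul, hx, hy])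
      (fun c x hx => by rw [mul_smul_comm, smul_mul_assoc, hx]) M
  have h2 := congrFun (congrFun (h1 (single ⟨0, by omega⟩ ⟨1, by omega⟩ 1)
    (single ⟨1, by omega⟩ ⟨1, by omega⟩ 1)) ⟨0, by omega⟩) ⟨1, by omega⟩
  rw [single_mul_single_same, single_mul_single_of_ne _ _ _ _ (by simp)] at h2
  simp at h2

lemma CD.N0_ne [Finite G] (h : CD p D) (hm : 0 < D.m) (θ : R →+* k) (y : G) :
    (D.Nn y).map θ ≠ 0 := by
  intro h0
  have h1 : D.N0.map θ = 0 := by
    have : D.N0 = D.ρ y⁻¹ * D.Nn y * D.ρ y := by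
      simp only [Dat.Nn, ← mul_assoc, ← map_mul, inv_mul_cancel, map_one, one_mul]
      rw [mul_assoc, ← map_mul, inv_mul_cancel, map_one, mul_one]
    rw [this, Matrix.map_mul, Matrix.map_mul, h0, mul_zero, zero_mul]
  have h2 : ∀ g, tw θ D.ρ g = 1 := h.ind_x (map_one _)
    (fun a b ha hb => by rw [map_mul, ha, hb, one_mul]) fun y t => by
      rw [Dat.xx, map_mul, map_mul, tw_apply θ _ (D.x t), h.x_eq, Matrix.map_add _ (map_add θ),
        Matrix.map_one _ (map_zero θ) (map_one θ), Matrix.map_smul' _ _ _ (map_mul θ), h1,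
        smul_zero, add_zero, mul_one, ← map_mul, mul_inv_cancel, map_one]
  exact (AI.tw h.span θ).not_comm (h.two_le hm) fun a b => by rw [h2, h2]

namespace TV

variable (T : TV D τ)

/-- change of coordinates -/
noncomputable def E : Matrix (T.A → Fin d) (T.A → Fin d) k →ₐ[k] Matrix (Fin n) (Fin n) k :=
  AlgHom.ofLinearMap
    { toFun := fun X => T.P * X * T.Q
      map_add' := fun X Y => by rw [Matrix.mul_add, Matrix.add_mul]
      map_smul' := fun c X => by rw [Matrix.mul_smul, Matrix.smul_mul, RingHom.id_apply] }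
    (by
      change T.P * (1 : Matrix (T.A → Fin d) (T.A → Fin d) k) * T.Q = 1
      rw [Matrix.mul_one, T.pq])
    fun X Y => by
      change T.P * (X * Y) * T.Q = T.P * X * T.Q * (T.P * Y * T.Q)
      simp only [Matrix.mul_assoc]
      rw [← Matrix.mul_assoc T.Q, T.qp, Matrix.one_mul]

lemma E_apply (X : Matrix (T.A → Fin d) (T.A → Fin d) k) : T.E X = T.P * X * T.Q := rfl

lemma E_surj (M : Matrix (Fin n) (Fin n) k) : T.E (T.Q * M * T.P) = M := by
  rw [E_apply, ← Matrix.mul_assoc, ← Matrix.mul_assoc, T.pq, Matrix.one_mul, Matrix.mul_assoc, T.pq,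
    Matrix.mul_one]

lemma E_back (X : Matrix (T.A → Fin d) (T.A → Fin d) k) : T.Q * T.E X * T.P = X := by
  rw [E_apply, ← Matrix.mul_assoc, ← Matrix.mul_assoc, T.qp, Matrix.one_mul, Matrix.mul_assoc, T.qp,
    Matrix.mul_one]

lemma E_inj : Function.Injective T.E := fun X Y h => by rw [← T.E_back X, h, T.E_back]

lemma E_vec (X : Matrix (T.A → Fin d) (T.A → Fin d) k) (w : (T.A → Fin d) → k) :
    T.E X *ᵥ (T.P *ᵥ w) = T.P *ᵥ (X *ᵥ w) := by
  rw [E_apply, mulVec_mulVec, mulVec_mulVec, Matrix.mul_assoc, T.qp, Matrix.mul_one]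

lemma P_inj {w w' : (T.A → Fin d) → k} (h : T.P *ᵥ w = T.P *ᵥ w') : w = w' := by
  rw [← one_mulVec w, ← T.qp, ← mulVec_mulVec, h, mulVec_mulVec, T.qp, one_mulVec]

lemma eq' (g : G) : τ g = T.E (kr fun θ : T.A => (D.ρ g).map θ.1) := T.eq g

lemma card_eq : n = d ^ T.A.card := by
  have e : (Fin n → k) ≃ₗ[k] ((T.A → Fin d) → k) := Matrix.toLin'OfInv T.pq T.qp
  simpa using e.finrank_eq

/-- digits -/
def dg (a : T.A) : F0 →+* k := a.1.comp D.ι

lemma dg_inj : Function.Injective T.dg := fun a b h => Subtype.ext (T.inj _ a.2 _ b.2 h)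

/-- factor embeddings -/
noncomputable def j (a : T.A) : Matrix (Fin d) (Fin d) k →ₐ[k] Matrix (Fin n) (Fin n) k :=
  T.E.comp (jj a)

lemma j_inj [Nonempty (Fin d)] (a : T.A) : Function.Injective (T.j a) :=
  T.E_inj.comp (RingHom.injective (jj a : Matrix (Fin d) (Fin d) k →ₐ[k] _).toRingHom)

lemma j_comm {a b : T.A} (h : a ≠ b) (X Y : Matrix (Fin d) (Fin d) k) :
    Commute (T.j a X) (T.j b Y) := (jj_comm h X Y).map T.E

lemma ind {P : Matrix (Fin n) (Fin n) k → Prop} (M : T.A → Matrix (Fin d) (Fin d) k) (h1 : P 1)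
    (h2 : ∀ a X, P X → P (T.j a (M a) * X)) : P (T.E (kr M)) :=
  kr_ind (P := fun X => P (T.E X)) M (by rwa [map_one]) fun a X hX => by
    rw [map_mul]
    exact h2 a _ hX

lemma top_of {W : Subalgebra k (Matrix (Fin n) (Fin n) k)} (h : ∀ a X, T.j a X ∈ W)
    (M : Matrix (Fin n) (Fin n) k) : M ∈ W := by
  rw [← T.E_surj M, matrix_eq_sum_single (T.Q * M * T.P), map_sum]
  refine W.sum_mem fun α _ => ?_
  rw [map_sum]
  refine W.sum_mem fun β _ => ?_
  rw [← mul_one ((T.Q * M * T.P) α β), ← smul_eq_mul, ← smul_single, map_smul, single_eq_kr]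
  exact W.smul_mem (T.ind _ W.one_mem fun a X hX => W.mul_mem (h a _) hX) _

lemma conj_j (g : G) (a : T.A) (X : Matrix (Fin d) (Fin d) k) :
    τ g * T.j a X = T.j a ((D.ρ g).map a.1 * X * (D.ρ g⁻¹).map a.1) * τ g := by
  rw [T.eq', j, AlgHom.comp_apply, AlgHom.comp_apply, ← map_mul, ← map_mul, jj_apply, jj_apply,
    kr_mul, kr_mul]
  congr 2
  funext b
  by_cases h : b = a
  · subst h
    rw [Function.update_self, Function.update_self, mul_assoc, ← Matrix.map_mul, ← map_mul,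
      inv_mul_cancel, map_one, Matrix.map_one _ (map_zero _) (map_one _), mul_one]
  · simp [Function.update_of_ne h]

/-- products of twisted copies of `N` -/
noncomputable def KK (N : Matrix (Fin d) (Fin d) R) (S : Finset (F0 →+* k)) :
    Matrix (Fin n) (Fin n) k := T.E (kq T.dg (fun a => N.map a.1) S)

lemma KK_mul (N N' : Matrix (Fin d) (Fin d) R) (S : Finset (F0 →+* k)) :
    T.KK N S * T.KK N' S = T.KK (N * N') S := by
  simp only [KK, ← map_mul, kq_mul, Matrix.map_mul]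

lemma KK_comm (N N' : Matrix (Fin d) (Fin d) R) {S S' : Finset (F0 →+* k)} (h : Disjoint S S') :
    Commute (T.KK N S) (T.KK N' S') := (kq_comm _ _ h).map T.E

lemma KK_union (N : Matrix (Fin d) (Fin d) R) {S S' : Finset (F0 →+* k)} (h : Disjoint S S') :
    T.KK N (S ∪ S') = T.KK N S * T.KK N S' := by
  rw [KK, kq_union _ h, map_mul]
  rfl

lemma KK_zero {S : Finset (F0 →+* k)} (h : S.Nonempty) : T.KK 0 S = 0 := by
  simp only [KK, Matrix.map_zero _ (map_zero _), kq_zero h, map_zero]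

lemma KK_empty (N : Matrix (Fin d) (Fin d) R) : T.KK N ∅ = 1 := by
  rw [KK, kq_empty, map_one]

lemma KK_single (N : Matrix (Fin d) (Fin d) R) (a : T.A) :
    T.KK N {T.dg a} = T.j a (N.map a.1) := by
  rw [KK, kq_single T.dg_inj]
  rfl

lemma KK_out (N : Matrix (Fin d) (Fin d) R) {S : Finset (F0 →+* k)} (h : ¬ ↑S ⊆ Set.range T.dg) :
    T.KK N S = 0 := by
  rw [KK, kq_neg _ h, map_zero]

lemma exp [Finite F0] (h : CD p D) (y : G) (t : F0) :
    τ (D.xx y t) = ∑ S, χ S t • T.KK (D.Nn y) S := by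
  simp only [KK, ← map_smul, ← map_sum]
  rw [← kr_exp T.dg_inj, T.eq', h.ρ_xx]
  congr 2
  funext a
  rw [Matrix.map_add _ (map_add _), Matrix.map_one _ (map_zero _) (map_one _),
    Matrix.map_smul' _ _ _ (map_mul _)]
  rfl

lemma sp [Finite F0] (h : CD p D) (y : G) :
    (fun t => τ (D.xx y t)) ∈ Sp (Set.range T.dg) := by
  have : (fun t => τ (D.xx y t)) = ∑ S, fun t => χ S t • T.KK (D.Nn y) S := by
    funext t
    rw [T.exp h, Finset.sum_apply]
  rw [this]
  refine sum_mem fun S _ => ?_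
  by_cases h1 : ↑S ⊆ Set.range T.dg
  · exact Sp.gen h1 _
  · simp only [T.KK_out _ h1, smul_zero]
    exact zero_mem (Sp _)

end TV

variable [hp : Fact p.Prime] [CharP k p] [IsAlgClosed k] [Fintype F0] [CharP F0 p]

variable (p D τ) in
/-- coefficients of root elements -/
noncomputable def CF (S : Finset (F0 →+* k)) (y : G) : Matrix (Fin n) (Fin n) k :=
  cf p S fun t => τ (D.xx y t)

variable (p D τ) in
/-- the algebra attached to a set of digits -/
noncomputable def AA (C : Set (F0 →+* k)) : Subalgebra k (Matrix (Fin n) (Fin n) k) :=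
  Algebra.adjoin k {M | ∃ a ∈ C, ∃ y, M = CF p D τ {a} y}

variable (p D τ) in
/-- the digits -/
def Dg : Set (F0 →+* k) := {a | CF p D τ {a} 1 ≠ 0}

lemma AA_gen {C : Set (F0 →+* k)} {a : F0 →+* k} (ha : a ∈ C) (y : G) :
    CF p D τ {a} y ∈ AA p D τ C := Algebra.subset_adjoin ⟨a, ha, y, rfl⟩

lemma AA_mono {C C' : Set (F0 →+* k)} (h : C ⊆ C') : AA p D τ C ≤ AA p D τ C' :=
  Algebra.adjoin_mono fun _ ⟨a, ha, e⟩ => ⟨a, h ha, e⟩

lemma AA_le {C : Set (F0 →+* k)} {W : Subalgebra k (Matrix (Fin n) (Fin n) k)}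
    (h : ∀ a ∈ C, ∀ y, CF p D τ {a} y ∈ W) : AA p D τ C ≤ W :=
  Algebra.adjoin_le fun _ ⟨a, ha, y, e⟩ => e ▸ h a ha y

lemma CF_conj (S : Finset (F0 →+* k)) (g y : G) :
    τ g * CF p D τ S y * τ g⁻¹ = CF p D τ S (g * y) := by
  have := cf_map (p := p) S (fun t => τ (D.xx y t))
    ((LinearMap.mulRight k (τ g⁻¹)).comp (LinearMap.mulLeft k (τ g)))
  refine this.trans (congrArg _ (funext fun t => ?_))
  simp [Dat.xx, mul_assoc]

lemma AA_conj {C : Set (F0 →+* k)} {M : Matrix (Fin n) (Fin n) k} (h : M ∈ AA p D τ C) (g : G) :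
    τ g * M * τ g⁻¹ ∈ AA p D τ C := by
  induction h using Algebra.adjoin_induction with
  | mem x hx =>
    obtain ⟨a, ha, y, rfl⟩ := hx
    rw [CF_conj]
    exact AA_gen ha _
  | algebraMap r =>
    rw [← Algebra.commutes, mul_assoc, ← map_mul, mul_inv_cancel, map_one, mul_one]
    exact Subalgebra.algebraMap_mem _ r
  | add x y _ _ hx hy =>
    rw [mul_add, add_mul]
    exact add_mem hx hy
  | mul x y _ _ hx hy =>
    convert mul_mem hx hy using 1
    simp only [mul_assoc]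
    rw [← mul_assoc (τ g⁻¹), ← map_mul, inv_mul_cancel, map_one, one_mul]

namespace TV

variable (T : TV D τ) (h : CD p D)
include h

lemma cf_eq (S : Finset (F0 →+* k)) (y : G) : CF p D τ S y = T.KK (D.Nn y) S := by
  simp only [CF, T.exp h, cf_sum]

lemma KK_mem (y : G) (S : Finset (F0 →+* k)) : T.KK (D.Nn y) S ∈ AA p D τ S := by
  induction S using Finset.induction_on with
  | empty => rw [KK_empty]; exact one_mem _
  | insert a S ha ih =>
    rw [Finset.insert_eq, T.KK_union _ (Finset.disjoint_singleton_left.2 ha), ← T.cf_eq h {a}]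
    exact mul_mem (AA_gen (by simp) y) (AA_mono (by simp) ih)

include T in
lemma AA_comm {C C' : Set (F0 →+* k)} (hC : Disjoint C C') {M M' : Matrix (Fin n) (Fin n) k}
    (h1 : M ∈ AA p D τ C) (h2 : M' ∈ AA p D τ C') : Commute M M' := by
  refine Algebra.commute_of_mem_adjoin_of_forall_mem_commute h2 ?_
  rintro _ ⟨b, hb, y', rfl⟩
  refine (Algebra.commute_of_mem_adjoin_of_forall_mem_commute h1 ?_).symm
  rintro _ ⟨a, ha, y, rfl⟩
  rw [T.cf_eq h, T.cf_eq h]
  exact T.KK_comm _ _ (Finset.disjoint_singleton.2 (hC.ne_of_mem ha hb).symm)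

variable [Finite G]

lemma j_mem (a : T.A) (X : Matrix (Fin d) (Fin d) k) : T.j a X ∈ AA p D τ {T.dg a} := by
  refine (AI.tw h.span a.1).ind (P := fun X => T.j a X ∈ AA p D τ {T.dg a}) ?_
    (by rw [map_zero]; exact zero_mem _) (fun x y hx hy => by rw [map_add]; exact add_mem hx hy)
    (fun c x hx => by rw [map_smul]; exact Subalgebra.smul_mem _ hx c) X
  refine h.ind_x (by rw [map_one, map_one]; exact one_mem _)
    (fun x y hx hy => by rw [map_mul, map_mul]; exact mul_mem hx hy) fun y t => ?_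
  rw [tw_apply, h.ρ_xx, Matrix.map_add _ (map_add _), Matrix.map_one _ (map_zero _) (map_one _),
    Matrix.map_smul' _ _ _ (map_mul _), map_add, map_one, map_smul, ← KK_single, ← T.cf_eq h]
  exact add_mem (one_mem _) (Subalgebra.smul_mem _ (AA_gen (Set.mem_singleton _) y) _)

lemma AA_top (M : Matrix (Fin n) (Fin n) k) : M ∈ AA p D τ (Set.range T.dg) :=
  T.top_of (fun a X => AA_mono (by simp) (T.j_mem h a X)) M

include T in
theorem ai : AI τ := by
  let W := Submodule.span k (Set.range τ)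
  have hW : ∀ x y, x ∈ W → y ∈ W → x * y ∈ W := fun x y hx hy => by
    have := Submodule.mul_mem_mul hx hy
    rw [Submodule.span_mul_span] at this
    refine Submodule.span_mono ?_ this
    rintro _ ⟨_, ⟨a, rfl⟩, _, ⟨b, rfl⟩, rfl⟩
    exact ⟨a * b, map_mul _ _ _⟩
  refine eq_top_iff.2 fun M _ => ?_
  exact AA_le (W := W.toSubalgebra (Submodule.subset_span ⟨1, map_one _⟩) hW)
    (fun a _ y => cf_mem _ W fun t => Submodule.subset_span ⟨_, rfl⟩) (T.AA_top h M)

lemma dg_eq (hm : 0 < D.m) : Dg p D τ = Set.range T.dg := by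
  have : Nonempty (Fin d) := ⟨D.z⟩
  ext a
  rw [Dg, Set.mem_setOf_eq, T.cf_eq h]
  constructor
  · intro h1
    by_contra h2
    exact h1 (T.KK_out _ (by simpa using h2))
  · rintro ⟨a, rfl⟩
    rw [KK_single]
    exact fun h1 => h.N0_ne hm a.1 1 (T.j_inj a (h1.trans (map_zero _).symm))

end TV

end Vale.Agent.P183M
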