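import Vale.Agent.P183M.D3
import Vale.Agent.P183M.T2
import Vale.Agent.P183K.Lift.P3

/-!
End type modules which stay irreducible for a non-natural end type subgroup are twisted tensor
products.
-/

set_option autoImplicit false
set_option linter.all false

namespace Vale.Agent.P183M

open Matrix Subgroup Vale.Agent.P240.H195 Vale.Agent.P183CR

variable {p : ℕ} {G : Type} [Group G] {R F0 : Type} [CommRing R] [Field F0] {d : ℕ}
  {D : Dat G R F0 d} {k : Type} [Field k] {n n' : ℕ}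

lemma equiv_of_coeff {τ : G →* Matrix (Fin n) (Fin n) k} {τ' : G →* Matrix (Fin n') (Fin n') k}
    (h : AI τ) (h' : AI τ') {v f : Fin n → k} {v' f' : Fin n' → k} (hv : v ≠ 0) (hv' : v' ≠ 0)
    (hf : f ≠ 0) (hf' : f' ≠ 0) (hc : ∀ g, f ⬝ᵥ (τ g *ᵥ v) = f' ⬝ᵥ (τ' g *ᵥ v')) :
    ∃ e : (Fin n → k) ≃ₗ[k] (Fin n' → k), ∀ g x, e (τ g *ᵥ x) = τ' g *ᵥ e x := by
  obtain ⟨e, -, he⟩ := exists_equiv_of_coeff (h.absIrr (pos_of_ne hv)).irr
    (h'.absIrr (pos_of_ne hv')).irr hv hv' (P183K.Lift.fv_ne hf) (P183K.Lift.fv_ne hf') fun g => by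
      rw [mrep_apply, mrep_apply]
      exact hc g
  exact ⟨e, fun g x => by simpa only [mrep_apply] using he g x⟩

lemma exists_fun [CharP k p] [Finite G] {B N U : Subgroup G} {S : Set G} (h : SBA p B N U S)
    {τ : G →* Matrix (Fin n) (Fin n) k} (hτ : AI τ) (hn : 0 < n) :
    ∃ f : Fin n → k, f ≠ 0 ∧ ∀ u ∈ U, f ᵥ* τ u = f := by
  obtain ⟨f, hf, hf0⟩ := h.toSBP.exists_fix (hτ.dl.absIrr hn).irr
  refine ⟨f, hf0, fun u hu => ?_⟩
  have := hf _ (inv_mem hu)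
  rwa [mrep_apply, dl, MonoidHom.coe_mk, OneHom.coe_mk, inv_inv, mulVec_transpose] at this

lemma ee_ne_zero {K : Type} [CommRing K] [Nontrivial K] (a : Fin n) : (ee a : Fin n → K) ≠ 0 :=
  fun h => one_ne_zero ((ee_self a).symm.trans (congrFun h a))

lemma AI.conj {G' : Type} [Group G'] {K : Type} [CommRing K] {τ : G' →* Matrix (Fin n) (Fin n) K}
    {ψ ψ' : G →* G'} {g : G'} (hψ : ∀ x, ψ' x = g⁻¹ * ψ x * g) (h : AI (τ.comp ψ)) :
    AI (τ.comp ψ') := by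
  refine eq_top_iff.2 fun M _ => ?_
  have e : M = τ g⁻¹ * (τ g * M * τ g⁻¹) * τ g := by
    simp only [← mul_assoc, ← map_mul, inv_mul_cancel, map_one, one_mul]
    rw [mul_assoc, ← map_mul, inv_mul_cancel, map_one, mul_one]
  rw [e]
  refine h.ind (P := fun M => τ g⁻¹ * M * τ g ∈ Submodule.span K (Set.range (τ.comp ψ')))
    (fun x => Submodule.subset_span ⟨x, by simp [hψ]⟩) (by simp)
    (fun x y hx hy => by rw [mul_add, add_mul]; exact add_mem hx hy)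
    (fun c x hx => by rw [mul_smul_comm, smul_mul_assoc]; exact Submodule.smul_mem _ _ hx) _

lemma pv_dot {A : Type} [Fintype A] [DecidableEq A] {I : Type} [Fintype I] [DecidableEq I]
    (f v : A → I → k) : pv f ⬝ᵥ pv v = ∏ a, f a ⬝ᵥ v a := by
  simp only [dotProduct, pv]
  rw [Finset.prod_univ_sum, Fintype.piFinset_univ]
  exact Finset.sum_congr rfl fun γ _ => Finset.prod_mul_distrib.symm

lemma bv_tw (D : Dat G R F0 d) (θ : R →+* k) (M : Matrix (Fin d) (Fin d) R) (u : Fin d → R)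
    (a : Fin d) : D.bv θ u ⬝ᵥ (M.map θ *ᵥ ee a) = θ (D.β u (M *ᵥ ee a)) := by
  rw [← map_ee θ, map_mulVec', D.bv_dot]

lemma CD.bv_ne (h : CD p D) (hm : 0 < D.m) (θ : R →+* k) : D.bv θ (ee D.z) ≠ 0 := by
  intro h0
  have h1 := bv_tw D θ 1 (ee D.z) D.z.rev
  rw [h0, zero_dotProduct, one_mulVec] at h1
  exact ((h.β_unit (D.not_mid (by rw [h.z0]; exact hm))).map θ).ne_zero h1.symm

variable [hp : Fact p.Prime] [CharP k p] [IsAlgClosed k] [Finite R] [Finite G]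

theorem tv_of_digits [Fintype F0] [CharP F0 p] (h : CD p D) {τ : G →* Matrix (Fin n) (Fin n) k}
    (hτ : AI τ) {v f : Fin n → k} (hv : v ≠ 0) (hf : f ≠ 0) {c : (R →+* k) →₀ ℕ}
    (hE : EndFun D τ v f c) (h1 : ∀ θ, c θ ≤ 1)
    (h2 : ∀ θ, θ.comp (D.σ : R →+* R) ≠ θ → 1 ≤ c θ → 1 ≤ c (θ.comp (D.σ : R →+* R)) → False) :
    Nonempty (TV D τ) := by
  obtain ⟨κ, hκ, hE⟩ := hE
  let A := c.support
  have hA : ∀ θ ∈ A, c θ = 1 := fun θ hθ =>
    le_antisymm (h1 θ) (Nat.one_le_iff_ne_zero.2 (Finsupp.mem_support_iff.1 hθ))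
  have hinj : ∀ θ ∈ A, ∀ θ' ∈ A, θ.comp D.ι = θ'.comp D.ι → θ = θ' := by
    intro θ hθ θ' hθ' e
    by_contra hne
    rcases h.hom_cases e with e1 | e1
    · exact hne e1.symm
    · exact h2 θ (fun e2 => hne (e1.trans e2).symm) (hA θ hθ).ge (e1 ▸ (hA θ' hθ').ge)
  let ε := Fintype.equivFin (A → Fin d)
  let P0 := (1 : Matrix (A → Fin d) (A → Fin d) k).submatrix ε.symm (Equiv.refl _)
  let Q0 := (1 : Matrix (A → Fin d) (A → Fin d) k).submatrix (Equiv.refl _) ε.symm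
  have pq : P0 * Q0 = 1 := by
    rw [submatrix_mul_equiv, Matrix.one_mul, submatrix_one_equiv]
  have qp : Q0 * P0 = 1 := by
    rw [submatrix_mul_equiv, Matrix.one_mul, submatrix_one_equiv]
  let τ0 : G →* Matrix (Fin (Fintype.card (A → Fin d))) (Fin (Fintype.card (A → Fin d))) k :=
    { toFun := fun g => P0 * kr (fun θ : A => (D.ρ g).map θ.1) * Q0
      map_one' := by
        simp only [map_one, Matrix.map_one _ (map_zero _) (map_one _), kr_one, Matrix.mul_one, pq]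
      map_mul' := fun a b => by
        simp only [map_mul, Matrix.map_mul, ← kr_mul, Matrix.mul_assoc]
        rw [← Matrix.mul_assoc Q0, qp, Matrix.one_mul] }
  let T0 : TV D τ0 := ⟨A, P0, Q0, hinj, pq, qp, fun _ => rfl⟩
  have hc : ∀ g, ((κ • pv fun θ : A => D.bv θ.1 (ee D.z)) ᵥ* Q0) ⬝ᵥ
      (τ0 g *ᵥ (P0 *ᵥ pv fun _ => ee D.z)) = f ⬝ᵥ (τ g *ᵥ v) := by
    intro g
    rw [T0.eq', T0.E_vec, ← dotProduct_mulVec, mulVec_mulVec, qp, one_mulVec, kr_pv,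
      smul_dotProduct, pv_dot, hE, smul_eq_mul, chi, Finsupp.prod, ← Finset.prod_coe_sort c.support]
    congr 1
    exact Finset.prod_congr rfl fun θ _ => by rw [bv_tw, hA _ θ.2, pow_one]
  have hne : ∃ g, f ⬝ᵥ (τ g *ᵥ v) ≠ 0 := by
    by_contra h0
    push Not at h0
    exact hf (hτ.eq_zero hv h0)
  obtain ⟨g0, hg0⟩ := hne
  rw [← hc] at hg0
  obtain ⟨e, he⟩ := equiv_of_coeff (T0.ai h) hτ (fun h0 => hg0 (by rw [h0]; simp)) hv
    (fun h0 => hg0 (by rw [h0]; simp)) hf hc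
  have e1 : LinearMap.toMatrix' e.toLinearMap * LinearMap.toMatrix' e.symm.toLinearMap = 1 := by
    rw [← LinearMap.toMatrix'_comp, e.comp_symm, LinearMap.toMatrix'_id]
  have e2 : LinearMap.toMatrix' e.symm.toLinearMap * LinearMap.toMatrix' e.toLinearMap = 1 := by
    rw [← LinearMap.toMatrix'_comp, e.symm_comp, LinearMap.toMatrix'_id]
  refine ⟨⟨A, LinearMap.toMatrix' e.toLinearMap * P0, Q0 * LinearMap.toMatrix' e.symm.toLinearMap,
    hinj, ?_, ?_, fun g => ?_⟩⟩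
  · rw [Matrix.mul_assoc, ← Matrix.mul_assoc P0, pq, Matrix.one_mul, e1]
  · rw [Matrix.mul_assoc, ← Matrix.mul_assoc _ _ P0, e2, Matrix.one_mul, qp]
  · have e3 : LinearMap.toMatrix' e.toLinearMap * τ0 g = τ g * LinearMap.toMatrix' e.toLinearMap :=
      Matrix.toLin'.injective (LinearMap.ext fun x => by
        simp only [toLin'_apply, ← mulVec_mulVec, LinearMap.toMatrix'_mulVec]
        exact he g x)
    rw [← Matrix.mul_one (τ g), ← e1, ← Matrix.mul_assoc, ← e3, T0.eq]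
    simp only [Matrix.mul_assoc]
    rfl

variable {G' : Type} [Group G'] {R' F0' : Type} [CommRing R'] [Field F0'] {d' : ℕ}
  {D' : Dat G' R' F0' d'} {ψ : G →* G'} [Finite R'] [Finite G']

lemma exists_ep (h : CD p D) (h' : CD p D') (hm : 0 < D.m) (hm' : 0 < D'.m) (h3 : P3 p k D)
    (hU : ∀ u ∈ D.U, ψ u ∈ D'.U) (hP : D.EndP (LS (D'.ρ.comp ψ) (ee D'.z)))
    (hA : AI (D'.ρ.comp ψ)) (hN : ∀ θ : R' →+* k, ¬ Natural D (tw θ (D'.ρ.comp ψ))) :
    ∃ cs : (R' →+* k) → (R →+* k) → ℕ, EP p D D' ψ cs ∧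
      ∀ θ, ∃ θ1 θ2, Pi.single θ1 1 + Pi.single θ2 1 ≤ cs θ := by
  have key : ∀ θ : R' →+* k, ∃ c : (R →+* k) →₀ ℕ, (∀ θ, c θ < p) ∧
      EndFun D (tw θ (D'.ρ.comp ψ)) (ee D'.z) (D'.bv θ (ee D'.z)) c := by
    intro θ
    refine h3 _ _ _ _ (hA.tw θ) (ee_ne_zero _) (h'.bv_ne hm' θ) (fun u hu => ?_) (fun u hu => ?_)
      fun i h1 h2 h4 => ?_
    · rw [tw_apply, ← map_ee θ, map_mulVec', MonoidHom.comp_apply, h'.fix_z (hU u hu)]
    · funext a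
      rw [← dotProduct_single_one (_ ᵥ* _) a, ← dotProduct_mulVec,
        ← dotProduct_single_one (D'.bv θ _) a]
      change _ ⬝ᵥ (_ *ᵥ ee a) = _ ⬝ᵥ ee a
      rw [tw_apply, bv_tw, MonoidHom.comp_apply, h'.inv'', ← map_inv, h'.fix_z (hU _ (inv_mem hu)),
        ← map_ee θ, D'.bv_dot]
    · obtain ⟨r, hr⟩ := hP i h1 h2 h4
      refine ⟨Units.map θ.toMonoidHom r, ?_⟩
      rw [tw_apply, ← map_ee θ, map_mulVec', hr]
      funext a
      simp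
  choose c hc hE using key
  have hE' : ∀ θ, ∃ κ : k, κ ≠ 0 ∧ ∀ g, θ (D'.β (ee D'.z) (D'.ρ (ψ g) *ᵥ ee D'.z)) =
      κ * mono (c θ) (D.β (ee D.z) (D.ρ g *ᵥ ee D.z)) := fun θ => by
    obtain ⟨κ, hκ, e⟩ := hE θ
    exact ⟨κ, hκ, fun g => by rw [← chi_eq, ← e, tw_apply, bv_tw]; rfl⟩
  have h0 : ∀ θ, ⇑(c θ) ≠ 0 := fun θ e0 => by
    obtain ⟨κ, hκ, e⟩ := hE' θ
    have e1 := e 1
    rw [e0, mono_zero, mul_one, map_one, map_one, one_mulVec,
      h'.sing_self _ (h'.sing_ee _ (D'.not_mid (by rw [h'.z0]; exact hm'))), map_zero] at e1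
    exact hκ e1.symm
  refine ⟨fun θ => c θ, fun θ => ⟨h0 θ, hc θ, ?_⟩, fun θ => ?_⟩
  · obtain ⟨κ, hκ, e⟩ := hE' θ
    exact ⟨κ, hκ, fun g g' => by
      rw [h'.inv', h.inv', ← mul_vec, ← mul_vec, ← map_inv, ← map_mul, e]⟩
  · obtain ⟨θ1, h1⟩ := Function.ne_iff.1 (h0 θ)
    have h2 : (Pi.single θ1 1 : (R →+* k) → ℕ) ≤ c θ := fun t => by
      by_cases e : t = θ1
      · subst e
        rw [Pi.single_eq_same]
        exact Nat.one_le_iff_ne_zero.2 h1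
      · rw [Pi.single_eq_of_ne e]
        exact Nat.zero_le _
    by_cases h4 : (Pi.single θ1 1 : (R →+* k) → ℕ) = c θ
    · obtain ⟨κ, hκ, e⟩ := hE' θ
      obtain ⟨ε, hε⟩ := equiv_of_coeff (AI.tw h.span θ1) (hA.tw θ) (ee_ne_zero D.z)
        (ee_ne_zero D'.z) (smul_ne_zero hκ (h.bv_ne hm θ1)) (h'.bv_ne hm' θ) fun g => by
          rw [smul_dotProduct, tw_apply, tw_apply, bv_tw, bv_tw, MonoidHom.comp_apply, e, ← h4,
            mono_single, pow_one, smul_eq_mul]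
      exact absurd ⟨θ1, ε, hε⟩ (hN θ)
    · obtain ⟨θ2, h5⟩ := Function.ne_iff.1 h4
      refine ⟨θ1, θ2, fun t => ?_⟩
      have h6 := h2 t
      rw [Pi.add_apply]
      by_cases e : t = θ2
      · subst e
        rw [Pi.single_eq_same]
        exact Nat.succ_le_of_lt (lt_of_le_of_ne h6 h5)
      · rwa [Pi.single_eq_of_ne e, add_zero]

theorem exists_tv [Fintype F0'] [CharP F0' p] (h : CD p D) (h' : CD p D') (hm : 5 ≤ D.m)
    (hm' : 5 ≤ D'.m) (h3 : P3 p k D) (h3' : P3 p k D') (hE : EndPair D D' ψ)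
    (hA : AI (D'.ρ.comp ψ)) (hN : ∀ θ : R' →+* k, ¬ Natural D (tw θ (D'.ρ.comp ψ)))
    {τ : G' →* Matrix (Fin n) (Fin n) k} (hτ : AI (τ.comp ψ)) {v : Fin n → k} (hv : v ≠ 0)
    (hU : ∀ u ∈ D'.U, τ u *ᵥ v = v) (hP : D'.EndP (LS τ v)) : Nonempty (TV D' τ) := by
  obtain ⟨g, hg, hg'⟩ := hE
  let ψ' : G →* G' := (MulAut.conj g⁻¹).toMonoidHom.comp ψ
  have hψ : ∀ x, ψ' x = g⁻¹ * ψ x * g := fun x => by simp [ψ']
  obtain ⟨cs, hcs, hj⟩ := exists_ep (k := k) (ψ := ψ') h h' (by omega) (by omega) h3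
    (fun u hu => hψ u ▸ hg u hu) (fun i h1 h2 h4 => by
      obtain ⟨r, hr⟩ := hg' i h1 h2 h4
      refine ⟨r, ?_⟩
      rw [MonoidHom.comp_apply] at hr ⊢
      rw [hψ, mul_vec, mul_vec, hr, mulVec_smul, inv_mul_vec]) (hA.conj hψ) fun θ ⟨θ1, e, he⟩ =>
    hN θ ⟨θ1, e.trans (Matrix.toLin'OfInv (M := tw θ D'.ρ g⁻¹) (M' := tw θ D'.ρ g)
      (by rw [← map_mul, inv_mul_cancel, map_one]) (by rw [← map_mul, mul_inv_cancel, map_one])),
      fun x y => by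
        change tw θ D'.ρ g *ᵥ e _ = tw θ D'.ρ (ψ x) *ᵥ (tw θ D'.ρ g *ᵥ e y)
        rw [he]
        change _ *ᵥ (tw θ D'.ρ (ψ' x) *ᵥ _) = _
        rw [hψ, mul_vec, mul_vec, mul_inv_vec]⟩
  obtain ⟨f, hf, hfU⟩ := exists_fun h'.sba hτ.of_comp (pos_of_ne hv)
  obtain ⟨c, hc, hV⟩ := h3' _ τ v f hτ.of_comp hv hf hU hfU hP
  refine tv_of_digits h' hτ.of_comp hv hf hV (fun θ => ?_) fun θ h1 h2 h4 => ?_
  · obtain ⟨θ1, θ2, h5⟩ := hj θ
    exact digit_le_one h h' (by omega) (by omega) hcs h5 hc hV hv (hτ.conj hψ)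
  · obtain ⟨θ1, θ2, h5⟩ := hj θ
    exact no_common h h' (by omega) hm' hcs (fun u hu => hψ u ▸ hg u hu) h5 hc hV hv hf
      (hτ.conj hψ) h1 h2 h4

end Vale.Agent.P183M
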