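import Vale.Agent.P183M.IF3
import Vale.Agent.P183M.S2
import Vale.Agent.P183NC.Node

/-!
Periods and the join, meet and comparison lemmas.
-/

set_option autoImplicit false
set_option linter.all false

namespace Vale.Agent.P183M

open Matrix Subgroup Vale.Agent.P183NK Vale.Agent.P183A

lemma arith {w a b c : ℕ} (h1 : w ∣ Nat.lcm a c) (h2 : w ∣ Nat.lcm b c) (h3 : Nat.gcd a b ∣ c) :
    w ∣ c := by
  have key : ∀ q k a : ℕ, q.Prime → q ^ k ∣ Nat.lcm a c → q ^ k ∣ a ∨ q ^ k ∣ c := by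
    intro q k a hq h
    by_cases ha : a = 0
    · exact Or.inl (ha ▸ dvd_zero _)
    by_cases hc : c = 0
    · exact Or.inr (hc ▸ dvd_zero _)
    rw [hq.pow_dvd_iff_le_factorization (Nat.lcm_ne_zero ha hc), Nat.factorization_lcm ha hc,
      Finsupp.sup_apply, le_sup_iff] at h
    rwa [hq.pow_dvd_iff_le_factorization ha, hq.pow_dvd_iff_le_factorization hc]
  refine (Nat.dvd_iff_prime_pow_dvd_dvd c w).2 fun q k hq h => ?_
  rcases key q k a hq (h.trans h1) with e | e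
  · rcases key q k b hq (h.trans h2) with e' | e'
    · exact (Nat.dvd_gcd e e').trans h3
    · exact e'
  · exact e

section
variable {p : ℕ} [hp : Fact p.Prime] {F : Type} [Field F] [Fintype F] [CharP F p]

open Classical in
variable (p) in
/-- classes of digits -/
noncomputable def cls (e : ℕ) (a : F →+* kk p) : Finset (F →+* kk p) :=
  Finset.univ.filter fun b => ∃ j : ℤ, (e : ℤ) ∣ j ∧ b = sh p j a

lemma mem_cls {e : ℕ} {a b : F →+* kk p} :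
    b ∈ cls p e a ↔ ∃ j : ℤ, (e : ℤ) ∣ j ∧ b = sh p j a := by
  simp [cls]

lemma self_cls (e : ℕ) (a : F →+* kk p) : a ∈ cls p e a :=
  mem_cls.2 ⟨0, dvd_zero _, (sh_zero a).symm⟩

lemma cls_sub {e e' : ℕ} (h : e ∣ e') {a b : F →+* kk p} (hb : b ∈ cls p e a) :
    cls p e' b ⊆ cls p e a := fun c hc => by
  obtain ⟨i, hi, rfl⟩ := mem_cls.1 hb
  obtain ⟨j, hj, rfl⟩ := mem_cls.1 hc
  exact mem_cls.2 ⟨j + i, dvd_add ((Int.natCast_dvd_natCast.2 h).trans hj) hi, (sh_add _ _ _).symm⟩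

lemma cls_symm {e : ℕ} {a b : F →+* kk p} (hb : b ∈ cls p e a) : a ∈ cls p e b := by
  obtain ⟨i, hi, rfl⟩ := mem_cls.1 hb
  exact mem_cls.2 ⟨-i, hi.neg_right, (sh_neg _ _).symm⟩

lemma cls_cases {e e' : ℕ} (h : e ∣ e') (a b : F →+* kk p) :
    cls p e' b ⊆ cls p e a ∨ Disjoint (cls p e' b) (cls p e a) := by
  refine or_iff_not_imp_right.2 fun h1 => ?_
  obtain ⟨c, h2, h3⟩ := Finset.not_disjoint_iff.1 h1
  exact cls_sub h (cls_sub h h3 (cls_symm h2))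

variable (p F) in
/-- all classes -/
noncomputable def cl (e : ℕ) : Finset (Finset (F →+* kk p)) := Finset.univ.image (cls p e)

lemma fm_cl (e : ℕ) : Fm (cl p F e) := by
  simp only [Fm, cl, Finset.mem_image, Finset.mem_univ, true_and]
  refine ⟨?_, ?_⟩
  · rintro _ ⟨a, rfl⟩
    exact ⟨a, self_cls e a⟩
  · rintro _ ⟨a, rfl⟩ _ ⟨b, rfl⟩ h
    refine (cls_cases dvd_rfl b a).resolve_left fun h1 => h (h1.antisymm ?_)
    exact cls_sub dvd_rfl (cls_symm (h1 (self_cls e a)))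

lemma cl_shift (e : ℕ) : cl p F e = (cl p F e).image (Finset.image (sh p 1)) := by
  have h1 : ∀ a : F →+* kk p, (cls p e a).image (sh p 1) = cls p e (sh p 1 a) := fun a => by
    ext b
    simp only [Finset.mem_image, mem_cls]
    exact ⟨fun ⟨_, ⟨j, hj, e1⟩, e2⟩ => ⟨j, hj, by rw [← e2, e1, sh_comm]⟩,
      fun ⟨j, hj, e1⟩ => ⟨_, ⟨j, hj, rfl⟩, by rw [e1, sh_comm]⟩⟩
  ext S
  simp only [cl, Finset.mem_image, Finset.mem_univ, true_and, exists_exists_eq_and, h1]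
  exact ⟨fun ⟨a, h⟩ => ⟨sh p (-1) a, by rw [sh_neg', h]⟩, fun ⟨a, h⟩ => ⟨_, h⟩⟩

lemma sh_eq {i j : ℤ} {a : F →+* kk p} (h : sh p i a = sh p j a) (b : F →+* kk p) :
    sh p i b = sh p j b := by
  obtain ⟨l, rfl⟩ := sh_trans (p := p) a b
  rw [sh_comm, h, sh_comm]

end

section
variable {p : ℕ} {G : Type} [Group G] {R F0 : Type} [CommRing R] [Field F0] {d : ℕ}
  {D : Dat G R F0 d} {k : Type} [Field k] {n : ℕ} {τ : G →* Matrix (Fin n) (Fin n) k}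

lemma TV.nonempty (T : TV D τ) (hn : 2 ≤ n) : T.A.Nonempty := by
  have := T.card_eq
  rw [← Finset.card_pos]
  by_contra h
  rw [Nat.eq_zero_of_not_pos h, pow_zero] at this
  omega

lemma tw_mem_LS {K : Type} [CommRing K] {σ : G →* Matrix (Fin n) (Fin n) K} {v : Fin n → K} {g : G}
    (θ : K →+* k) (h : g ∈ LS σ v) : g ∈ LS (tw θ σ) fun a => θ (v a) := by
  obtain ⟨r, hr⟩ := h
  refine ⟨Units.map θ.toMonoidHom r, ?_⟩
  rw [tw_apply, map_mulVec', hr]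
  funext a
  simp

lemma EndPair.vec {G' : Type} [Group G'] {R' F0' : Type} [CommRing R'] [Field F0'] {d' : ℕ}
    {D' : Dat G' R' F0' d'} {ψ : G →* G'} (h : EndPair D D' ψ) (h' : CD p D') (θ : R' →+* k) :
    ∃ v, v ≠ 0 ∧ (∀ u ∈ D.U, tw θ (D'.ρ.comp ψ) u *ᵥ v = v) ∧
      D.EndP (LS (tw θ (D'.ρ.comp ψ)) v) := by
  obtain ⟨g, h1, h2⟩ := h
  refine ⟨fun a => θ ((D'.ρ g *ᵥ ee D'.z) a), fun h0 => ?_, fun u hu => ?_,
    fun i a b c => tw_mem_LS θ (h2 i a b c)⟩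
  · have := inv_mul_vec (tw θ D'.ρ) g (ee D'.z)
    rw [tw_apply θ _ g, ← map_ee θ, map_mulVec', h0, mulVec_zero, map_ee] at this
    exact ee_ne_zero _ this.symm
  · rw [tw_apply, map_mulVec', MonoidHom.comp_apply]
    conv_rhs => rw [← h'.fix_z (h1 u hu), mul_vec, mul_vec, mul_inv_vec]

variable [hp : Fact p.Prime] [CharP k p] [IsAlgClosed k] [Fintype F0] [CharP F0 p] [Finite G]

lemma TV.natural [Finite R] (T : TV D τ) (h : CD p D) (hm : 0 < D.m) (h1 : T.A.card = 1) :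
    Natural D τ := by
  obtain ⟨θ, hθ⟩ := Finset.card_eq_one.1 h1
  have : Unique T.A := ⟨⟨⟨θ, by simp [hθ]⟩⟩, fun a => Subtype.ext (by simpa [hθ] using a.2)⟩
  have hc : ∀ g, D.bv (default : T.A).1 (ee D.z) ⬝ᵥ (tw (default : T.A).1 D.ρ g *ᵥ ee D.z) =
      ((pv fun θ : T.A => D.bv θ.1 (ee D.z)) ᵥ* T.Q) ⬝ᵥ (τ g *ᵥ (T.P *ᵥ pv fun _ => ee D.z)) := by
    intro g
    rw [T.eq', T.E_vec, ← dotProduct_mulVec _ T.Q, mulVec_mulVec, T.qp, one_mulVec, kr_pv, pv_dot,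
      Fintype.prod_unique, tw_apply]
  have hne : ∃ g, D.bv (default : T.A).1 (ee D.z) ⬝ᵥ
      (tw (default : T.A).1 D.ρ g *ᵥ ee D.z) ≠ 0 := by
    by_contra h0
    push Not at h0
    exact h.bv_ne hm _ ((AI.tw h.span _).eq_zero (ee_ne_zero _) h0)
  obtain ⟨g0, hg0⟩ := hne
  rw [hc] at hg0
  exact ⟨_, equiv_of_coeff (AI.tw h.span _) (T.ai h) (ee_ne_zero _)
    (fun h0 => hg0 (by rw [h0]; simp)) (h.bv_ne hm _) (fun h0 => hg0 (by rw [h0]; simp)) hc⟩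

lemma Pure.smul {X : Set (F0 →+* k)} {M : Matrix (Fin n) (Fin n) k} (h : Pure p D τ X M) (r : k) :
    Pure p D τ X (r • M) := by
  obtain ⟨a, ha, b, hb, rfl⟩ := h
  exact ⟨r • a, Subalgebra.smul_mem _ ha r, b, hb, (smul_mul_assoc _ _ _).symm⟩

lemma Pure.mul (T : TV D τ) (h : CD p D) {X : Set (F0 →+* k)} {M M' : Matrix (Fin n) (Fin n) k}
    (h1 : Pure p D τ X M) (h2 : Pure p D τ X M') : Pure p D τ X (M * M') := by
  obtain ⟨a, ha, b, hb, rfl⟩ := h1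
  obtain ⟨a', ha', b', hb', rfl⟩ := h2
  refine ⟨a * a', mul_mem ha ha', b * b', mul_mem hb hb', ?_⟩
  rw [mul_assoc, ← mul_assoc b, ← (T.AA_comm h disjoint_compl_right ha' hb).eq, mul_assoc, mul_assoc]

end

namespace Cv

variable {p : ℕ} [hp : Fact p.Prime] {G : Type} [Group G] {T T' T'' : Subgroup G} {C : Cv p T}
  {C' : Cv p T'} {C'' : Cv p T''} {ψ : C.E →* C'.E} {ψ' : C'.E →* C''.E}

lemma hom_eq (C : Cv p T) {θ θ' : C.R →+* kk p} (h : θ.comp C.D.ι = θ'.comp C.D.ι) :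
    θ' = θ ∨ θ' = C.bar θ := C.cd.hom_cases h

lemma hom_sh (C : Cv p T) (θ θ' : C.R →+* kk p) :
    ∃ j, θ' = sh p j θ ∨ θ' = C.bar (sh p j θ) := by
  obtain ⟨j, hj⟩ := sh_trans (p := p) (θ.comp C.D.ι) (θ'.comp C.D.ι)
  exact ⟨j, C.hom_eq ((sh_comp j θ _).trans hj.symm)⟩

/-- the digits of all twists are classes modulo `e` -/
def Per (C : Cv p T) (C' : Cv p T') (ψ : C.E →* C'.E) (e : ℕ) : Prop :=
  ∀ θ, ∀ a ∈ Dg p C.D (C.tt C' ψ θ), ∀ j : ℤ, sh p j a ∈ Dg p C.D (C.tt C' ψ θ) ↔ (e : ℤ) ∣ j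

lemma Per.eq {e : ℕ} (h : C.Per C' ψ e) {θ : C'.R →+* kk p} {a : C.F0 →+* kk p}
    (ha : a ∈ Dg p C.D (C.tt C' ψ θ)) : Dg p C.D (C.tt C' ψ θ) = cls p e a := by
  ext b
  obtain ⟨j, rfl⟩ := sh_trans (p := p) a b
  rw [Finset.mem_coe, mem_cls]
  exact ⟨fun h1 => ⟨j, (h θ a ha j).1 h1, rfl⟩, fun ⟨i, hi, e1⟩ => e1 ▸ (h θ a ha i).2 hi⟩

lemma Per.cases {e e' : ℕ} (h : C.Per C' ψ e) (he : e' ∣ e) (θ : C'.R →+* kk p)
    (a : C.F0 →+* kk p) : Dg p C.D (C.tt C' ψ θ) ⊆ cls p e' a ∨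
      Disjoint (Dg p C.D (C.tt C' ψ θ)) (cls p e' a) := by
  rcases (Dg p C.D (C.tt C' ψ θ)).eq_empty_or_nonempty with h1 | ⟨b, hb⟩
  · exact Or.inl (h1 ▸ Set.empty_subset _)
  · rw [h.eq hb, Finset.coe_subset, Finset.disjoint_coe]
    exact cls_cases he a b

lemma Per.cases' {e e' : ℕ} (h : C.Per C' ψ e) (he : e ∣ e') (θ : C'.R →+* kk p)
    (a : C.F0 →+* kk p) : ↑(cls p e' a) ⊆ Dg p C.D (C.tt C' ψ θ) ∨
      Disjoint (↑(cls p e' a)) (Dg p C.D (C.tt C' ψ θ)) := by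
  rcases (Dg p C.D (C.tt C' ψ θ)).eq_empty_or_nonempty with h1 | ⟨b, hb⟩
  · exact Or.inr (h1 ▸ Set.disjoint_empty _)
  · rw [h.eq hb, Finset.coe_subset, Finset.disjoint_coe]
    exact cls_cases he b a

lemma exists_per (eq : EQ) (sl : SL) (hm : 8 ≤ C.D.m) (hm' : 8 ≤ C'.D.m) (hm'' : 8 ≤ C''.D.m)
    (h1 : C.AT C' ψ) (h2 : C'.AT C'' ψ') (h3 : C.AT C'' (ψ'.comp ψ)) (θ0 : C''.R →+* kk p)
    (nt : ∀ e ∈ Dg p C.D (C.tt C'' (ψ'.comp ψ) θ0), ∀ e' ∈ Dg p C.D (C.tt C'' (ψ'.comp ψ) θ0),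
      ∃ j : ℤ, e' = sh p j e ∧ sh p j (θ0.comp C''.D.ι) = θ0.comp C''.D.ι) :
    ∃ e, C.Per C' ψ e := by
  obtain ⟨V⟩ := h2 θ0
  obtain ⟨θ1, hθ1⟩ := V.nonempty (C''.cd.two_le (by omega))
  obtain ⟨s1, s2, -⟩ := sl p G T T' C C' ψ hm hm' h1 _ _ V (h3 θ0)
  have e1 := fun θ => (eq p G T T' C C' ψ hm hm' h1 θ).2.2
  have e2 := fun θ => (eq p G T' T'' C' C'' ψ' hm' hm'' h2 θ).2.2
  have e3 : ∀ {θ θ' : C'.R →+* kk p} {j : ℤ}, θ' = sh p j θ ∨ θ' = C'.bar (sh p j θ) →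
      Dg p C.D (C.tt C' ψ θ') = sh p j '' Dg p C.D (C.tt C' ψ θ) := by
    rintro θ _ j (rfl | rfl)
    · exact (e1 θ).1 j
    · rw [(e1 _).2.1, (e1 θ).1 j]
  set B := Dg p C.D (C.tt C' ψ θ1) with hB
  let Γ : AddSubgroup ℤ :=
    { carrier := {j | ∀ a, sh p j a ∈ B ↔ a ∈ B}
      add_mem' := fun {i j} hi hj a => by rw [sh_add, hi, hj]
      zero_mem' := fun a => by rw [sh_zero]
      neg_mem' := fun {i} hi a => by rw [← hi, sh_neg'] }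
  obtain ⟨e, he⟩ := Int.subgroup_cyclic Γ
  have hΓ : ∀ j, j ∈ Γ ↔ (e.natAbs : ℤ) ∣ j := fun j => by
    rw [he, AddSubgroup.mem_closure_singleton, Int.natAbs_dvd]
    exact ⟨fun ⟨n, hn⟩ => ⟨n, by rw [← hn, smul_eq_mul, mul_comm]⟩,
      fun ⟨n, hn⟩ => ⟨n, by rw [hn, smul_eq_mul, mul_comm]⟩⟩
  have key : ∀ a ∈ B, ∀ j, sh p j a ∈ B → j ∈ Γ := by
    intro a ha j hj
    have hsub : B ⊆ Dg p C.D (C.tt C'' (ψ'.comp ψ) θ0) :=
      (Set.subset_iUnion (fun θ : V.A => Dg p C.D (C.tt C' ψ θ.1)) ⟨θ1, hθ1⟩).trans s2.ge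
    obtain ⟨i, hi, hi'⟩ := nt a (hsub ha) _ (hsub hj)
    have h4 : Dg p C'.D (C'.tt C'' ψ' θ0) = sh p i '' Dg p C'.D (C'.tt C'' ψ' θ0) := by
      rw [← (e2 θ0).1]
      rcases C''.hom_eq (θ := θ0) (θ' := sh p i θ0) hi'.symm with e | e
      · rw [e]
      · rw [e, (e2 θ0).2.1]
    rw [V.dg_eq C'.cd (by omega)] at h4
    obtain ⟨θ2, h5⟩ := h4.ge ⟨_, ⟨⟨θ1, hθ1⟩, rfl⟩, rfl⟩
    have h6 := e3 (C'.hom_eq (θ := sh p i θ1) (θ' := θ2.1) h5.symm)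
    have h7 : θ2 = ⟨θ1, hθ1⟩ := by
      by_contra h8
      exact Set.disjoint_left.1 (s1 _ _ h8) (h6.ge ⟨a, ha, hi.symm⟩) hj
    subst h7
    intro b
    rw [sh_eq hi]
    conv_lhs => rw [hB, h6]
    exact (sh_inj i).mem_set_image
  refine ⟨e.natAbs, fun θ a ha j => ?_⟩
  obtain ⟨i, hi⟩ := C'.hom_sh θ1 θ
  rw [e3 hi] at ha ⊢
  obtain ⟨a, ha, rfl⟩ := ha
  rw [sh_comm, (sh_inj i).mem_set_image, ← hΓ]
  exact ⟨key a ha j, fun h => (h a).2 ha⟩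

lemma exists_norm (hc : HC) (sl : SL) (hm : 8 ≤ C.D.m) (hm' : 8 ≤ C'.D.m) (h1 : C.AT C' ψ)
    (hq : C'.D.quad → C.D.quad) {n : ℕ} {τ : C'.E →* Matrix (Fin n) (Fin n) (kk p)}
    (V : TV C'.D τ) (h3 : Nonempty (TV C.D (τ.comp ψ))) {e L : ℕ} (he : C.Per C' ψ e) (hL : e ∣ L)
    {a b c y : C.E} {i j l : Fin C.d} {v : Fin C.d → C.R} (w : Wd C.D a b c y i j l v) :
    ∃ g', gg p C.D (τ.comp ψ) a b c (cl p C.F0 L) * g' = 1 ∧
      g' * gg p C.D (τ.comp ψ) a b c (cl p C.F0 L) = 1 ∧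
      (∀ ω, ∃ ω', τ ω' = gg p C.D (τ.comp ψ) a b c (cl p C.F0 L) * τ ω * g') ∧
      ∀ ω, ∃ ω', τ ω' = g' * τ ω * gg p C.D (τ.comp ψ) a b c (cl p C.F0 L) := by
  obtain ⟨M, M', m1, m2, m3, m4, m5⟩ := hc p G T T' C C' ψ hm hm' h1 a b c y i j l v w hq
    (fun _ => cl p C.F0 L) (fun _ => fm_cl L) (fun _ => cl_shift L) fun _ => rfl
  rw [← (sl p G T T' C C' ψ hm hm' h1 _ _ V h3).2.2.2 a b c y i j l v w _ (fm_cl L) (by
    simp only [cl, Finset.mem_image, Finset.mem_univ, true_and]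
    rintro θ _ ⟨s, rfl⟩
    exact he.cases' hL _ _)]
  simp only [← m3]
  have k1 : ∀ X Y : Matrix (Fin C'.d) (Fin C'.d) C'.R, V.E (kr fun θ : V.A => X.map θ.1) *
      V.E (kr fun θ : V.A => Y.map θ.1) = V.E (kr fun θ : V.A => (X * Y).map θ.1) := fun X Y => by
    simp only [← map_mul, kr_mul, Matrix.map_mul]
  have k2 : V.E (kr fun θ : V.A => (1 : Matrix (Fin C'.d) (Fin C'.d) C'.R).map θ.1) = 1 := by
    simp only [Matrix.map_one _ (map_zero _) (map_one _), kr_one, map_one]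
  refine ⟨V.E (kr fun θ : V.A => M'.map θ.1), by rw [k1, m1, k2], by rw [k1, m2, k2],
    fun ω => (m4 ω).imp fun ω' h => ?_, fun ω => (m5 ω).imp fun ω' h => ?_⟩ <;>
    rw [V.eq', V.eq', k1, k1, h]

end Cv

end Vale.Agent.P183M
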