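import Vale.Agent.P183M.C1

/-!
The final configuration does not occur.
-/

set_option autoImplicit false
set_option linter.all false

namespace Vale.Agent.P183M

open Matrix Subgroup Vale.Agent.P183NK Vale.Agent.P183A

namespace Cv

variable {p : ℕ} [hp : Fact p.Prime] {G : Type} [Group G] {T T' T'' : Subgroup G} {C : Cv p T}
  {C' : Cv p T'} {C'' : Cv p T''}

lemma low_at (pp3 : PP3) {ψ : C.E →* C'.E} {ψ' : C'.E →* C''.E} (hm : 8 ≤ C.D.m) (hm' : 8 ≤ C'.D.m)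
    (hE : EndPair C.D C'.D ψ) (hA : AI (C'.D.ρ.comp ψ))
    (hN : ∀ θ : C'.R →+* kk p, ¬ Natural C.D (tw θ (C'.D.ρ.comp ψ))) (hE' : EndPair C'.D C''.D ψ')
    (hA' : ∀ θ : C''.R →+* kk p, AI (tw θ (C''.D.ρ.comp (ψ'.comp ψ)))) : C'.AT C'' ψ' := fun θ => by
  obtain ⟨v, h0, h1, h2⟩ := hE'.vec C''.cd θ
  exact exists_tv C.cd C'.cd (by omega) (by omega) (pp3 p G T C (by omega))
    (pp3 p G T' C' (by omega)) hE hA hN (hA' θ) h0 h1 h2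

lemma not_nat (nf : NF) [Finite G] {H S x b X Y : Subgroup G} (hR : Reg H S x b) (h1 : x ≤ X)
    (h2 : X < Y) (h3 : Y ≤ b) {C : Cv p (EE H X)} {C' : Cv p (EE H Y)} {ψ : C.E →* C'.E}
    (hm : 8 ≤ C.D.m) (hm' : 8 ≤ C'.D.m) (ho : C.Over C' ψ) (hF : C'.Full (EE H X))
    (hq : C.D.quad → C'.D.quad) (θ : C'.R →+* kk p) :
    ¬ Natural C.D (tw θ (C'.D.ρ.comp ψ)) := fun h => by
  have h4 := hR.1.nomod (h1.trans h2.le) h3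
  exact h2.not_ge (le_of_EE_le h4 (hR.1.le.trans h1) (hR.1.le_of_nm h1 (h2.le.trans h3)
    ((EE_le h4).trans h3) (nf p G _ _ C C' ψ (by omega) (by omega) ho hF hq θ h)))

/-- a node between `C` and `C''` -/
structure Arm (C : Cv p T) (C' : Cv p T') (C'' : Cv p T'') (χ : C.E →* C''.E) (φ : C.E →* C'.E)
    (ψ : C'.E →* C''.E) (e : ℕ) : Prop where
  m : 8 ≤ C.D.m
  m' : 8 ≤ C'.D.m
  o : C'.Over C'' ψ
  comp : ψ.comp φ = χ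
  q : C'.D.quad → C.D.quad
  a1 : C.AT C' φ
  a2 : C'.AT C'' ψ
  a3 : C.AT C'' χ
  per : C.Per C' φ e

variable {χ : C.E →* C''.E} {φ : C.E →* C'.E} {ψ : C'.E →* C''.E} {e : ℕ}

lemma Over.tw_eq (h : C'.Over C'' ψ) (θ : C''.R →+* kk p) {ω : C''.E} (hω : C''.θ ω ∈ T') :
    ∃ (ω' : C'.E) (r : kk p), r ≠ 0 ∧ tw θ C''.D.ρ ω = r • C'.tt C'' ψ θ ω' := by
  obtain ⟨ω', h1⟩ := C'.exists_θ hω
  obtain ⟨c, hc⟩ := C''.scal_of (h1.symm.trans (h ω').symm)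
  exact ⟨ω', θ c, (c.isUnit.map θ).ne_zero, by
    rw [tw_apply, hc, Matrix.map_smul' _ _ _ (map_mul θ)]; rfl⟩

namespace Arm

variable (h : Arm C C' C'' χ φ ψ e) (sl : SL) (θ : C''.R →+* kk p)
include h sl

lemma pure {e' : ℕ} (he : e' ∣ e) (a : C.F0 →+* kk p) {ω : C''.E} (hω : C''.θ ω ∈ T') :
    Pure p C.D (C.tt C'' χ θ) (cls p e' a) (tw θ C''.D.ρ ω) := by
  obtain ⟨ω', r, -, h1⟩ := h.o.tw_eq θ hω
  obtain ⟨V⟩ := h.a2 θ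
  have h2 := h.a3 θ
  rw [h1]
  rw [← h.comp] at h2 ⊢
  exact ((sl p G T T' C C' φ h.m h.m' h.a1 _ _ V h2).2.2.1 _
    (fun θ' => h.per.cases he _ a) ω').smul r

lemma norm (hc : HC) {L : ℕ} (hL : e ∣ L) {a b c y : C.E} {i j l : Fin C.d} {v : Fin C.d → C.R}
    (w : Wd C.D a b c y i j l v) : ∃ g', gg p C.D (C.tt C'' χ θ) a b c (cl p C.F0 L) * g' = 1 ∧
      g' * gg p C.D (C.tt C'' χ θ) a b c (cl p C.F0 L) = 1 ∧ ∀ ω, C''.θ ω ∈ T' →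
      (∃ ω' r, C''.θ ω' ∈ T' ∧ tw θ C''.D.ρ ω' = (r : kk p) •
        (gg p C.D (C.tt C'' χ θ) a b c (cl p C.F0 L) * tw θ C''.D.ρ ω * g')) ∧
      ∃ ω' r, C''.θ ω' ∈ T' ∧ tw θ C''.D.ρ ω' = (r : kk p) •
        (g' * tw θ C''.D.ρ ω * gg p C.D (C.tt C'' χ θ) a b c (cl p C.F0 L)) := by
  obtain ⟨V⟩ := h.a2 θ
  have h2 := h.a3 θ
  rw [← h.comp] at h2 ⊢
  obtain ⟨g', k1, k2, k3, k4⟩ := exists_norm hc sl h.m h.m' h.a1 h.q V h2 h.per hL w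
  refine ⟨g', k1, k2, fun ω hω => ?_⟩
  obtain ⟨ω1, r, hr, h1⟩ := h.o.tw_eq θ hω
  obtain ⟨ω2, e2⟩ := k3 ω1
  obtain ⟨ω3, e3⟩ := k4 ω1
  refine ⟨⟨ψ ω2, r⁻¹, h.o ω2 ▸ C'.θ_mem _, ?_⟩, ψ ω3, r⁻¹, h.o ω3 ▸ C'.θ_mem _, ?_⟩ <;>
    rw [h1, mul_smul_comm, smul_mul_assoc, smul_smul, inv_mul_cancel₀ hr, one_smul]
  exacts [e2, e3]

lemma block {a : C.F0 →+* kk p} (ha : a ∈ Dg p C.D (C.tt C'' χ θ)) :
    ∃ θ', a ∈ Dg p C.D (C.tt C' φ θ') ∧ Dg p C.D (C.tt C' φ θ') ⊆ Dg p C.D (C.tt C'' χ θ) := by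
  obtain ⟨V⟩ := h.a2 θ
  have h2 := h.a3 θ
  rw [← h.comp] at h2 ha ⊢
  have h3 := (sl p G T T' C C' φ h.m h.m' h.a1 _ _ V h2).2.1
  obtain ⟨θ', h4⟩ := Set.mem_iUnion.1 (h3.le ha)
  exact ⟨θ'.1, h4, (Set.subset_iUnion (fun θ : V.A => Dg p C.D (C.tt C' φ θ.1)) θ').trans h3.ge⟩

lemma dvd {a : C.F0 →+* kk p} (ha : a ∈ Dg p C.D (C.tt C'' χ θ)) {e' L : ℕ} (he : e' ∣ e)
    (hL : sh p L a ∈ cls p e' a) : e' ∣ L := by
  obtain ⟨θ', h1, -⟩ := h.block sl θ ha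
  obtain ⟨j, hj, h2⟩ := mem_cls.1 hL
  have h3 := (h.per θ' a h1 (-j + L)).1 (by rwa [sh_add, h2, sh_neg])
  have h4 := dvd_add hj ((Int.natCast_dvd_natCast.2 he).trans h3)
  rwa [add_neg_cancel_left, Int.natCast_dvd_natCast] at h4

lemma mem_cls (np : NP) {a : C.F0 →+* kk p} (ha : a ∈ Dg p C.D (C.tt C'' χ θ)) {e' L : ℕ}
    (hL : e ∣ L) {a1 b c y : C.E} {i j l : Fin C.d} {v : Fin C.d → C.R}
    (w : Wd C.D a1 b c y i j l v) {g' : Matrix (Fin C''.d) (Fin C''.d) (kk p)}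
    (hg : g' * gg p C.D (C.tt C'' χ θ) a1 b c (cl p C.F0 L) = 1) {ω : C''.E} {r : kk p}
    (h1 : tw θ C''.D.ρ ω = r • (gg p C.D (C.tt C'' χ θ) a1 b c (cl p C.F0 L) *
      tw θ C''.D.ρ (χ (C.D.xx y 1)) * g'))
    (h2 : Pure p C.D (C.tt C'' χ θ) (cls p e' a) (tw θ C''.D.ρ ω)) : sh p L a ∈ cls p e' a := by
  by_contra h3
  obtain ⟨θ', h4, h5⟩ := h.block sl θ ha
  have hr : r ≠ 0 := by
    rintro rfl
    have := inv_mul_vec (tw θ C''.D.ρ) ω (ee C''.D.z)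
    rw [h1, zero_smul, zero_mulVec, mulVec_zero] at this
    exact ee_ne_zero _ this.symm
  refine (np p G T C _ _ (h.a3 θ) h.m a1 b c y i j l v w _ (fm_cl L) (cls p L a)
    (Finset.mem_image_of_mem _ (Finset.mem_univ _)) (fun t ht => h5 ?_)).2 (cls p e' a)
    ⟨a, self_cls _ _, self_cls _ _⟩ ⟨_, P183M.mem_cls.2 ⟨L, dvd_rfl, rfl⟩, h3⟩ _ (h2.smul r⁻¹) ?_
  · rw [h.per.eq h4]
    exact cls_sub hL (self_cls _ _) ht
  · rw [h1, smul_smul, inv_mul_cancel₀ hr, one_smul, mul_assoc, hg, mul_one]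
    rfl

end Arm

section
variable [Finite G] {T0 T1 T2 : Subgroup G} (sl : SL) (hc : HC)
  (np : NP) {a1 b c y : C.E} {i j l : Fin C.d} {v : Fin C.d → C.R} (w : Wd C.D a1 b c y i j l v)
include sl hc np w

lemma join {C0 : Cv p T0} {C1 : Cv p T1} {C2 : Cv p T2} {φ0 φ1 φ2 ψ0 ψ1 ψ2} {e0 e1 e2 : ℕ}
    (h0 : Arm C C0 C'' χ φ0 ψ0 e0) (h1 : Arm C C1 C'' χ φ1 ψ1 e1) (h2 : Arm C C2 C'' χ φ2 ψ2 e2)
    (hJ : T2 ≤ T0 ⊔ T1) {θ : C''.R →+* kk p} {a : C.F0 →+* kk p}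
    (ha : a ∈ Dg p C.D (C.tt C'' χ θ)) : Nat.gcd e0 e1 ∣ e2 := by
  obtain ⟨g', -, k2, k3⟩ := h2.norm sl θ hc dvd_rfl w
  obtain ⟨ω, r, k4, k5⟩ := (k3 (χ (C.D.xx y 1)) (by
    rw [← h2.comp, MonoidHom.comp_apply, h2.o]; exact C2.θ_mem _)).1
  refine h0.dvd sl θ ha (Nat.gcd_dvd_left _ _) (h2.mem_cls sl θ np ha dvd_rfl w k2 k5 ?_)
  obtain ⟨V⟩ := h0.a3 θ
  have key : ∀ t ∈ (closure ((T0 : Set G) ∪ T1)).toSubmonoid, ∃ ω, C''.θ ω = t ∧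
      Pure p C.D (C.tt C'' χ θ) (cls p (Nat.gcd e0 e1) a) (tw θ C''.D.ρ ω) := by
    intro t ht
    rw [closure_toSubmonoid_of_finite] at ht
    induction ht using Submonoid.closure_induction with
    | mem t ht =>
      rcases ht with ht | ht
      · obtain ⟨u, rfl⟩ := C0.exists_θ ht
        exact ⟨ψ0 u, h0.o u, h0.pure sl θ (Nat.gcd_dvd_left _ _) a (h0.o u ▸ ht)⟩
      · obtain ⟨u, rfl⟩ := C1.exists_θ ht
        exact ⟨ψ1 u, h1.o u, h1.pure sl θ (Nat.gcd_dvd_right _ _) a (h1.o u ▸ ht)⟩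
    | one => exact ⟨1, map_one _, h0.pure sl θ (Nat.gcd_dvd_left _ _) a (by simp)⟩
    | mul s t _ _ hs ht =>
      obtain ⟨u, rfl, hu⟩ := hs
      obtain ⟨u', rfl, hu'⟩ := ht
      exact ⟨u * u', map_mul _ _ _, by rw [map_mul]; exact hu.mul V C.cd hu'⟩
  obtain ⟨u, k6, k7⟩ := key (C''.θ ω) (by
    rw [Subgroup.closure_union, closure_eq, closure_eq]; exact hJ k4)
  obtain ⟨s, hs⟩ := C''.scal_of k6.symm
  rw [tw_apply, hs, Matrix.map_smul' _ _ _ (map_mul θ)]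
  exact k7.smul _

lemma meet (mg : MG) {H S x b' Y Y' Z : Subgroup G} (hR : Reg H S x b') (y1 : x ≤ Y) (y2 : x ≤ Y')
    (y3 : Y ≤ Z) (y4 : Y' ≤ Z) (y5 : Z ≤ b') {C0 : Cv p (EE H Y)} {C1 : Cv p (EE H Y')}
    {C2 : Cv p T2} {C3 : Cv p (EE H Z)} {χ : C.E →* C3.E} {φ0 φ1 φ2 ψ0 ψ1 ψ2} {e0 e1 e2 : ℕ}
    (h0 : Arm C C0 C3 χ φ0 ψ0 e0) (h1 : Arm C C1 C3 χ φ1 ψ1 e1) (h2 : Arm C C2 C3 χ φ2 ψ2 e2)
    (hm : 8 ≤ C3.D.m) (ho : C.Over C3 χ) (hX : T ≤ EE H (Y ⊓ Y')) (hW : EE H (Y ⊓ Y') ≤ T2)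
    {θ : C3.R →+* kk p} {a : C.F0 →+* kk p} (ha : a ∈ Dg p C.D (C.tt C3 χ θ)) :
    e2 ∣ Nat.lcm e0 e1 := by
  obtain ⟨g', k1, k2, k3⟩ := h0.norm sl θ hc (Nat.dvd_lcm_left e0 e1) w
  obtain ⟨g'', k1', -, k3'⟩ := h1.norm sl θ hc (Nat.dvd_lcm_right e0 e1) w
  obtain rfl : g' = g'' := left_inv_eq_right_inv k2 k1'
  obtain ⟨ω, r, k4, k5⟩ := mg p G H S x b' Y Y' Z hR y1 y2 y3 y4 y5 C3 θ _ g' hm k1 k2
    (by rintro _ (rfl | rfl); exacts [k3, k3']) (χ (C.D.xx y 1)) (by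
      rw [ho]; exact hX (C.θ_mem _))
  exact h2.dvd sl θ ha dvd_rfl (h0.mem_cls sl θ np ha (Nat.dvd_lcm_left e0 e1) w k2 k5
    (h2.pure sl θ dvd_rfl a (hW k4)))

end

lemma Arm.le (sl : SL) {T0 T1 : Subgroup G} {C0 : Cv p T0} {C1 : Cv p T1} {φ0 φ1 ψ0 ψ1} {e0 e1 : ℕ}
    (h0 : Arm C C0 C'' χ φ0 ψ0 e0) (h1 : Arm C C1 C'' χ φ1 ψ1 e1) (he : e0 ∣ e1)
    {θ : C''.R →+* kk p} {a : C.F0 →+* kk p} (ha : a ∈ Dg p C.D (C.tt C'' χ θ)) : C1.d ≤ C0.d := by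
  obtain ⟨θ0, k0, -⟩ := h0.block sl θ ha
  obtain ⟨θ1, k1, -⟩ := h1.block sl θ ha
  obtain ⟨V0⟩ := h0.a1 θ0
  obtain ⟨V1⟩ := h1.a1 θ1
  have h2 : Set.range V1.dg ⊆ Set.range V0.dg := by
    rw [← V0.dg_eq C.cd (by have := h0.m; omega), ← V1.dg_eq C.cd (by have := h0.m; omega),
      h0.per.eq k0, h1.per.eq k1]
    exact cls_sub he (self_cls _ _)
  have h3 := Set.ncard_le_ncard h2
  rw [Set.ncard_range_of_injective V0.dg_inj, Set.ncard_range_of_injective V1.dg_inj,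
    Nat.card_eq_finsetCard, Nat.card_eq_finsetCard] at h3
  rw [V0.card_eq, V1.card_eq]
  exact Nat.pow_le_pow_right C.D.z.pos h3

lemma lt_of_at (hm : 8 ≤ C.D.m) (hm' : 8 ≤ C'.D.m) (h : C.AT C' φ) (θ : C'.R →+* kk p)
    (hN : ¬ Natural C.D (tw θ (C'.D.ρ.comp φ))) : C.d < C'.d := by
  obtain ⟨V⟩ := h θ
  have h1 := (V.nonempty (C'.cd.two_le (by omega))).card_pos
  have h2 : V.A.card ≠ 1 := fun e => hN (V.natural C.cd (by omega) e)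
  rw [V.card_eq]
  exact lt_self_pow₀ (C.cd.two_le (by omega)) (by omega)

end Cv

open Cv in
theorem core (pp3 : PP3) (nf : NF) (wd : WD) (et : ET) (eq : EQ) (hc : HC) (np : NP) (sl : SL)
    (nt : NT) (mg : MG) : CORE := by
  refine ⟨8, fun p _ G _ _ H T x b hR N C t hN hC hO hZ hX hW hW' hJ hM0 hM1 => ?_⟩
  have nm := fun i => hR.1.nomod (hN i).1 (hN i).2
  have hm := fun i => (hC i).1
  have hq : ∀ i j, (C i).D.quad → (C j).D.quad := fun i j h =>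
    (hC j).2.1.2.1.2 ((hC i).2.1.2.1.1 h)
  have hO' := fun i j (h : N i ≤ N j) => hO i j (EE_mono (nm i) (nm j) h)
  choose! ψ hψ using hO'
  have hc' : ∀ i j l, N i ≤ N j → N j ≤ N l → (ψ j l).comp (ψ i j) = ψ i l := fun i j l h1 h2 =>
    ((hψ j l h2).comp (hψ i j h1)).uniq (hψ i l (h1.trans h2))
  have nn : ∀ i j, N i < N j → (C j).Full (EE H (N i)) →
      ∀ θ : (C j).R →+* kk p, ¬ Natural (C i).D (tw θ ((C j).D.ρ.comp (ψ i j))) :=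
    fun i j h h' => not_nat nf hR (hN i).1 h (hN j).2 (hm i) (hm j) (hψ i j h.le) h' (hq i j)
  have at1 : ∀ i j l, N i < N j → Low (C i) (C j) → N j ≤ N l → EndPair (C j).D (C l).D (ψ j l) →
      (∀ θ : (C l).R →+* kk p, AI (tw θ ((C l).D.ρ.comp (ψ i l)))) → (C j).AT (C l) (ψ j l) :=
    fun i j l h1 h2 h3 h4 h5 => low_at pp3 (hm i) (hm j) ((end_iff (hψ i j h1.le)).1 h2.1)
      (h2.2.ai (hψ i j h1.le)) (nn i j h1 h2.2) h4 (by rwa [hc' i j l h1.le h3])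
  have at2 : ∀ i j l, N i < N j → Low (C i) (C j) → N j ≤ N l → (C j).End (C l) →
      (C l).Full (EE H (N i)) → (C j).AT (C l) (ψ j l) := fun i j l h1 h2 h3 h4 h5 =>
    at1 i j l h1 h2 h3 ((end_iff (hψ j l h3)).1 h4) fun θ =>
      (h5.ai (hψ i l (h1.le.trans h3))).tw θ
  have atz : ∀ i j, i ≠ .z → j ≠ .z → N i < N j → Low (C i) (C j) → (C j).AT (C .z) (ψ j .z) :=
    fun i j h1 h2 h3 h4 => at2 i j .z h3 h4 (hZ j h2).1.le (hZ j h2).2.1 (hZ i h1).2.2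
  have ax := atz .xm .x nofun nofun hX.1 hX.2
  obtain ⟨M, hM⟩ := Ideal.exists_maximal (C .z).R
  have := hM.isPrime
  obtain ⟨θ, -⟩ := exists_hom_of_prime (k := kk p) (p := p) M
  have arm : ∀ j, j ≠ .z → N .x ≤ N j → (C j).AT (C .z) (ψ j .z) →
      ∃ e, Arm (C .x) (C j) (C .z) (ψ .x .z) (ψ .x j) (ψ j .z) e := by
    intro j h1 h2 h3
    have h4 := (hZ j h1).1.le
    obtain ⟨V⟩ := h3 θ
    have h5 := V.nonempty ((C .z).cd.two_le (by have := hm .z; omega))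
    have k : ∀ i, i ≠ .z → N i ≤ N j → AI (((C j).tt (C .z) (ψ j .z) θ).comp (ψ i j)) :=
      fun i h6 h7 => by
        have := ((hZ i h6).2.2.ai (hψ i .z (h7.trans h4))).tw θ
        rwa [← hc' i j .z h7 h4] at this
    have et' := fun i h6 h7 => et p G _ _ (C i) (C j) (ψ i j) _ _ V (by have := hm i; omega)
      (by have := hm j; omega) (pp3 p G _ (C i) (by have := hm i; omega)) h5 (k i h6 h7)
    obtain ⟨v, v0, v1, v2⟩ := ((end_iff (hψ .x .z (h2.trans h4))).1 (hZ .x nofun).2.1).vec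
      (C .z).cd θ
    rw [← hc' .x j .z h2 h4] at v1 v2
    have h6 := at1 .xm .x j hX.1 hX.2 h2 ((et' .x nofun h2).2 v v0 v1 v2)
      (et' .xm nofun (hX.1.le.trans h2)).1
    obtain ⟨e, he⟩ := exists_per eq sl (hm .x) (hm j) (hm .z) h6 h3 (by rwa [hc' .x j .z h2 h4]) θ
      (by
        rw [hc' .x j .z h2 h4]
        exact nt p G H T x b _ _ hR (hN .x).1 (h2.trans h4) (hN .z).2 _ _ _ (hm .x) (hm .z) ax
          (hψ _ _ (h2.trans h4)) (hC .x).2.2 (hC .z).2.2 (hq _ _) θ)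
    exact ⟨e, hm .x, hm j, hψ j .z h4, hc' .x j .z h2 h4, hq _ _, h6, h3, ax, he⟩
  have xy := fun i => (hW i).1.trans (hW i).2.1.le
  choose e he using fun i => arm (.y i) nofun (xy i)
    (atz (.w i) (.y i) nofun nofun (hW i).2.1 (hW i).2.2)
  obtain ⟨e', he'⟩ := arm (.w 2) nofun (hW 2).1 (atz .wm (.w 2) nofun nofun hW'.1 hW'.2.1)
  obtain ⟨a1, a2, a3, y, i, j, l, v, w⟩ := wd p _ _ _ _ _ (C .x).cd (hm .x)
  obtain ⟨V⟩ := ax θ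
  obtain ⟨θ1, h1⟩ := V.nonempty ((C .z).cd.two_le (by have := hm .z; omega))
  have ha := (V.dg_eq (C .x).cd (by have := hm .x; omega)).ge ⟨⟨θ1, h1⟩, rfl⟩
  have mt : ∀ i, N (.y i) ⊓ N (.y 2) ≤ N (.w 2) → e' ∣ Nat.lcm (e i) (e 2) := fun i h => by
    have h2 := hR.1.nomod (le_inf (hN (.y i)).1 (hN (.y 2)).1) (inf_le_left.trans (hN (.y i)).2)
    exact meet sl hc np w mg hR (hN (.y i)).1 (hN (.y 2)).1 (hZ (.y i) nofun).1.le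
      (hZ (.y 2) nofun).1.le (hN .z).2 (he i) (he 2) he' (hm _) (hψ _ _ (hZ .x nofun).1.le)
      (EE_mono (nm _) h2 (le_inf (xy i) (xy 2))) (EE_mono h2 (nm _) h) ha
  have h2 := hR.1.nomod ((hN (.y 0)).1.trans le_sup_left) (sup_le (hN (.y 0)).2 (hN (.y 1)).2)
  have h3 := arith (mt 0 hM0) (mt 1 hM1) (join sl hc np w (he 0) (he 1) (he 2)
    ((EE_mono (nm _) h2 hJ).trans (EE_sup (nm _) (nm _) h2).le) ha)
  obtain ⟨θ2, -⟩ := (he 2).block sl θ ha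
  exact (he'.le sl (he 2) h3 ha).not_gt (lt_of_at (hm _) (hm _)
    (at2 .wm (.w 2) (.y 2) hW'.1 hW'.2.1 (hW 2).2.1.le (hW 2).2.2.1 hW'.2.2.2) θ2
    (nn _ _ (hW 2).2.1 (hW 2).2.2.2 θ2))

end Vale.Agent.P183M
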