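import Vale.Agent.P183CR.Smith

/-!
Classical data: a finite group with a split BN-pair acting on its natural module in coordinates.
The ring `R` is a finite field (forms) or a product `F × F` (linear groups, acting on the natural
module and its dual at the same time).
-/

set_option autoImplicit false
set_option linter.all false

namespace Vale.Agent.P183M

open Matrix Subgroup Vale.Agent.P240.H195 Vale.Agent.P183CR

universe u

/-- `g` is a `p`-element -/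
def IsP (p : ℕ) {G : Type u} [Group G] (g : G) : Prop := ∃ k : ℕ, g ^ p ^ k = 1

/-- basis vectors -/
def ee {R : Type} [CommRing R] {d : ℕ} (a : Fin d) : Fin d → R := Pi.single a 1

/-- coordinate subspaces -/
def Co (R : Type) [CommRing R] {d : ℕ} (A : Fin d → Prop) : Submodule R (Fin d → R) where
  carrier := {x | ∀ a, ¬ A a → x a = 0}
  add_mem' := fun {x y} hx hy a ha => by rw [Pi.add_apply, hx a ha, hy a ha, add_zero]
  zero_mem' := fun _ _ => rfl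
  smul_mem' := fun c x hx a ha => by rw [Pi.smul_apply, hx a ha, smul_zero]

/-- the permutation exchanging `a, b` and `rev a, rev b` -/
def rf {d : ℕ} (a b : Fin d) : Equiv.Perm (Fin d) := Equiv.swap a b * Equiv.swap a.rev b.rev

/-- monomial matrices -/
def Mon1 {R : Type} [CommRing R] {d : ℕ} (M : Matrix (Fin d) (Fin d) R)
    (w : Equiv.Perm (Fin d)) : Prop := ∀ a, ∃ c : Rˣ, M *ᵥ ee a = (c : R) • ee (w a)

/-- upper unitriangular matrices -/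
def Ut {R : Type} [CommRing R] {d : ℕ} (M : Matrix (Fin d) (Fin d) R) : Prop :=
  (∀ i j, j < i → M i j = 0) ∧ ∀ i, M i i = 1

/-- The data. `m` is the number of hyperbolic pairs `a, rev a` (`a < m`), `nd i` (`i < rk`) are the
representatives of the simple reflections, `x` is a long root subgroup in the centre of `U`, `lty`
marks the linear groups, `dty` the groups of type `D`, `quad` the orthogonal groups in
characteristic two. -/
structure Dat (G : Type u) [Group G] (R F0 : Type) [CommRing R] [Field F0] (d : ℕ) where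
  ρ : G →* Matrix (Fin d) (Fin d) R
  σ : R ≃+* R
  J : Matrix (Fin d) (Fin d) R
  sing : (Fin d → R) → Prop
  B : Subgroup G
  N : Subgroup G
  U : Subgroup G
  nd : ℕ → G
  rk : ℕ
  m : ℕ
  z : Fin d
  ι : F0 →+* R
  x : F0 → G
  N0 : Matrix (Fin d) (Fin d) R
  n0 : G
  lty : Prop
  dty : Prop
  quad : Prop

namespace Dat

variable {G : Type u} [Group G] {R F0 : Type} [CommRing R] [Field F0] {d : ℕ}
  (D : Dat G R F0 d)

/-- the sesquilinear form -/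
def β (x y : Fin d → R) : R := (fun a => D.σ (x a)) ⬝ᵥ (D.J *ᵥ y)

/-- the simple reflections -/
def S : Set G := {s | ∃ i < D.rk, s = D.nd i}

/-- the indices of the anisotropic part -/
def Mid (a : Fin d) : Prop := D.m ≤ a.val ∧ D.m ≤ a.rev.val

/-- signed permutations -/
def Sgn (w : Equiv.Perm (Fin d)) : Prop := (∀ a, w a.rev = (w a).rev) ∧ ∀ a, D.Mid a → w a = a

/-- block monomial matrices -/
def Mon (M : Matrix (Fin d) (Fin d) R) (w : Equiv.Perm (Fin d)) : Prop :=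
  D.Sgn w ∧ (∀ a, ¬ D.Mid a → ∃ c : Rˣ, M *ᵥ ee a = (c : R) • ee (w a)) ∧
    ∀ a i, D.Mid a → ¬ D.Mid i → M i a = 0

/-- upper unitriangular, and trivial on the anisotropic part -/
def Up (M : Matrix (Fin d) (Fin d) R) : Prop :=
  Ut M ∧ ∀ i j, D.Mid i → D.Mid j → i ≠ j → M i j = 0

/-- the rank one map `y ↦ β v y • u` -/
def ro (u v : Fin d → R) : Matrix (Fin d) (Fin d) R :=
  vecMulVec u ((fun a => D.σ (v a)) ᵥ* D.J)

/-- the positions of the root group attached to `a < b` -/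
def Pat (a b i j : Fin d) : Prop :=
  (i = a ∧ j = b) ∨ (i = b.rev ∧ j = a.rev) ∨
    (b = a.rev ∧ ((i = a ∧ D.Mid j) ∨ (D.Mid i ∧ j = b)))

/-- totally singular submodules -/
def TS (E : Submodule R (Fin d → R)) : Prop :=
  (∀ x ∈ E, D.sing x) ∧ ∀ x ∈ E, ∀ y ∈ E, D.β x y = 0

/-- `P` contains all simple reflections except possibly those of the end nodes -/
def EndP (P : Subgroup G) : Prop :=
  ∀ i < D.rk, 0 < i → (D.lty → i + 1 < D.rk) → D.nd i ∈ P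

end Dat

variable {G : Type u} [Group G] {R F0 : Type} [CommRing R] [Field F0] {d : ℕ}

/-- The properties common to all types. -/
structure CD (p : ℕ) (D : Dat G R F0 d) : Prop where
  sba : SBA p D.B D.N D.U D.S
  long : sba.toBN0.Long D.n0
  char : CharP R p
  red : IsReduced R
  sq : ∀ r, D.σ (D.σ r) = r
  fix : ∀ r, D.σ r = r ↔ ∃ t, r = D.ι t
  tr : (∃ r, D.σ r ≠ r) → ∃ r, r + D.σ r = 1
  eps : ∃ ε : R, (ε = 1 ∨ ε = -1) ∧ ∀ x y, D.β y x = ε * D.σ (D.β x y)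
  nondeg : IsUnit D.J.det
  inv : ∀ g x y, D.β (D.ρ g *ᵥ x) (D.ρ g *ᵥ y) = D.β x y
  sing_smul : ∀ (c : R) x, D.sing x → D.sing (c • x)
  sing_add : ∀ x y, D.sing x → D.sing y → D.β x y = 0 → D.sing (x + y)
  sing_self : ∀ x, D.sing x → D.β x x = 0
  sing_inv : ∀ g x, D.sing x → D.sing (D.ρ g *ᵥ x)
  sing_of : ¬ D.quad → ∀ x, D.β x x = 0 → D.sing x
  quadr : D.quad → (2 : R) = 0 ∧ IsField R ∧ (∀ r, D.σ r = r) ∧ ∃ Q : (Fin d → R) → R,
    (∀ x y, Q (x + y) = Q x + Q y + D.β x y) ∧ (∀ (c : R) x, Q (c • x) = c ^ 2 * Q x) ∧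
      (∀ x, D.sing x ↔ Q x = 0) ∧ ∀ g x, Q (D.ρ g *ᵥ x) = Q x
  z0 : D.z.val = 0
  le_d : 2 * D.m ≤ d
  d_le : d ≤ 2 * D.m + 2
  d_le' : (∃ r, D.σ r ≠ r) → d ≤ 2 * D.m + 1
  sing_ee : ∀ a, ¬ D.Mid a → D.sing (ee a)
  J_zero : ∀ a b, b ≠ a.rev → ¬ (D.Mid a ∧ D.Mid b) → D.J a b = 0
  J_unit : ∀ a, ¬ D.Mid a → IsUnit (D.J a a.rev)
  up : ∀ u ∈ D.U, D.Up (D.ρ u)
  pinj : ∀ a b, IsP p a → IsP p b → D.ρ a = D.ρ b → a = b
  pts : ∀ x, D.sing x → ∃ (r : R) (g : G), x = r • (D.ρ g *ᵥ ee D.z)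
  x_mem : ∀ t, D.x t ∈ D.U
  x_comm : ∀ t, ∀ u ∈ D.U, u * D.x t = D.x t * u
  x_eq : ∀ t, D.ρ (D.x t) = 1 + D.ι t • D.N0
  x_gen : normalClosure (Set.range D.x) = ⊤
  shape : (¬ D.quad ∧ ∃ c : Rˣ, D.N0 = (c : R) • D.ro (ee D.z) (ee D.z)) ∨
    ((∀ r, D.σ r = r) ∧ ∃ (c : Rˣ) (y : Fin d), y.val = 1 ∧
      D.N0 = (c : R) • (D.ro (ee D.z) (ee y) - D.ro (ee y) (ee D.z)))
  span : Submodule.span R (Set.range D.ρ) = ⊤
  norm : ∀ h h' : Matrix (Fin d) (Fin d) R, h * h' = 1 → h' * h = 1 →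
    (∀ x y, D.β (h *ᵥ x) (h *ᵥ y) = D.β x y) → (∀ x, D.sing x → D.sing (h *ᵥ x)) →
      ∀ y, ∃ y', D.ρ y' = h * D.ρ y * h'
  rootel : ∀ a b, ¬ D.Mid a → ¬ D.Mid b → a ≠ b → a ≠ b.rev → ∀ c : R, ∃ (g : G) (c' : R),
    IsP p g ∧ D.ρ g = 1 + single a b c + single b.rev a.rev c'
  refl : ∀ a b, ¬ D.Mid a → ¬ D.Mid b → a ≠ b → a ≠ b.rev → ∃ n ∈ D.N, D.Mon (D.ρ n) (rf a b)
  tor : ∀ ε : R, ε * ε = ε → ∀ g, D.ρ g *ᵥ (ε • ee D.z) = ε • ee D.z →
    g ∈ closure {h | IsP p h ∧ D.ρ h *ᵥ (ε • ee D.z) = ε • ee D.z}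
  surj : ∀ c : Rˣ, ∃ t ∈ D.B, D.ρ t *ᵥ ee D.z = (c : R) • ee D.z

/-- Symplectic, unitary and orthogonal groups. -/
structure CDF (p : ℕ) {F : Type} [Field F] (D : Dat G F F0 d) : Prop extends CD p D where
  nl : ¬ D.lty
  rk_eq : D.rk = D.m
  up' : ∀ g, IsP p g → D.Up (D.ρ g) → g ∈ D.U
  mon : ∀ n ∈ D.N, ∃ w, D.Mon (D.ρ n) w
  mon_T : ∀ t ∈ D.B, t ∈ D.N → D.Mon (D.ρ t) 1
  mon_nd : ∀ a b : Fin d, b.val = a.val + 1 → b.val < D.m → D.Mon (D.ρ (D.nd a.val)) (rf a b)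
  mon_last : ¬ D.dty → ∀ a : Fin d, a.val + 1 = D.m →
    D.Mon (D.ρ (D.nd a.val)) (Equiv.swap a a.rev)
  mon_last' : D.dty → ∀ a b : Fin d, b.val = a.val + 1 → b.val + 1 = D.m →
    D.Mon (D.ρ (D.nd b.val)) (rf a b.rev)
  sign : ¬ D.dty → ∀ a, ¬ D.Mid a → ∃ n ∈ D.N, D.Mon (D.ρ n) (Equiv.swap a a.rev)
  mon_n0 : ∃ w, D.Mon (D.ρ D.n0) w ∧
    ∀ a : Fin d, a.val < D.m → (D.dty → a.val + 1 < D.m) → w a = a.rev
  dzero : D.dty → d = 2 * D.m ∧ ∀ u ∈ D.U, ∀ a : Fin d, a.val + 1 = D.m → D.ρ u a a.rev = 0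
  gen : D.U ≤ closure {g | g ∈ D.U ∧ ∃ a b, a < b ∧ ¬ D.Mid a ∧ ¬ D.Mid b ∧
    ∀ i j, i ≠ j → ¬ D.Pat a b i j → D.ρ g i j = 0}
  witt : ∀ E, D.TS E → ∃ (g : G) (j : ℕ), j ≤ D.m ∧
    (E = (Co F fun a => a.val < j).map (Matrix.toLin' (D.ρ g)) ∨
      (D.dty ∧ E = (Co F fun a => a.val + 1 < D.m ∨ a.val = D.m).map (Matrix.toLin' (D.ρ g))))

/-- the action on the natural module of a linear group -/
def Dat.ρ1 {F : Type} [Field F] (D : Dat G (F × F) F0 d) : G →* Matrix (Fin d) (Fin d) F :=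
  ((RingHom.fst F F).mapMatrix : Matrix (Fin d) (Fin d) (F × F) →+* _).toMonoidHom.comp D.ρ

/-- Linear groups. -/
structure CDL (p : ℕ) {F : Type} [Field F] (D : Dat G (F × F) F0 d) : Prop extends CD p D where
  il : D.lty
  swap : ∀ r, D.σ r = r.swap
  rk_eq : D.rk + 1 = d
  up' : ∀ g, IsP p g → Ut (D.ρ1 g) → g ∈ D.U
  mon : ∀ n ∈ D.N, ∃ w, Mon1 (D.ρ1 n) w
  mon_T : ∀ t ∈ D.B, t ∈ D.N → Mon1 (D.ρ1 t) 1
  mon_nd : ∀ a b : Fin d, b.val = a.val + 1 → Mon1 (D.ρ1 (D.nd a.val)) (Equiv.swap a b)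
  refl1 : ∀ a b : Fin d, ∃ n ∈ D.N, Mon1 (D.ρ1 n) (Equiv.swap a b)
  mon_n0 : Mon1 (D.ρ1 D.n0) Fin.revPerm
  gen : D.U ≤ closure {g | g ∈ D.U ∧ ∃ a b, a < b ∧
    ∀ i j, i ≠ j → ¬ (i = a ∧ j = b) → D.ρ1 g i j = 0}
  witt : ∀ E : Submodule F (Fin d → F), ∃ (g : G) (j : ℕ), j ≤ d ∧
    E = (Co F fun a => a.val < j).map (Matrix.toLin' (D.ρ1 g))

/-- a matrix representation as a representation -/
def mrep {K : Type} [CommRing K] {n : ℕ} (τ : G →* Matrix (Fin n) (Fin n) K) :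
    Representation K G (Fin n → K) :=
  ((Matrix.toLinAlgEquiv' : Matrix (Fin n) (Fin n) K ≃ₐ[K] _) :
    Matrix (Fin n) (Fin n) K →* _).comp τ

/-- change of the coefficient ring -/
def tw {K k : Type} [CommRing K] [CommRing k] {n : ℕ} (θ : K →+* k)
    (τ : G →* Matrix (Fin n) (Fin n) K) : G →* Matrix (Fin n) (Fin n) k :=
  (θ.mapMatrix : Matrix (Fin n) (Fin n) K →+* _).toMonoidHom.comp τ

/-- absolutely irreducible (for `K = F × F`: on both components) -/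
def AI {K : Type} [CommRing K] {n : ℕ} (τ : G →* Matrix (Fin n) (Fin n) K) : Prop :=
  Submodule.span K (Set.range τ) = ⊤

/-- the monomial with digits `c` -/
def chi {k : Type} [Field k] (c : (R →+* k) →₀ ℕ) (r : R) : k := c.prod fun θ n => θ r ^ n

/-- the matrix coefficient of `τ` at `v, f` is the monomial with digits `c` -/
def EndFun {k : Type} [Field k] (D : Dat G R F0 d) {n : ℕ} (τ : G →* Matrix (Fin n) (Fin n) k)
    (v f : Fin n → k) (c : (R →+* k) →₀ ℕ) : Prop :=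
  ∃ κ : k, κ ≠ 0 ∧ ∀ g, f ⬝ᵥ (τ g *ᵥ v) = κ * chi c (D.β (ee D.z) (D.ρ g *ᵥ ee D.z))

/-- the stabiliser of the line through `v` -/
def LS {K : Type} [CommRing K] {n : ℕ} (τ : G →* Matrix (Fin n) (Fin n) K) (v : Fin n → K) :
    Subgroup G where
  carrier := {g | ∃ c : Kˣ, τ g *ᵥ v = (c : K) • v}
  one_mem' := ⟨1, by simp⟩
  mul_mem' := by
    rintro a b ⟨c, hc⟩ ⟨e, he⟩
    refine ⟨c * e, ?_⟩
    rw [map_mul, ← mulVec_mulVec, he, mulVec_smul, hc, smul_smul, Units.val_mul, mul_comm]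
  inv_mem' := by
    rintro a ⟨c, hc⟩
    refine ⟨c⁻¹, ?_⟩
    have h1 : τ a⁻¹ *ᵥ (τ a *ᵥ v) = v := by
      rw [mulVec_mulVec, ← map_mul, inv_mul_cancel, map_one, one_mulVec]
    rw [hc, mulVec_smul] at h1
    conv_rhs => rw [← h1, smul_smul, Units.inv_mul, one_smul]

/-- Irreducible modules whose highest weight line is stabilised by all non-end reflections have a
monomial matrix coefficient. -/
def P3 (p : ℕ) (k : Type) [Field k] (D : Dat G R F0 d) : Prop :=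
  ∀ (n : ℕ) (τ : G →* Matrix (Fin n) (Fin n) k) (v f : Fin n → k), AI τ → v ≠ 0 → f ≠ 0 →
    (∀ u ∈ D.U, τ u *ᵥ v = v) → (∀ u ∈ D.U, f ᵥ* τ u = f) → D.EndP (LS τ v) →
      ∃ c : (R →+* k) →₀ ℕ, (∀ θ, c θ < p) ∧ EndFun D τ v f c

section
variable {G' : Type u} [Group G'] {R' F0' : Type} [CommRing R'] [Field F0'] {d' : ℕ}

/-- The natural module of `G'` is of end type for `G`. -/
def EndPair (D : Dat G R F0 d) (D' : Dat G' R' F0' d') (ψ : G →* G') : Prop :=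
  ∃ g : G', (∀ u ∈ D.U, g⁻¹ * ψ u * g ∈ D'.U) ∧
    D.EndP (LS (D'.ρ.comp ψ) (D'.ρ g *ᵥ ee D'.z))

/-- `τ` is equivalent to a twist of the natural module (or its dual). -/
def Natural {k : Type} [Field k] (D : Dat G R F0 d) {n : ℕ}
    (τ : G →* Matrix (Fin n) (Fin n) k) : Prop :=
  ∃ (θ : R →+* k) (e : (Fin d → k) ≃ₗ[k] (Fin n → k)),
    ∀ g x, e (tw θ D.ρ g *ᵥ x) = τ g *ᵥ e x

/-- Kronecker product of a family of matrices -/
def kr {k : Type} [CommRing k] {A : Type} [Fintype A] {I : Type} (M : A → Matrix I I k) :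
    Matrix (A → I) (A → I) k := Matrix.of fun a b => ∏ θ, M θ (a θ) (b θ)

open Classical in
/-- `τ` is a twisted tensor product of natural modules, indexed by the set `A` of embeddings. -/
def TT {k : Type} [Field k] (D : Dat G R F0 d) {n : ℕ} (τ : G →* Matrix (Fin n) (Fin n) k)
    (A : Finset (R →+* k)) : Prop :=
  (∀ θ ∈ A, ∀ θ' ∈ A, θ.comp D.ι = θ'.comp D.ι → θ = θ') ∧
    ∃ E : Matrix (A → Fin d) (A → Fin d) k ≃ₐ[k] Matrix (Fin n) (Fin n) k, ∀ g,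
      τ g = E (kr fun θ : A => (D.ρ g).map θ.1)

end

end Vale.Agent.P183M
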