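import Vale.Agent.P183M.D3a

/-!
An end type module which stays irreducible for a subgroup has no two digits which differ by the
involution.
-/

set_option autoImplicit false
set_option linter.all false

namespace Vale.Agent.P183M

open Matrix Subgroup Vale.Agent.P240.H195 Vale.Agent.P183CR

universe u

section
variable {G : Type u} [Group G] {R F0 : Type} [CommRing R] [Field F0] {d : ℕ} [Finite R]
  {k : Type} [Field k] {p : ℕ} {D : Dat G R F0 d} [hp : Fact p.Prime] [CharP k p] [IsAlgClosed k]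

lemma single_le_two {A : Type*} [DecidableEq A] {c : A → ℕ} {a b : A} (hab : a ≠ b) (ha : 1 ≤ c a)
    (hb : 1 ≤ c b) : (Pi.single a 1 + Pi.single b 1 : A → ℕ) ≤ c := by
  intro t
  rw [Pi.add_apply]
  by_cases h1 : t = a
  · subst h1
    rwa [Pi.single_eq_same, Pi.single_eq_of_ne hab]
  · rw [Pi.single_eq_of_ne h1]
    by_cases h2 : t = b
    · subst h2
      rwa [Pi.single_eq_same]
    · rw [Pi.single_eq_of_ne h2]
      exact Nat.zero_le _

omit [Finite R] hp [CharP k p] [IsAlgClosed k] in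
lemma hσ_of {θ : R →+* k} (hne : θ.comp (D.σ : R →+* R) ≠ θ) : ∃ r, D.σ r ≠ r := by
  by_contra h1
  push Not at h1
  exact hne (RingHom.ext fun r => congrArg θ (h1 r))

lemma CD.rz_upper (h : CD p D) (hm : 5 ≤ D.m) {n : ℕ} {τ : G →* Matrix (Fin n) (Fin n) k}
    {v f : Fin n → k} {c : (R →+* k) →₀ ℕ} (hc : ∀ θ, c θ < p) (hV : EndFun D τ v f c)
    {θ : R →+* k} (hne : θ.comp (D.σ : R →+* R) ≠ θ) (h1 : 1 ≤ c θ)
    (h2 : 1 ≤ c (θ.comp (D.σ : R →+* R))) {M : Matrix (Fin d) (Fin d) R}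
    (hM : ∀ i j, ¬ i < j → M i j = 0) :
    (fun w => θ (D.β w (M *ᵥ w)) * mono (⇑c - (Pi.single θ 1 +
      Pi.single (θ.comp (D.σ : R →+* R)) 1)) (D.β (ee D.z) w)) ∈ Rz D ⊤ fun g => τ g *ᵥ v := by
  have hσ := hσ_of hne
  set θ' := θ.comp (D.σ : R →+* R) with hθ'
  have eθ : ∀ r, θ' r = θ (D.σ r) := fun r => rfl
  set q : (Fin d → R) → k := fun w => mono (⇑c - (Pi.single θ 1 + Pi.single θ' 1))
    (D.β (ee D.z) w) with hq
  set W := Rz D ⊤ fun g => τ g *ᵥ v with hW
  have hz : ¬ D.Mid D.z := D.not_mid (by rw [h.z0]; omega)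
  obtain ⟨ε, hε, hβ⟩ := h.eps
  have hsq : ∀ u, D.sing u → D.β (ee D.z) u = 0 →
      (fun w => θ (D.β u w) * θ' (D.β u w) * q w) ∈ W := by
    intro u hu hu'
    have h3 := h.rz_exp W hc (u0 := ee D.z) (u1 := u) (fun μ => h.rz_basic hV
      (h.sing_add _ _ (h.sing_ee _ hz) (h.sing_smul _ _ hu)
        (by rw [D.β_smul_right, hu', mul_zero]))) (single_le_two hne.symm h1 h2)
    simpa only [mono_add, mono_single, pow_one] using h3
  have hP : ∀ {i j : Fin d}, i ≠ D.z.rev → j ≠ D.z.rev → j ≠ i.rev →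
      (fun w => θ (D.β (ee j) w) * θ (D.β w (ee i)) * q w) ∈ W := by
    intro i j hi hj hij
    refine h.span_ind hσ hm hz (P := fun x y => (fun w => θ (D.β y w) * θ (D.β w x) * q w) ∈ W)
      ?_ ?_ ?_ hi hj hij
    · intro x x' y a b
      convert W.sub_mem a b using 1
      funext w
      simp only [D.β_sub_right, map_sub, Pi.sub_apply]
      ring
    · intro x y y' a b
      convert W.sub_mem a b using 1
      funext w
      simp only [D.β_sub_left, map_sub, Pi.sub_apply]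
      ring
    · intro x y hx hy hxy
      have h3 := ext4' hne.symm W (a := fun w => θ (D.β y w) * θ' (D.β y w) * q w)
        (b := fun w => θ (D.β y w) * θ' (D.β x w) * q w)
        (c := fun w => θ (D.β x w) * θ' (D.β y w) * q w)
        (d := fun w => θ (D.β x w) * θ' (D.β x w) * q w) fun t => by
          convert hsq (y + t • x) (h.sing_add _ _ hy.1 (h.sing_smul _ _ hx.1)
            (by rw [D.β_smul_right, h.β_symm hxy, mul_zero]))
            (by rw [D.β_add_right, D.β_smul_right, hx.2.1, hy.2.1, mul_zero, add_zero]) using 1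
          funext w
          simp only [D.β_add_left, D.β_smul_left, map_add, map_mul, Pi.add_apply, Pi.smul_apply,
            smul_eq_mul, eθ, h.sq]
          ring
      convert W.smul_mem (θ ε) h3 using 1
      funext w
      rw [hβ x w, map_mul, Pi.smul_apply, smul_eq_mul, eθ]
      ring
  have e1 : (fun w => θ (D.β w (M *ᵥ w)) * q w) =
      ∑ i, ∑ j, fun w => θ (D.β w (single i j (M i j) *ᵥ w)) * q w := by
    funext w
    simp only [Finset.sum_apply, ← Finset.sum_mul, ← map_sum]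
    congr 2
    conv_lhs => rw [matrix_eq_sum_single M]
    unfold Dat.β
    simp only [sum_mulVec, mulVec_sum, dotProduct_sum]
  change (fun w => θ (D.β w (M *ᵥ w)) * q w) ∈ W
  rw [e1]
  refine W.sum_mem fun i _ => W.sum_mem fun j _ => ?_
  by_cases hij : i < j
  · obtain ⟨jj, hjj⟩ := h.J_unit' hσ j.rev
    have h3 := hP (i := i) (j := j.rev) (fun e => by
        have := congrArg Fin.val e
        rw [Fin.val_rev, h.z0] at this
        have := j.2
        rw [Fin.lt_def] at hij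
        omega) (fun e => by
        have := congrArg Fin.val (Fin.rev_injective e)
        rw [h.z0] at this
        rw [Fin.lt_def] at hij
        omega) fun e => hij.ne (Fin.rev_injective e).symm
    convert W.smul_mem (θ (M i j * (jj⁻¹ : Rˣ))) h3 using 1
    funext w
    have e2 : single i j (M i j) = (M i j * (jj⁻¹ : Rˣ)) • D.ro (ee i) (ee j.rev) := by
      rw [h.ro_ee hσ, smul_single, ← hjj, smul_eq_mul, mul_assoc, Units.inv_mul, mul_one,
        Fin.rev_rev]
    rw [e2, smul_mulVec, D.ro_mulVec, D.β_smul_right, D.β_smul_right, map_mul, map_mul θ _ (D.β w _),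
      Pi.smul_apply, smul_eq_mul]
    ring
  · convert W.zero_mem using 1
    funext w
    rw [hM i j hij, single_zero, zero_mulVec, D.β_zero_right, map_zero, zero_mul, Pi.zero_apply]

omit [Finite R] hp [CharP k p] [IsAlgClosed k] in
lemma CD.upper_zero (h : CD p D) (hm : 5 ≤ D.m) {θ : R →+* k}
    (hne : θ.comp (D.σ : R →+* R) ≠ θ) {M : Matrix (Fin d) (Fin d) R}
    (hM : ∀ i j, ¬ i < j → M i j = 0)
    (h0 : ∀ w, D.sing w → IsUnit (D.β (ee D.z) w) → θ (D.β w (M *ᵥ w)) = 0) (x y : Fin d → R) :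
    θ (D.β x (M *ᵥ y)) = 0 := by
  have hσ := hσ_of hne
  set θ' := θ.comp (D.σ : R →+* R) with hθ'
  have eθ : ∀ r, θ' r = θ (D.σ r) := fun r => rfl
  have hz : ¬ D.Mid D.z := D.not_mid (by rw [h.z0]; omega)
  have hz' : ¬ D.Mid D.z.rev := fun e => hz (D.mid_rev.1 e)
  have hx : ∀ a b : Fin d → R, (∀ t : R, θ (D.β (a + t • b) (M *ᵥ (a + t • b))) = 0) →
      θ (D.β a (M *ᵥ a)) = 0 ∧ θ (D.β a (M *ᵥ b)) = 0 ∧ θ (D.β b (M *ᵥ a)) = 0 ∧
        θ (D.β b (M *ᵥ b)) = 0 := by
    intro a b hab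
    refine ext4 hne.symm fun t => ?_
    rw [← hab t]
    simp only [mulVec_add, mulVec_smul, D.β_add_left, D.β_add_right, D.β_smul_left, D.β_smul_right,
      map_add, map_mul, smul_eq_mul, eθ]
    ring
  have h1 : ∀ u, D.sing u → D.β (ee D.z.rev) u = 0 → D.β (ee D.z) u = 0 →
      θ (D.β (ee D.z.rev) (M *ᵥ ee D.z.rev)) = 0 ∧ θ (D.β (ee D.z.rev) (M *ᵥ u)) = 0 ∧
        θ (D.β u (M *ᵥ ee D.z.rev)) = 0 ∧ θ (D.β u (M *ᵥ u)) = 0 := by
    intro u hu h2 h3
    refine hx _ _ fun t => h0 _ (h.sing_add _ _ (h.sing_ee _ hz') (h.sing_smul _ _ hu)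
      (by rw [D.β_smul_right, h2, mul_zero])) ?_
    rw [D.β_add_right, D.β_smul_right, h3, mul_zero, add_zero]
    exact h.β_unit hz
  have h2 : ∀ i j, θ (M i j) = 0 := by
    intro i j
    by_cases hij : i < j
    · have h3 := h.span_ind hσ hm hz' (P := fun x y => θ (D.β x (M *ᵥ y)) = 0)
        (fun x x' y a b => by rw [D.β_sub_left, map_sub, a, b, sub_zero])
        (fun x y y' a b => by rw [mulVec_sub, D.β_sub_right, map_sub, a, b, sub_zero])
        (fun x y hx' hy hxy => by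
          have hs0 := h.sing_zero.resolve_right (by omega)
          obtain ⟨x1, x2, x3⟩ := hx'
          obtain ⟨y1, y2, y3⟩ := hy
          rw [Fin.rev_rev] at x3 y3
          rcases x3 with rfl | x3
          · rcases y3 with rfl | y3
            · exact (h1 0 hs0 (D.β_zero_right _) (D.β_zero_right _)).1
            · exact (h1 y y1 y2 y3).2.1
          · rcases y3 with rfl | y3
            · exact (h1 x x1 x2 x3).2.2.1
            · refine (hx x y fun t => (h1 _ (h.sing_add _ _ x1 (h.sing_smul _ _ y1) ?_)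
                ?_ ?_).2.2.2).2.1
              · rw [D.β_smul_right, hxy, mul_zero]
              · rw [D.β_add_right, D.β_smul_right, x2, y2, mul_zero, add_zero]
              · rw [D.β_add_right, D.β_smul_right, x3, y3, mul_zero, add_zero])
        (i := i.rev) (j := j) (fun e => by
          have := congrArg Fin.val (Fin.rev_injective e)
          rw [Fin.val_rev, h.z0] at this
          have := j.2
          rw [Fin.lt_def] at hij
          omega) (fun e => by
          rw [Fin.rev_rev] at e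
          have := congrArg Fin.val e
          rw [h.z0] at this
          rw [Fin.lt_def] at hij
          omega) (by rw [Fin.rev_rev]; exact hij.ne')
      rw [h.β_ee_eq' hσ, Fin.rev_rev, mulVec_ee, map_mul] at h3
      have h4 := (h.J_unit' hσ i.rev).map θ
      rw [Fin.rev_rev] at h4
      exact (mul_eq_zero.1 h3).resolve_left h4.ne_zero
    · rw [hM i j hij, map_zero]
  rw [← D.bv_dot, ← map_mulVec']
  have h3 : M.map θ = 0 := by
    ext i j
    exact h2 i j
  rw [h3, zero_mulVec, dotProduct_zero]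

end

section
variable {G : Type u} [Group G] {R F0 : Type} [CommRing R] [Field F0] {d : ℕ} [Finite R]
  {G' : Type u} [Group G'] {R' F0' : Type} [CommRing R'] [Field F0'] {d' : ℕ} [Finite R']
  {k : Type} [Field k]
  {p : ℕ} {D : Dat G R F0 d} {D' : Dat G' R' F0' d'} {ψ : G →* G'}
  {cs : (R' →+* k) → (R →+* k) → ℕ} [hp : Fact p.Prime] [CharP k p] [IsAlgClosed k]

lemma not_transv (h : CD p D) (hm : 2 ≤ D.m) {c : (R →+* k) → ℕ} (hc : ∀ θ, c θ < p)
    {θ1 θ2 : R →+* k} (hj : Pi.single θ1 1 + Pi.single θ2 1 ≤ c) {C : k}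
    (hC : ∀ g g', mono c (D.β (D.ρ g *ᵥ ee D.z) (D.ρ (D.x 1) *ᵥ (D.ρ g' *ᵥ ee D.z))) =
      mono c (D.β (D.ρ g *ᵥ ee D.z) (D.ρ g' *ᵥ ee D.z)) +
        C * mono c (D.β (D.ρ g *ᵥ ee D.z) (ee D.z) * D.β (ee D.z) (D.ρ g' *ᵥ ee D.z))) : False := by
  have := h.char
  have := h.red
  have hc0 : c ≠ 0 := fun e => by
    have := hj θ1
    rw [e, Pi.add_apply, Pi.single_eq_same] at this
    exact absurd (le_trans le_self_add this) Nat.one_pos.not_ge
  have hC' : ∀ x y, D.sing x → D.sing y → ∀ a b, IsUnit (x a) → IsUnit (y b) →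
      mono c (D.β x (D.ρ (D.x 1) *ᵥ y)) = mono c (D.β x y) +
        C * mono c (D.β x (ee D.z) * D.β (ee D.z) y) := by
    intro x y hx hy a b ha hb
    obtain ⟨r, g, hg⟩ := h.pts_unit hx ha
    obtain ⟨r', g', hg'⟩ := h.pts_unit hy hb
    have h1 := hC g g'
    simp only [hg, hg', mulVec_smul, D.β_smul_left, D.β_smul_right, mono_mul] at h1 ⊢
    refine mul_left_cancel₀ (mul_ne_zero (mono_ne_zero c r'.isUnit)
      (mono_ne_zero c (r.isUnit.map D.σ))) ?_
    linear_combination h1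
  have hd := h.le_d
  have hz : D.z.val < D.m := by rw [h.z0]; omega
  have hrr : ∀ {a a' : Fin d}, a.val < D.m → a'.val < D.m → D.β (ee a.rev) (ee a'.rev) = 0 :=
    fun ha ha' => h.β_pos (D.not_mid' ha) (by rw [Fin.rev_rev]; exact (h.rev_ne ha ha').symm)
  have hu : IsUnit (D.β (ee D.z.rev) (ee D.z)) := by
    have := h.β_unit (D.not_mid' hz)
    rwa [Fin.rev_rev] at this
  rcases h.shape with ⟨-, a, ha⟩ | ⟨-, a, b, hb1, ha⟩
  · let b : Fin d := ⟨1, by omega⟩
    have hb : b.val < D.m := hm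
    have hbz : b ≠ D.z := fun h0 => by
      have := congrArg Fin.val h0
      rw [h.z0] at this
      exact one_ne_zero this
    have hbz' : b.rev ≠ D.z.rev := fun h0 => hbz (Fin.rev_injective h0)
    obtain ⟨j1, e1⟩ := hu
    obtain ⟨j2, e2⟩ := h.β_unit (D.not_mid hz)
    obtain ⟨j3, e3⟩ := h.β_unit (D.not_mid hb)
    have h1 : ∀ s t : R, mono c (s * j3 + t * (a * j1 * j2)) = mono c (s * j3) +
        C * mono c (t * (j1 * j2)) := by
      intro s t
      have h2 := hC' (ee D.z.rev + D.σ s • ee b) (ee b.rev + t • ee D.z.rev)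
        (h.sing_add _ _ (h.sing_ee _ (D.not_mid' hz)) (h.sing_smul _ _ (h.sing_ee _ (D.not_mid hb)))
          (by rw [D.β_smul_right, h.β_pos (D.not_mid' hz) (by rwa [Fin.rev_rev]), mul_zero]))
        (h.sing_add _ _ (h.sing_ee _ (D.not_mid' hb))
          (h.sing_smul _ _ (h.sing_ee _ (D.not_mid' hz)))
          (by rw [D.β_smul_right, hrr hb hz, mul_zero])) D.z.rev b.rev
        (by simp [ee_self, ee_ne (h.rev_ne hb hz).symm]) (by simp [ee_self, ee_ne hbz'])
      simp only [h.x_eq, map_one, one_smul, ha, add_mulVec, one_mulVec, smul_mulVec, D.ro_mulVec,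
        D.β_add_left, D.β_add_right, D.β_smul_left, D.β_smul_right, h.sq, ← e1, ← e2, ← e3,
        hrr hz hb, hrr hz hz, h.β_pos (D.not_mid hb) hbz'.symm, h.β_pos (D.not_mid hz) hbz',
        h.β_pos (D.not_mid hb) (h.rev_ne hz hb)] at h2
      convert h2 using 2
      · ring
      · congr 1
        ring
      · congr 1
        ring
    refine not_additive hc hj fun s t => ?_
    have h2 := h1 (s * (j3⁻¹ : Rˣ)) (t * ((a * j1 * j2)⁻¹ : Rˣ))
    have h3 := h1 0 (t * ((a * j1 * j2)⁻¹ : Rˣ))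
    have e4 : t * ((a * j1 * j2)⁻¹ : Rˣ) * (a * j1 * j2) = t := by
      rw [mul_assoc, ← Units.val_mul, ← Units.val_mul, Units.inv_mul, mul_one]
    rw [e4, mul_assoc s, Units.inv_mul, mul_one] at h2
    rw [e4, zero_mul, zero_add, mono_zero' hc0, zero_add] at h3
    rw [h2, h3]
  · have hb : b.val < D.m := by omega
    have hbz : b ≠ D.z := fun h0 => by
      have := congrArg Fin.val h0
      rw [h.z0] at this
      omega
    have hbz' : b.rev ≠ D.z.rev := fun h0 => hbz (Fin.rev_injective h0)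
    have h2 := hC' (ee D.z.rev) (ee b.rev) (h.sing_ee _ (D.not_mid' hz))
      (h.sing_ee _ (D.not_mid' hb)) D.z.rev b.rev (by simp [ee_self]) (by simp [ee_self])
    simp only [h.x_eq, map_one, one_smul, ha, add_mulVec, one_mulVec, smul_mulVec, sub_mulVec,
      D.ro_mulVec, D.β_add_right, D.β_sub_right, D.β_smul_right, hrr hz hb,
      h.β_pos (D.not_mid hz) hbz', zero_mul, mul_zero, mono_zero' hc0, add_zero, zero_add,
      sub_zero] at h2
    exact mono_ne_zero c (a.isUnit.mul ((h.β_unit (D.not_mid hb)).mul hu)) h2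

theorem no_common [Finite G] (h : CD p D) (h' : CD p D') (hm : 2 ≤ D.m) (hm' : 5 ≤ D'.m)
    (hE : EP p D D' ψ cs) (hU : ∀ u ∈ D.U, ψ u ∈ D'.U) {θ : R' →+* k} {θ1 θ2 : R →+* k}
    (hj : Pi.single θ1 1 + Pi.single θ2 1 ≤ cs θ) {n : ℕ} {τ : G' →* Matrix (Fin n) (Fin n) k}
    {v f : Fin n → k} {c : (R' →+* k) →₀ ℕ} (hc : ∀ θ, c θ < p) (hV : EndFun D' τ v f c)
    (hv : v ≠ 0) (hf : f ≠ 0) (hτ : AI (τ.comp ψ)) (hne : θ.comp (D'.σ : R' →+* R') ≠ θ)
    (h1 : 1 ≤ c θ) (h2 : 1 ≤ c (θ.comp (D'.σ : R' →+* R'))) : False := by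
  have hσ := hσ_of hne
  set e' := (ee D'.z : Fin d' → R') with he'
  set M := D'.ρ (ψ (D.x 1)) - 1 with hM
  have hM0 : ∀ i j, ¬ i < j → M i j = 0 := by
    intro i j hij
    obtain ⟨u1, u2⟩ := (h'.up _ (hU _ (h.x_mem 1))).1
    rw [hM, Matrix.sub_apply]
    rcases (not_lt.1 hij).eq_or_lt with rfl | hij'
    · rw [u2, one_apply_eq, sub_self]
    · rw [u1 _ _ hij', one_apply_ne hij'.ne', sub_self]
  obtain ⟨l, -, hl⟩ := h'.rz_upper hm' hc hV hne h1 h2 hM0
  obtain ⟨κ', hκ', hV'⟩ := hV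
  have hUe : ∀ u ∈ D.U, ∀ w, D'.β e' (D'.ρ (ψ u) *ᵥ w) = D'.β e' w := fun u hu w => by
    rw [h'.inv'', ← map_inv, he', h'.fix_z (hU _ (inv_mem hu))]
  have hfix : ∀ l : Fin n → k, (∀ u ∈ D.U, ∀ g, l ⬝ᵥ (τ (ψ u * ψ g) *ᵥ v) = l ⬝ᵥ (τ (ψ g) *ᵥ v)) →
      ∀ u ∈ D.U, l ᵥ* (τ.comp ψ) u = l := by
    intro l hl u hu
    refine sub_eq_zero.1 (hτ.eq_zero hv fun g => ?_)
    rw [sub_dotProduct, ← dotProduct_mulVec, MonoidHom.comp_apply, MonoidHom.comp_apply, ← mul_vec,
      hl u hu, sub_self]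
  obtain ⟨a, ha⟩ := fix_fun h.sba hτ hf
    (hfix f fun u hu g => by rw [hV', hV', mul_vec, ← he', hUe u hu])
    (hfix l fun u hu g => by
      rw [hl, hl, mul_vec, ← he']
      beta_reduce
      rw [hUe u hu]
      congr 2
      rw [mulVec_mulVec _ M, hM, sub_mul, ← map_mul, ← map_mul, ← h.x_comm 1 u hu, map_mul,
        map_mul, one_mul, ← mul_sub_one, ← mulVec_mulVec, h'.inv])
  obtain ⟨ε, hε, hβ⟩ := h'.eps
  have hz : D'.z.val < D'.m := by rw [h'.z0]; omega
  have h3 : ∀ w, D'.sing w → IsUnit (D'.β e' w) →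
      θ (D'.β w (M *ᵥ w)) = a * κ' * (θ (D'.β e' w) * θ (D'.σ (D'.β e' w))) := by
    intro w hw hu
    obtain ⟨r, g, rfl⟩ := h'.pts w hw
    rw [D'.β_smul_right] at hu
    have h4 := hl g
    rw [ha, smul_dotProduct, hV', chi_eq, smul_eq_mul] at h4
    have h5 : (c : (R' →+* k) → ℕ) = (Pi.single θ 1 + Pi.single (θ.comp (D'.σ : R' →+* R')) 1) +
        (⇑c - (Pi.single θ 1 + Pi.single (θ.comp (D'.σ : R' →+* R')) 1)) :=
      (add_tsub_cancel_of_le (single_le_two hne.symm h1 h2)).symm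
    conv_lhs at h4 => rw [h5]
    rw [mono_add, mono_add, mono_single, mono_single, pow_one, pow_one, ← mul_assoc,
      ← mul_assoc] at h4
    have h6 := mul_right_cancel₀ (mono_ne_zero _ (isUnit_of_mul_isUnit_right hu)) h4
    simp only [mulVec_smul, D'.β_smul_left, D'.β_smul_right, map_mul, ← he']
    rw [← he', RingHom.comp_apply, RingHom.coe_coe] at h6
    linear_combination (-θ r * θ (D'.σ r)) * h6
  obtain ⟨j1, e1⟩ := h'.β_unit (D'.not_mid hz)
  have hu : IsUnit (D'.β (ee D'.z.rev) e') := by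
    have := h'.β_unit (D'.not_mid' hz)
    rwa [Fin.rev_rev] at this
  obtain ⟨j2, e2⟩ := hu
  set r0 : R' := D'.β (ee D'.z.rev) (M *ᵥ ee D'.z.rev) * ((j1 * j2)⁻¹ : R'ˣ) with hr0
  clear_value r0
  have hε2 : ε * ε = 1 := by rcases hε with rfl | rfl <;> ring
  have h4 : θ r0 * θ ε = a * κ' := by
    have h5 := h3 _ (h'.sing_ee _ (D'.not_mid' hz)) (by rw [he', ← e1]; exact j1.isUnit)
    have h6 : r0 * (j1 * j2) = D'.β (ee D'.z.rev) (M *ᵥ ee D'.z.rev) := by
      rw [hr0, mul_assoc, ← Units.val_mul, Units.inv_mul, mul_one]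
    have h7 : (j2 : R') = ε * D'.σ j1 := by rw [e2, hβ, he', ← e1]
    rw [← h6, he', ← e1, h7] at h5
    simp only [map_mul] at h5
    refine mul_right_cancel₀ (mul_ne_zero (j1.isUnit.map θ).ne_zero
      ((j1.isUnit.map D'.σ).map θ).ne_zero) ?_
    linear_combination h5
  have h5 := h'.upper_zero hm' hne (M := M - r0 • D'.ro e' e') (fun i j hij => by
    rw [Matrix.sub_apply, hM0 i j hij, he', h'.ro_ee hσ, Matrix.smul_apply, single_apply, if_neg, smul_zero,
      sub_self]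
    rintro ⟨rfl, rfl⟩
    apply hij
    rw [Fin.lt_def, Fin.val_rev, h'.z0]
    have := h'.le_d
    omega) fun w hw hu => by
      rw [sub_mulVec, smul_mulVec, D'.ro_mulVec, D'.β_sub_right, D'.β_smul_right, D'.β_smul_right,
        map_sub, h3 w hw hu, hβ e' w, map_mul θ r0, map_mul θ, map_mul θ ε, ← h4]
      ring
  obtain ⟨hc0, hcs, κ, hκ, hEθ⟩ := hE θ
  refine not_transv h hm hcs hj (C := θ r0 * κ) fun g g' => ?_
  have h6 := h5 (D'.ρ (ψ g) *ᵥ e') (D'.ρ (ψ g') *ᵥ e')
  have h7 := hEθ g 1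
  have h8 := hEθ 1 g'
  simp only [map_one, one_mulVec, ← he'] at h7 h8
  rw [hM, sub_mulVec, sub_mulVec, smul_mulVec, D'.ro_mulVec, D'.β_sub_right, D'.β_sub_right,
    D'.β_smul_right, D'.β_smul_right, one_mulVec, ← mul_vec, ← map_mul, map_sub, map_sub,
    map_mul θ, map_mul θ, h7, h8, he', hEθ, hEθ, mul_vec] at h6
  rw [mono_mul]
  refine mul_left_cancel₀ hκ ?_
  linear_combination h6

end

end Vale.Agent.P183M
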