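import Vale.Agent.P183M.D2

/-!
Preparations for the case of a common digit.
-/

set_option autoImplicit false
set_option linter.all false

namespace Vale.Agent.P183M

open Matrix Subgroup Vale.Agent.P240.H195 Vale.Agent.P183CR

universe u

lemma ext4 {R k M : Type*} [CommRing R] [Field k] [AddCommGroup M] [Module k M] {θ θ' : R →+* k}
    (hne : θ ≠ θ') {a b c d : M}
    (h : ∀ t : R, a + θ t • b + θ' t • c + (θ t * θ' t) • d = 0) :
    a = 0 ∧ b = 0 ∧ c = 0 ∧ d = 0 := by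
  have ha : a = 0 := by simpa using h 0
  subst ha
  have hd : d = 0 := by
    by_contra hd
    have h1 : ∀ s t : R, θ s * θ' t + θ t * θ' s = 0 := by
      intro s t
      have e1 := h (s + t)
      have e2 := h s
      have e3 := h t
      have e4 : (θ s * θ' t + θ t * θ' s) • d = 0 := by
        rw [map_add, map_add] at e1
        linear_combination (norm := module) e1 - e2 - e3
      exact (smul_eq_zero.1 e4).resolve_right hd
    apply hne
    ext s
    have e1 := h1 s 1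
    have e2 := h1 1 1
    simp only [map_one, mul_one, one_mul] at e1 e2
    linear_combination e1 - θ' s * e2
  subst hd
  have h1 := h 1
  simp only [map_one, one_smul, smul_zero, add_zero, zero_add] at h1
  obtain ⟨s, hs⟩ := DFunLike.ne_iff.1 hne
  have hb : b = 0 := by
    have e1 := h s
    have e2 : (θ s - θ' s) • b = 0 := by
      linear_combination (norm := module) e1 - θ' s • h1
    exact (smul_eq_zero.1 e2).resolve_left (sub_ne_zero.2 hs)
  subst hb
  exact ⟨rfl, rfl, by simpa using h1, rfl⟩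

lemma ext4' {R k M : Type*} [CommRing R] [Field k] [AddCommGroup M] [Module k M] {θ θ' : R →+* k}
    (hne : θ ≠ θ') (W : Submodule k M) {a b c d : M}
    (h : ∀ t : R, a + θ t • b + θ' t • c + (θ t * θ' t) • d ∈ W) : b ∈ W := by
  have := (ext4 hne (a := W.mkQ a) (b := W.mkQ b) (c := W.mkQ c) (d := W.mkQ d) fun t => by
    rw [← map_smul, ← map_smul, ← map_smul, ← map_add, ← map_add, ← map_add, Submodule.mkQ_apply,
      Submodule.Quotient.mk_eq_zero]
    exact h t).2.1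
  rwa [Submodule.mkQ_apply, Submodule.Quotient.mk_eq_zero] at this

lemma single_ne {A : Type*} [DecidableEq A] (a b : A) :
    (Pi.single a 1 + Pi.single b 1 : A → ℕ) ≠ Pi.single a 1 := by
  intro h
  have h1 := congrFun h b
  rw [Pi.add_apply, Pi.single_eq_same] at h1
  omega

section
variable {R : Type} [CommRing R] [Finite R] {k : Type} [Field k] {p : ℕ} [hp : Fact p.Prime]
  [CharP k p] [CharP R p] [IsAlgClosed k] [IsReduced R]

lemma not_additive {c : (R →+* k) → ℕ} (hc : ∀ θ, c θ < p) {θ1 θ2 : R →+* k}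
    (hj : Pi.single θ1 1 + Pi.single θ2 1 ≤ c)
    (h : ∀ a b : R, mono c (a + b) = mono c a + mono c b) : False := by
  have := Fintype.ofFinite R
  have hle1 : Pi.single θ1 1 ≤ c := le_trans le_self_add hj
  obtain ⟨a, ha⟩ := exists_dual (p := p) (c := Pi.single θ1 1) fun θ => (hle1 θ).trans_lt (hc θ)
  have h1 : ∑ μ, a μ * mono c (1 + μ * 1) = bin c (Pi.single θ1 1) := by
    simp only [mono_expand]
    simp only [mono_one, mul_one, Finset.mul_sum, ← mul_assoc]
    rw [Finset.sum_comm, Finset.sum_eq_single (Pi.single θ1 1)]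
    · rw [← Finset.sum_mul, ha _ fun θ => (hle1 θ).trans_lt (hc θ), if_pos rfl, one_mul]
    · intro e he hne
      rw [← Finset.sum_mul, ha e fun θ => lt_of_le_of_lt (Nat.lt_succ_iff.1 (Finset.mem_range.1
        (Fintype.mem_piFinset.1 he θ))) (hc θ), if_neg hne, zero_mul]
    · intro h2
      exact absurd (Fintype.mem_piFinset.2 fun θ =>
        Finset.mem_range.2 (Nat.lt_succ_iff.2 (hle1 θ))) h2
  refine bin_ne_zero hc hle1 ?_
  rw [← h1]
  have h2 : ∀ μ : R, a μ * mono c (1 + μ * 1) = a μ * mono (0 : (R →+* k) → ℕ) μ + a μ * mono c μ := by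
    intro μ
    rw [h, mono_one, mono_zero, mul_one μ, mul_add]
  simp only [h2, Finset.sum_add_distrib]
  rw [ha 0 fun θ => hp.out.pos, ha c hc, if_neg, if_neg, add_zero]
  · rintro rfl
    exact single_ne θ1 θ2 (le_antisymm hj le_self_add)
  · intro h3
    have := congrFun h3 θ1
    simp at this

end

namespace CD

variable {G : Type u} [Group G] {R F0 : Type} [CommRing R] [Field F0] {d : ℕ}
  {D : Dat G R F0 d} {p : ℕ} (h : CD p D) (hσ : ∃ r, D.σ r ≠ r)
include h hσ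

lemma mid_eq {a b : Fin d} (ha : D.Mid a) (hb : D.Mid b) : b = a.rev := by
  have h1 := h.d_le' hσ
  obtain ⟨a1, a2⟩ := ha
  obtain ⟨b1, b2⟩ := hb
  rw [Fin.val_rev] at a2 b2
  apply Fin.ext
  rw [Fin.val_rev]
  omega

lemma J_zero' {a b : Fin d} (hb : b ≠ a.rev) : D.J a b = 0 :=
  h.J_zero a b hb fun h1 => hb (h.mid_eq hσ h1.1 h1.2)

lemma β_ee_eq' (a : Fin d) (y : Fin d → R) : D.β (ee a) y = D.J a a.rev * y a.rev := by
  rw [D.β_ee_left, mulVec, dotProduct, Finset.sum_eq_single a.rev]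
  · intro b _ hb
    rw [h.J_zero' hσ hb, zero_mul]
  · intro h1
    exact absurd (Finset.mem_univ _) h1

lemma J_unit' (a : Fin d) : IsUnit (D.J a a.rev) := by
  have h1 := congrFun (congrFun (mul_nonsing_inv _ h.nondeg) a) a
  rw [mul_apply, Finset.sum_eq_single a.rev, one_apply_eq] at h1
  · exact IsUnit.of_mul_eq_one _ h1
  · intro b _ hb
    rw [h.J_zero' hσ hb, zero_mul]
  · intro h1
    exact absurd (Finset.mem_univ _) h1

lemma ro_ee (a b : Fin d) : D.ro (ee a) (ee b) = single a b.rev (D.J b b.rev) := by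
  ext i j
  rw [← mulVec_ee (D.ro (ee a) (ee b)) j i, D.ro_mulVec, h.β_ee_eq' hσ, Pi.smul_apply, smul_eq_mul, single_apply]
  by_cases h1 : a = i
  · subst h1
    by_cases h2 : b.rev = j
    · subst h2
      simp [ee_self]
    · simp [ee_ne h2, h2]
  · simp [ee_ne (Ne.symm h1), h1]

lemma not_quad : ¬ D.quad := fun hq => by
  obtain ⟨r, hr⟩ := hσ
  exact hr ((h.quadr hq).2.2.1 r)

/-- singular vectors orthogonal to `e a` and (unless equal to `e a`) to its dual vector -/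
def Lam (D : Dat G R F0 d) (a : Fin d) (u : Fin d → R) : Prop :=
  D.sing u ∧ D.β (ee a) u = 0 ∧ (u = ee a ∨ D.β (ee a.rev) u = 0)

lemma decomp_mid (hm : 5 ≤ D.m) {a i j : Fin d} (ha : ¬ D.Mid a) (hi : D.Mid i)
    (hj : ¬ D.Mid j) : ∃ u1 u2 u3, Lam D a u1 ∧ Lam D a u2 ∧ Lam D a u3 ∧ ee i = u1 - u2 - u3 ∧
      D.β (ee j) u1 = 0 ∧ D.β (ee j) u2 = 0 ∧ D.β (ee j) u3 = 0 := by
  have hd := h.le_d
  obtain ⟨t, ht, t1, t2, t3, t4⟩ : ∃ t < 5, t ≠ a.val ∧ t ≠ a.rev.val ∧ t ≠ j.val ∧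
      t ≠ j.rev.val := by
    by_contra h1
    push Not at h1
    have h0 := h1 0
    have h2 := h1 1
    have h3 := h1 2
    have h4 := h1 3
    have h5 := h1 4
    omega
  let s : Fin d := ⟨t, by omega⟩
  have hs : s.val < D.m := by change t < _; omega
  have s1 : s ≠ a := fun e => t1 (congrArg Fin.val e)
  have s2 : s ≠ a.rev := fun e => t2 (congrArg Fin.val e)
  have s3 : s ≠ j := fun e => t3 (congrArg Fin.val e)
  have s4 : s ≠ j.rev := fun e => t4 (congrArg Fin.val e)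
  have hmid : ∀ {x : Fin d}, ¬ D.Mid x → D.β (ee x) (ee i) = 0 := fun {x} hx =>
    h.β_pos hx fun e => hx (D.mid_rev.1 (e ▸ hi))
  have r1 : ∀ {x : Fin d}, s ≠ x → s.rev ≠ x.rev := fun e e' => e (Fin.rev_injective e')
  have r2 : ∀ {x : Fin d}, s ≠ x.rev → s.rev ≠ x.rev.rev := fun e e' => e (Fin.rev_injective e')
  have ha' : ¬ D.Mid a.rev := fun e => ha (D.mid_rev.1 e)
  obtain ⟨ε, -, hε⟩ := h.eps
  obtain ⟨τ, hτ⟩ := h.tr hσ
  obtain ⟨jj, hjj⟩ := h.β_unit (D.not_mid hs)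
  let μ : R := -τ * D.β (ee i) (ee i) * (jj⁻¹ : Rˣ)
  have hu2 : Lam D a (ee s) :=
    ⟨h.sing_ee _ (D.not_mid hs), h.β_pos ha s2, Or.inr (h.β_pos ha' (by rwa [Fin.rev_rev]))⟩
  have hu3 : Lam D a (μ • ee s.rev) :=
    ⟨h.sing_smul _ _ (h.sing_ee _ (D.not_mid' hs)),
      by rw [D.β_smul_right, h.β_pos ha (r1 s1), mul_zero],
      Or.inr (by rw [D.β_smul_right, h.β_pos ha' (r2 s2), mul_zero])⟩
  have j2 : D.β (ee j) (ee s) = 0 := h.β_pos hj s4
  have j3 : D.β (ee j) (μ • ee s.rev) = 0 := by rw [D.β_smul_right, h.β_pos hj (r1 s3), mul_zero]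
  refine ⟨ee i + ee s + μ • ee s.rev, ee s, μ • ee s.rev, ⟨?_, ?_, Or.inr ?_⟩, hu2, hu3, by abel,
    ?_, j2, j3⟩
  · refine h.sing_of (h.not_quad hσ) _ ?_
    have e1 : D.β (ee s) (μ • ee s.rev) = -τ * D.β (ee i) (ee i) := by
      rw [D.β_smul_right, ← hjj, mul_assoc, Units.inv_mul, mul_one]
    have e2 : D.β (μ • ee s.rev) (ee s) = - D.σ τ * D.β (ee i) (ee i) := by
      rw [hε, e1, map_mul, map_neg]
      conv_rhs => rw [hε]
      ring
    have e3 : D.β (μ • ee s.rev) (ee i) = 0 := by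
      rw [D.β_smul_left, hmid (D.not_mid' hs), mul_zero]
    simp only [D.β_add_left, D.β_add_right, e1, e2, e3, hmid (D.not_mid hs),
      h.β_symm (hmid (D.not_mid hs)), h.β_symm e3, h.sing_self _ hu2.1, h.sing_self _ hu3.1]
    linear_combination (-D.β (ee i) (ee i)) * hτ
  · rw [D.β_add_right, D.β_add_right, hmid ha, hu2.2.1, hu3.2.1, add_zero, add_zero]
  · rw [D.β_add_right, D.β_add_right, hmid ha', h.β_pos ha' (by rwa [Fin.rev_rev]),
      D.β_smul_right, h.β_pos ha' (r2 s2), mul_zero, add_zero, add_zero]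
  · rw [D.β_add_right, D.β_add_right, hmid hj, j2, j3, add_zero, add_zero]

lemma span_ind (hm : 5 ≤ D.m) {a : Fin d} (ha : ¬ D.Mid a)
    {P : (Fin d → R) → (Fin d → R) → Prop}
    (h1 : ∀ x x' y, P x y → P x' y → P (x - x') y) (h2 : ∀ x y y', P x y → P x y' → P x (y - y'))
    (h3 : ∀ u u', Lam D a u → Lam D a u' → D.β u u' = 0 → P u u') {i j : Fin d} (hi : i ≠ a.rev)
    (hj : j ≠ a.rev) (hij : j ≠ i.rev) : P (ee i) (ee j) := by
  have hL : ∀ {x : Fin d}, ¬ D.Mid x → x ≠ a.rev → Lam D a (ee x) := by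
    intro x hx hxa
    refine ⟨h.sing_ee x hx, h.β_pos ha hxa, ?_⟩
    by_cases e : x = a
    · exact Or.inl (by rw [e])
    · exact Or.inr (h.β_pos (fun e' => ha (D.mid_rev.1 e')) (by rwa [Fin.rev_rev]))
  by_cases mi : D.Mid i
  · have mj : ¬ D.Mid j := fun mj => hij (h.mid_eq hσ mi mj)
    obtain ⟨u1, u2, u3, l1, l2, l3, e, b1, b2, b3⟩ := h.decomp_mid hσ hm ha mi mj
    rw [e]
    exact h1 _ _ _ (h1 _ _ _ (h3 _ _ l1 (hL mj hj) (h.β_symm b1))
      (h3 _ _ l2 (hL mj hj) (h.β_symm b2))) (h3 _ _ l3 (hL mj hj) (h.β_symm b3))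
  · by_cases mj : D.Mid j
    · obtain ⟨u1, u2, u3, l1, l2, l3, e, b1, b2, b3⟩ := h.decomp_mid hσ hm ha mj mi
      rw [e]
      exact h2 _ _ _ (h2 _ _ _ (h3 _ _ (hL mi hi) l1 b1) (h3 _ _ (hL mi hi) l2 b2))
        (h3 _ _ (hL mi hi) l3 b3)
    · exact h3 _ _ (hL mi hi) (hL mj hj) (h.β_pos mi hij)

end CD

end Vale.Agent.P183M
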