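import Vale.Agent.P183M.R1

/-!
Frobenius shifts, descent, coefficients of squarefree monomials.
-/

set_option autoImplicit false
set_option linter.all false

namespace Vale.Agent.P183M

open Matrix

section
variable {R : Type} [CommRing R] {k : Type} [Field k]

/-- twisting a homomorphism by an automorphism of `k` -/
def ac (g : k ≃+* k) (θ : R →+* k) : R →+* k := (g : k →+* k).comp θ

lemma ac_apply (g : k ≃+* k) (θ : R →+* k) (r : R) : ac g θ r = g (θ r) := rfl

lemma ac_inj (g : k ≃+* k) : Function.Injective (ac g : (R →+* k) → _) := fun a b h =>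
  RingHom.ext fun r => g.injective (DFunLike.congr_fun h r)

variable (p : ℕ) [hp : Fact p.Prime] [CharP k p] [IsAlgClosed k]

/-- powers of the Frobenius automorphism -/
noncomputable def fz (j : ℤ) : k ≃+* k := ((frobeniusEquiv k p : RingAut k) ^ j : RingAut k)

/-- shifts -/
noncomputable def sh (j : ℤ) (θ : R →+* k) : R →+* k := ac (fz p j) θ

variable {p}

lemma sh_zero (θ : R →+* k) : sh p 0 θ = θ := by
  unfold sh fz
  rw [zpow_zero]
  rfl

lemma sh_add (i j : ℤ) (θ : R →+* k) : sh p (i + j) θ = sh p i (sh p j θ) := by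
  unfold sh fz
  rw [_root_.zpow_add]
  rfl

lemma sh_one (θ : R →+* k) : sh p 1 θ = Fr p θ := by
  unfold sh fz
  rw [zpow_one]
  rfl

lemma fz_one (x : k) : fz p 1 x = x ^ p := by
  unfold fz
  rw [zpow_one]
  rfl

lemma sh_comm (i j : ℤ) (θ : R →+* k) : sh p i (sh p j θ) = sh p j (sh p i θ) := by
  rw [← sh_add, ← sh_add, add_comm]

lemma sh_neg (i : ℤ) (θ : R →+* k) : sh p (-i) (sh p i θ) = θ := by
  rw [← sh_add, neg_add_cancel, sh_zero]

lemma sh_neg' (i : ℤ) (θ : R →+* k) : sh p i (sh p (-i) θ) = θ := by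
  rw [← sh_add, add_neg_cancel, sh_zero]

lemma sh_inj (i : ℤ) : Function.Injective (sh p i : (R →+* k) → _) := ac_inj _

lemma sh_comp {R' : Type} [CommRing R'] (i : ℤ) (θ : R →+* k) (f : R' →+* R) :
    (sh p i θ).comp f = sh p i (θ.comp f) := rfl

variable [Finite R] [CharP R p] [IsReduced R]

theorem descent (a : (R →+* k) → k) (ha : ∀ θ, a (sh p 1 θ) = fz p 1 (a θ)) :
    ∃ r, ∀ θ, θ r = a θ := by
  letI : Algebra (ZMod p) R := ZMod.algebra _ p
  letI : Algebra (ZMod p) k := ZMod.algebra _ p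
  have : Module.Finite (ZMod p) R := Module.Finite.of_finite
  have := Fintype.ofFinite R
  let b := Module.finBasis (ZMod p) R
  have hn : Fintype.card (R →+* k) = Module.finrank (ZMod p) R := by
    have h1 := Module.finrank_eq_card_basis
      (Module.Basis.mk (indep_mono (R := R) (k := k) (p := p)) span_mono.ge)
    rw [Fintype.card_fun, Fintype.card_fin, Module.finrank_fintype_fun_eq_card,
      ← Nat.card_eq_fintype_card (α := R), Module.natCard_eq_pow_finrank (K := ZMod p),
      Nat.card_zmod] at h1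
    exact (Nat.pow_right_injective hp.out.two_le h1).symm
  let φ : (R →+* k) → (R →ₗ[ZMod p] k) := fun θ => θ.toAddMonoidHom.toZModLinearMap p
  have h1 : LinearIndependent k φ := by
    refine LinearIndependent.of_comp
      (⟨⟨fun f => (f : R → k), fun _ _ => rfl⟩, fun _ _ => rfl⟩ : (R →ₗ[ZMod p] k) →ₗ[k] (R → k)) ?_
    exact (linearIndependent_monoidHom R k).comp (fun θ : R →+* k => (θ : R →* k))
      (fun a b h => RingHom.coe_monoidHom_injective h)
  let M : Matrix (R →+* k) (Fin (Module.finrank (ZMod p) R)) k := Matrix.of fun θ i => θ (b i)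
  have h2 : LinearIndependent k M.row :=
    h1.map' ((b.constr (M' := k) k).symm).toLinearMap (LinearEquiv.ker _)
  have h3 : Function.Surjective M.mulVecLin := by
    rw [← LinearMap.range_eq_top]
    refine Submodule.eq_top_of_finrank_eq ?_
    rw [Module.finrank_fintype_fun_eq_card]
    exact h2.rank_matrix
  have h4 := (LinearMap.injective_iff_surjective_of_finrank_eq_finrank (by
    rw [Module.finrank_fintype_fun_eq_card, Module.finrank_fintype_fun_eq_card, hn,
      Fintype.card_fin])).2 h3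
  obtain ⟨c, hc⟩ := h3 a
  have h5 : (fun i => fz p 1 (c i)) = c := by
    apply h4
    funext θ
    rw [hc, ← sh_neg' (p := p) 1 θ, ha, ← hc]
    simp only [mulVecLin_apply, mulVec, dotProduct, map_sum, map_mul]
    rfl
  have h6 : ∀ i, ∃ z : ℤ, (z : k) = c i := fun i => by
    have h7 := congrFun h5 i
    rw [fz_one] at h7
    exact (mem_bot_iff_intCast p k).1 ((Subfield.mem_bot_iff_pow_eq_self k p).2 h7)
  choose z hz using h6
  refine ⟨∑ i, b i * z i, fun θ => ?_⟩
  rw [← hc]
  simp only [mulVecLin_apply, mulVec, dotProduct, map_sum, map_mul, map_intCast, hz]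
  rfl

theorem descent_mat {n : ℕ} (a : (R →+* k) → Matrix (Fin n) (Fin n) k)
    (ha : ∀ θ, a (sh p 1 θ) = (a θ).map (fz p 1)) :
    ∃ r : Matrix (Fin n) (Fin n) R, ∀ θ : R →+* k, r.map θ = a θ := by
  choose r hr using fun i j => descent (p := p) (fun θ => a θ i j) fun θ => by rw [ha]; rfl
  exact ⟨Matrix.of r, fun θ => Matrix.ext fun i j => hr i j θ⟩

theorem sh_trans {F : Type} [Field F] [Finite F] [CharP F p] (a b : F →+* k) :
    ∃ j, b = sh p j a := by
  classical
  by_contra h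
  obtain ⟨r, hr⟩ := descent (p := p) (fun θ : F →+* k => if ∃ j, θ = sh p j a then 1 else 0)
    fun θ => by
      by_cases h1 : ∃ j, θ = sh p j a
      · obtain ⟨j, rfl⟩ := h1
        rw [if_pos ⟨1 + j, (sh_add _ _ _).symm⟩, if_pos ⟨j, rfl⟩, map_one]
      · rw [if_neg h1, if_neg, map_zero]
        rintro ⟨j, hj⟩
        exact h1 ⟨-1 + j, by rw [sh_add, ← hj, sh_neg]⟩
  have h1 := hr a
  have h2 := hr b
  rw [if_pos ⟨0, (sh_zero a).symm⟩] at h1
  rw [if_neg h, map_eq_zero] at h2
  rw [h2, map_zero] at h1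
  exact zero_ne_one h1

end

section
variable {R : Type} [CommRing R] {k : Type} [Field k]

/-- squarefree monomials -/
def χ (S : Finset (R →+* k)) (t : R) : k := ∏ a ∈ S, a t

lemma χ_empty (t : R) : χ (∅ : Finset (R →+* k)) t = 1 := Finset.prod_empty

lemma χ_union {S S' : Finset (R →+* k)} (h : Disjoint S S') (t : R) :
    χ (S ∪ S') t = χ S t * χ S' t := Finset.prod_union h

lemma χ_zero (S : Finset (R →+* k)) : χ S 0 = if S = ∅ then 1 else 0 := by
  split_ifs with h
  · rw [h, χ_empty]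
  · obtain ⟨a, ha⟩ := Finset.nonempty_iff_ne_empty.2 h
    exact Finset.prod_eq_zero ha (map_zero a)

lemma χ_neg (S : Finset (R →+* k)) (t : R) : χ S (-t) = (-1) ^ S.card * χ S t := by
  unfold χ
  rw [← Finset.prod_const, ← Finset.prod_mul_distrib]
  exact Finset.prod_congr rfl fun a _ => by rw [map_neg, neg_one_mul]

lemma χ_ac (g : k ≃+* k) (S : Finset (R →+* k)) (t : R) : χ (S.image (ac g)) t = g (χ S t) := by
  unfold χ
  rw [Finset.prod_image fun a _ b _ h => ac_inj g h, map_prod]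
  rfl

variable {M M' : Type} [AddCommGroup M] [Module k M] [AddCommGroup M'] [Module k M']

/-- functions which are combinations of squarefree monomials supported in `D` -/
def Sp (D : Set (R →+* k)) : AddSubmonoid (R → M) :=
  AddSubmonoid.closure {φ | ∃ (S : Finset (R →+* k)) (w : M), ↑S ⊆ D ∧ φ = fun t => χ S t • w}

lemma Sp.gen {D : Set (R →+* k)} {S : Finset (R →+* k)} (h : ↑S ⊆ D) (w : M) :
    (fun t => χ S t • w) ∈ Sp D := AddSubmonoid.subset_closure ⟨S, w, h, rfl⟩

lemma Sp.ind {D : Set (R →+* k)} {P : (R → M) → Prop} {φ : R → M} (h : φ ∈ Sp D) (h0 : P 0)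
    (ha : ∀ φ ψ, P φ → P ψ → P (φ + ψ))
    (hg : ∀ (S : Finset (R →+* k)) (w : M), ↑S ⊆ D → P fun t => χ S t • w) : P φ := by
  induction h using AddSubmonoid.closure_induction with
  | mem x hx =>
    obtain ⟨S, w, h, rfl⟩ := hx
    exact hg S w h
  | zero => exact h0
  | add x y _ _ hx hy => exact ha x y hx hy

lemma Sp.mono {D D' : Set (R →+* k)} {φ : R → M} (h : φ ∈ Sp D) (hD : D ⊆ D') : φ ∈ Sp D' :=
  Sp.ind h (zero_mem _) (fun _ _ => add_mem) fun S w hS => Sp.gen (hS.trans hD) w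

lemma Sp.map {D : Set (R →+* k)} {φ : R → M} (h : φ ∈ Sp D) (f : M →ₗ[k] M') :
    (fun t => f (φ t)) ∈ Sp D := by
  refine Sp.ind (P := fun φ => (fun t => f (φ t)) ∈ Sp D) h ?_ (fun φ ψ a b => ?_) fun S w hS => ?_
  · simp only [Pi.zero_apply, map_zero]
    exact zero_mem (Sp D)
  · simp only [Pi.add_apply, map_add]
    exact add_mem a b
  · simpa only [map_smul] using Sp.gen hS (f w)

lemma Sp.mul {B : Type} [Ring B] [Algebra k B] {D D' : Set (R →+* k)} (hD : Disjoint D D')
    {φ φ' : R → B} (h : φ ∈ Sp D) (h' : φ' ∈ Sp D') : φ * φ' ∈ Sp (D ∪ D') := by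
  refine Sp.ind (P := fun φ => φ * φ' ∈ Sp (D ∪ D')) h (by rw [zero_mul]; exact zero_mem _)
    (fun φ ψ a b => by rw [add_mul]; exact add_mem a b) fun S w hS => ?_
  refine Sp.ind (P := fun φ' => (fun t => χ S t • w) * φ' ∈ Sp (D ∪ D')) h'
    (by rw [mul_zero]; exact zero_mem _)
    (fun φ ψ a b => by rw [mul_add]; exact add_mem a b) fun S' w' hS' => ?_
  convert Sp.gen (D := D ∪ D') (S := S ∪ S') (by
    rw [Finset.coe_union]; exact Set.union_subset_union hS hS') (w * w') using 1
  funext t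
  rw [Pi.mul_apply, χ_union (Finset.disjoint_coe.1 (hD.mono hS hS')), smul_mul_smul_comm]

variable (p : ℕ) [hp : Fact p.Prime] [CharP k p] [IsAlgClosed k] [Fintype R] [CharP R p]
  [IsReduced R]

include hp in
lemma exists_du (S : Finset (R →+* k)) : ∃ a : R → k,
    ∀ S', ∑ t, a t * χ S' t = if S' = S then 1 else 0 := by
  have h1 : ∀ (S : Finset (R →+* k)) t, χ S t = mono (fun θ => if θ ∈ S then 1 else 0) t := by
    intro S t
    unfold χ mono
    simp only [pow_ite, pow_one, pow_zero]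
    rw [Finset.prod_ite_mem, Finset.univ_inter]
  have h2 : ∀ (S : Finset (R →+* k)) θ, (if θ ∈ S then 1 else 0) < p := fun S θ => by
    have := hp.out.one_lt
    split_ifs <;> omega
  obtain ⟨a, ha⟩ := exists_dual (p := p) (h2 S)
  refine ⟨a, fun S' => ?_⟩
  simp only [h1]
  rw [ha _ (h2 S')]
  refine if_congr ⟨fun h => Finset.ext fun θ => ?_, fun h => by rw [h]⟩ rfl rfl
  have := congrFun h θ
  by_cases h3 : θ ∈ S <;> by_cases h4 : θ ∈ S' <;> simp_all

/-- the coefficient of a squarefree monomial -/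
noncomputable def cf (S : Finset (R →+* k)) (φ : R → M) : M :=
  ∑ t, (exists_du p S).choose t • φ t

variable {p}

lemma cf_zero (S : Finset (R →+* k)) : cf p S (0 : R → M) = 0 := by simp [cf]

lemma cf_add (S : Finset (R →+* k)) (φ ψ : R → M) : cf p S (φ + ψ) = cf p S φ + cf p S ψ := by
  simp [cf, Finset.sum_add_distrib]

lemma cf_gen (S S' : Finset (R →+* k)) (w : M) :
    cf p S (fun t => χ S' t • w) = if S' = S then w else 0 := by
  unfold cf
  simp only [smul_smul]
  rw [← Finset.sum_smul, (exists_du p S).choose_spec, ite_smul, one_smul, zero_smul]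

lemma cf_map (S : Finset (R →+* k)) (φ : R → M) (f : M →ₗ[k] M') :
    f (cf p S φ) = cf p S fun t => f (φ t) := by
  simp [cf]

lemma cf_mem (S : Finset (R →+* k)) {φ : R → M} (W : Submodule k M) (h : ∀ t, φ t ∈ W) :
    cf p S φ ∈ W := W.sum_mem fun t _ => W.smul_mem _ (h t)

lemma cf_sum (S : Finset (R →+* k)) (w : Finset (R →+* k) → M) :
    cf p S (fun t => ∑ S', χ S' t • w S') = w S := by
  unfold cf
  simp only [Finset.smul_sum]
  rw [Finset.sum_comm]
  have := fun S' => cf_gen (p := p) S S' (w S')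
  unfold cf at this
  simp only [this, Finset.sum_ite_eq', Finset.mem_univ, if_true]

variable {D : Set (R →+* k)} {φ : R → M}

lemma Sp.cf_out (h : φ ∈ Sp D) {S : Finset (R →+* k)} (hS : ¬ ↑S ⊆ D) : cf p S φ = 0 := by
  refine Sp.ind (P := fun φ => cf p S φ = 0) h (cf_zero S)
    (fun φ ψ a b => by rw [cf_add, a, b, add_zero]) fun S' w hS' => ?_
  rw [cf_gen, if_neg]
  rintro rfl
  exact hS hS'

lemma Sp.cf_semi (h : φ ∈ Sp D) (g : k ≃+* k) (Φ : M →+ M') (hΦ : ∀ c w, Φ (c • w) = g c • Φ w)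
    (S : Finset (R →+* k)) : cf p (S.image (ac g)) (fun t => Φ (φ t)) = Φ (cf p S φ) := by
  refine Sp.ind (P := fun φ => cf p (S.image (ac g)) (fun t => Φ (φ t)) = Φ (cf p S φ)) h ?_
    (fun φ ψ a b => ?_) fun S' w _ => ?_
  · simp only [Pi.zero_apply, map_zero, cf_zero]
    exact cf_zero _
  · simp only [Pi.add_apply, map_add, cf_add]
    rw [← a, ← b, ← cf_add]
    rfl
  · simp only [hΦ, ← χ_ac, cf_gen, (Finset.image_injective (ac_inj g)).eq_iff]
    split_ifs
    · rfl
    · exact (map_zero Φ).symm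

lemma Sp.cf_neg (h : φ ∈ Sp D) (S : Finset (R →+* k)) :
    cf p S (fun t => φ (-t)) = (-1 : k) ^ S.card • cf p S φ := by
  refine Sp.ind (P := fun φ => cf p S (fun t => φ (-t)) = (-1 : k) ^ S.card • cf p S φ) h ?_
    (fun φ ψ a b => ?_) fun S' w _ => ?_
  · simp only [Pi.zero_apply, cf_zero, smul_zero]
    exact cf_zero _
  · simp only [Pi.add_apply, cf_add, smul_add]
    rw [← a, ← b, ← cf_add]
    rfl
  · simp only [χ_neg, mul_comm ((-1 : k) ^ _), mul_smul, cf_gen]
    split_ifs with e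
    · rw [e]
    · rw [smul_zero]

lemma Sp.cf_mul {B : Type} [Ring B] [Algebra k B] {D D' : Set (R →+* k)} (hD : Disjoint D D')
    {φ φ' : R → B} (h : φ ∈ Sp D) (h' : φ' ∈ Sp D') {S : Finset (R →+* k)}
    (hS : Disjoint ↑S D') : cf p S (φ * φ') = cf p S φ * φ' 0 := by
  refine Sp.ind (P := fun φ => cf p S (φ * φ') = cf p S φ * φ' 0) h
    (by rw [zero_mul, cf_zero, zero_mul])
    (fun φ ψ a b => by rw [add_mul, cf_add, cf_add, a, b, add_mul]) fun S1 w hS1 => ?_
  refine Sp.ind (P := fun φ' => cf p S ((fun t => χ S1 t • w) * φ') =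
      cf p S (fun t => χ S1 t • w) * φ' 0) h' (by rw [mul_zero, cf_zero, Pi.zero_apply, mul_zero])
    (fun φ ψ a b => by rw [mul_add, cf_add, a, b, Pi.add_apply, mul_add]) fun S2 w' hS2 => ?_
  have e : ((fun t => χ S1 t • w) * fun t => χ S2 t • w') = fun t => χ (S1 ∪ S2) t • (w * w') := by
    funext t
    rw [Pi.mul_apply, χ_union (Finset.disjoint_coe.1 (hD.mono hS1 hS2)), smul_mul_smul_comm]
  rw [e, cf_gen, cf_gen]
  beta_reduce
  rw [χ_zero]
  by_cases h2 : S2 = ∅
  · subst h2
    rw [Finset.union_empty, if_pos rfl, one_smul, ite_mul, zero_mul]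
  · rw [if_neg h2, zero_smul, mul_zero, if_neg]
    rintro rfl
    obtain ⟨a, ha⟩ := Finset.nonempty_iff_ne_empty.2 h2
    exact Set.disjoint_left.1 hS (by simp [ha]) (hS2 ha)

end

end Vale.Agent.P183M
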