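import Vale.Agent.P183M.T2

/-!
Interfaces of the tensor calculus.
-/

set_option autoImplicit false
set_option linter.all false

namespace Vale.Agent.P183M

open Matrix Subgroup Vale.Agent.P183NK

/-- products of commuting families -/
noncomputable def pp {ι B : Type} [Monoid B] (s : Finset ι) (f : ι → B) : B := (s.toList.map f).prod

/-- families of pairwise disjoint nonempty sets -/
def Fm {ι : Type} (s : Finset (Finset ι)) : Prop :=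
  (∀ S ∈ s, S.Nonempty) ∧ ∀ S ∈ s, ∀ S' ∈ s, S ≠ S' → Disjoint S S'

section
variable (p : ℕ) {G : Type} [Group G] {R F0 : Type} [CommRing R] [Field F0] {d : ℕ}
  (D : Dat G R F0 d) {k : Type} [Field k] {n : ℕ} (τ : G →* Matrix (Fin n) (Fin n) k)
  [hp : Fact p.Prime] [CharP k p] [IsAlgClosed k] [Fintype F0] [CharP F0 p]

/-- skew elements -/
noncomputable def MM (a b c : G) (S : Finset (F0 →+* k)) : Matrix (Fin n) (Fin n) k :=
  CF p D τ S a * CF p D τ S b * CF p D τ S c -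
    (-1 : k) ^ S.card • (CF p D τ S c * CF p D τ S b * CF p D τ S a)

/-- the isometries attached to a family of sets of digits -/
noncomputable def gg (a b c : G) (s : Finset (Finset (F0 →+* k))) : Matrix (Fin n) (Fin n) k :=
  pp s fun S => 1 + MM p D τ a b c S

/-- pure tensors with respect to `C` and its complement -/
def Pure (C : Set (F0 →+* k)) (M : Matrix (Fin n) (Fin n) k) : Prop :=
  ∃ M1 ∈ AA p D τ C, ∃ M2 ∈ AA p D τ Cᶜ, M = M1 * M2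

end

namespace Cv

variable {p : ℕ} [hp : Fact p.Prime] {G : Type} [Group G] {T T' : Subgroup G} (C : Cv p T)

instance : CharP C.R p := C.cd.char

instance : IsReduced C.R := C.cd.red

instance : Nontrivial C.R := CharP.nontrivial_of_char_ne_one (R := C.R) hp.out.ne_one

instance : CharP C.F0 p := C.D.ι.charP C.D.ι.injective p

noncomputable instance : Fintype C.F0 :=
  have := Finite.of_injective _ C.D.ι.injective
  Fintype.ofFinite _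

/-- twists of the natural module of `C'`, restricted to `C` -/
noncomputable def tt (C' : Cv p T') (ψ : C.E →* C'.E) (θ : C'.R →+* kk p) :
    C.E →* Matrix (Fin C'.d) (Fin C'.d) (kk p) := tw θ (C'.D.ρ.comp ψ)

/-- all twists are twisted tensor products -/
def AT (C' : Cv p T') (ψ : C.E →* C'.E) : Prop := ∀ θ, Nonempty (TV C.D (C.tt C' ψ θ))

/-- composition with the involution -/
noncomputable def bar (θ : C.R →+* kk p) : C.R →+* kk p := θ.comp (C.D.σ : C.R →+* C.R)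

end Cv

/-- a property of all pairs of covers of large rank -/
def AllP (P : ∀ (p : ℕ) [Fact p.Prime] (G : Type) [Group G] (T T' : Subgroup G) (C : Cv p T)
    (C' : Cv p T'), (C.E →* C'.E) → Prop) : Prop :=
  ∀ (p : ℕ) [Fact p.Prime] (G : Type) [Group G] (T T' : Subgroup G) (C : Cv p T) (C' : Cv p T')
    (ψ : C.E →* C'.E), 8 ≤ C.D.m → 8 ≤ C'.D.m → C.AT C' ψ → P p G T T' C C' ψ

/-- Equivariance under Frobenius shifts and under the involution. -/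
def EQ : Prop := AllP fun p _ _ _ _ _ C C' ψ => ∀ θ : C'.R →+* kk p,
  (∀ (j : ℤ) S y, CF p C.D (C.tt C' ψ (sh p j θ)) (S.image (sh p j)) y =
    (CF p C.D (C.tt C' ψ θ) S y).map (fz p j)) ∧
  (∀ S y, (CF p C.D (C.tt C' ψ (C'.bar θ)) S y)ᵀ * C'.D.J.map θ =
    C'.D.J.map θ * ((-1 : kk p) ^ S.card • CF p C.D (C.tt C' ψ θ) S y)) ∧
  (∀ j : ℤ, Dg p C.D (C.tt C' ψ (sh p j θ)) = sh p j '' Dg p C.D (C.tt C' ψ θ)) ∧
  Dg p C.D (C.tt C' ψ (C'.bar θ)) = Dg p C.D (C.tt C' ψ θ) ∧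
  (∀ (j : ℤ) B (ω : C'.E), (C'.D.ρ ω).map θ ∈ AA p C.D (C.tt C' ψ θ) B →
    (C'.D.ρ ω).map (sh p j θ) ∈ AA p C.D (C.tt C' ψ (sh p j θ)) (sh p j '' B)) ∧
  (∀ B (ω : C'.E), (C'.D.ρ ω).map (C'.bar θ) ∈ AA p C.D (C.tt C' ψ (C'.bar θ)) B →
    (C'.D.ρ ω).map θ ∈ AA p C.D (C.tt C' ψ θ) B)

/-- Construction of rational isometries. -/
def HC : Prop := AllP fun p _ _ _ _ _ C C' ψ => ∀ a b c y i j l v, Wd C.D a b c y i j l v →
  (C'.D.quad → C.D.quad) → ∀ s : (C'.R →+* kk p) → Finset (Finset (C.F0 →+* kk p)),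
    (∀ θ, Fm (s θ)) → (∀ θ, s (sh p 1 θ) = (s θ).image (Finset.image (sh p 1))) →
    (∀ θ, s (C'.bar θ) = s θ) → ∃ M M' : Matrix (Fin C'.d) (Fin C'.d) C'.R,
      M * M' = 1 ∧ M' * M = 1 ∧ (∀ θ : C'.R →+* kk p, M.map θ = gg p C.D (C.tt C' ψ θ) a b c (s θ)) ∧
      (∀ ω, ∃ ω', C'.D.ρ ω' = M * C'.D.ρ ω * M') ∧ ∀ ω, ∃ ω', C'.D.ρ ω' = M' * C'.D.ρ ω * M

/-- The conjugates of a root element are not pure. -/
def NP : Prop := ∀ (p : ℕ) [Fact p.Prime] (G : Type) [Group G] (T : Subgroup G) (C : Cv p T)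
  (n : ℕ) (τ : C.E →* Matrix (Fin n) (Fin n) (kk p)), Nonempty (TV C.D τ) → 8 ≤ C.D.m →
  ∀ a b c y i j l v, Wd C.D a b c y i j l v → ∀ s : Finset (Finset (C.F0 →+* kk p)), Fm s →
  ∀ B ∈ s, ↑B ⊆ Dg p C.D τ →
    (∀ r : kk p, gg p C.D τ a b c s * τ (C.D.xx y 1) ≠ r • (τ (C.D.xx y 1) * gg p C.D τ a b c s)) ∧
    ∀ X : Set (C.F0 →+* kk p), (∃ e ∈ B, e ∈ X) → (∃ e ∈ B, e ∉ X) → ∀ M, Pure p C.D τ X M →
      gg p C.D τ a b c s * τ (C.D.xx y 1) ≠ M * gg p C.D τ a b c s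

/-- Structure of a twisted tensor product restricted to a subgroup. -/
def SL : Prop := AllP fun p _ _ _ _ _ C C' ψ => ∀ (n : ℕ)
  (τ : C'.E →* Matrix (Fin n) (Fin n) (kk p)) (V : TV C'.D τ), Nonempty (TV C.D (τ.comp ψ)) →
    (∀ θ θ' : V.A, θ ≠ θ' → Disjoint (Dg p C.D (C.tt C' ψ θ.1)) (Dg p C.D (C.tt C' ψ θ'.1))) ∧
    Dg p C.D (τ.comp ψ) = ⋃ θ : V.A, Dg p C.D (C.tt C' ψ θ.1) ∧
    (∀ X : Set (C.F0 →+* kk p),
      (∀ θ : V.A, Dg p C.D (C.tt C' ψ θ.1) ⊆ X ∨ Disjoint (Dg p C.D (C.tt C' ψ θ.1)) X) →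
      ∀ ω, Pure p C.D (τ.comp ψ) X (τ ω)) ∧
    ∀ (a b c y : C.E) i j l v, Wd C.D a b c y i j l v → ∀ s : Finset (Finset (C.F0 →+* kk p)),
      Fm s → (∀ θ : V.A, ∀ S ∈ s, ↑S ⊆ Dg p C.D (C.tt C' ψ θ.1) ∨
        Disjoint ↑S (Dg p C.D (C.tt C' ψ θ.1))) →
      V.E (kr fun θ : V.A => gg p C.D (C.tt C' ψ θ.1) a b c s) = gg p C.D (τ.comp ψ) a b c s

/-- The digits form one orbit. -/
def NT : Prop := ∀ (p : ℕ) [Fact p.Prime] (G : Type) [Group G] [Finite G] (H T x b X Z : Subgroup G),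
  Reg H T x b → x ≤ X → X ≤ Z → Z ≤ b → ∀ (C : Cv p (EE H X)) (C' : Cv p (EE H Z))
    (ψ : C.E →* C'.E), 8 ≤ C.D.m → 8 ≤ C'.D.m → C.AT C' ψ → C.Over C' ψ → C.Lifts → C'.Lifts →
    (C'.D.quad → C.D.quad) → ∀ θ, ∀ e ∈ Dg p C.D (C.tt C' ψ θ), ∀ e' ∈ Dg p C.D (C.tt C' ψ θ),
      ∃ j : ℤ, e' = sh p j e ∧ sh p j (θ.comp C'.D.ι) = θ.comp C'.D.ι

/-- An automorphism which normalises two nodes normalises the socle of their intersection. -/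
def MG : Prop := ∀ (p : ℕ) [Fact p.Prime] (G : Type) [Group G] [Finite G]
  (H T x b Y Y' Z : Subgroup G), Reg H T x b → x ≤ Y → x ≤ Y' → Y ≤ Z → Y' ≤ Z → Z ≤ b →
  ∀ (C : Cv p (EE H Z)) (θ : C.R →+* kk p) (g g' : Matrix (Fin C.d) (Fin C.d) (kk p)),
    8 ≤ C.D.m → g * g' = 1 → g' * g = 1 →
    (∀ W, W = Y ∨ W = Y' → ∀ ω, C.θ ω ∈ EE H W →
      (∃ ω' r, C.θ ω' ∈ EE H W ∧ tw θ C.D.ρ ω' = (r : kk p) • (g * tw θ C.D.ρ ω * g')) ∧
      ∃ ω' r, C.θ ω' ∈ EE H W ∧ tw θ C.D.ρ ω' = (r : kk p) • (g' * tw θ C.D.ρ ω * g)) →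
    ∀ ω, C.θ ω ∈ EE H (Y ⊓ Y') → ∃ ω' r, C.θ ω' ∈ EE H (Y ⊓ Y') ∧
      tw θ C.D.ρ ω' = (r : kk p) • (g * tw θ C.D.ρ ω * g')

end Vale.Agent.P183M
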