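import Vale.Agent.P183M.CD

/-!
Homomorphisms of a finite reduced ring to an algebraically closed field; monomial functions.
-/

set_option autoImplicit false
set_option linter.all false

namespace Vale.Agent.P183M

open Matrix

section
variable {R : Type} [CommRing R] {k : Type} [Field k]

instance finHom [Finite R] : Finite (R →+* k) := by
  have h1 := (linearIndependent_monoidHom R k).comp (fun θ : R →+* k => (θ : R →* k))
    (fun a b h => RingHom.coe_monoidHom_injective h)
  exact h1.finite

noncomputable instance finHom' [Finite R] : Fintype (R →+* k) := Fintype.ofFinite _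

noncomputable instance decHom : DecidableEq (R →+* k) := Classical.decEq _

/-- monomial functions -/
noncomputable def mono [Finite R] (e : (R →+* k) → ℕ) (r : R) : k := ∏ θ, θ r ^ e θ

variable [Finite R]

lemma chi_eq (c : (R →+* k) →₀ ℕ) (r : R) : chi c r = mono c r := by
  unfold chi mono
  exact Finsupp.prod_fintype _ _ fun θ => pow_zero _

lemma mono_mul (e : (R →+* k) → ℕ) (r s : R) : mono e (r * s) = mono e r * mono e s := by
  unfold mono
  rw [← Finset.prod_mul_distrib]
  exact Finset.prod_congr rfl fun θ _ => by rw [map_mul, mul_pow]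

lemma mono_one (e : (R →+* k) → ℕ) : mono e (1 : R) = 1 := by
  unfold mono
  exact Finset.prod_eq_one fun θ _ => by rw [map_one, one_pow]

lemma mono_add (e e' : (R →+* k) → ℕ) (r : R) : mono (e + e') r = mono e r * mono e' r := by
  unfold mono
  rw [← Finset.prod_mul_distrib]
  exact Finset.prod_congr rfl fun θ _ => by rw [Pi.add_apply, pow_add]

lemma mono_zero (r : R) : mono (0 : (R →+* k) → ℕ) r = 1 := by
  unfold mono
  exact Finset.prod_eq_one fun θ _ => by rw [Pi.zero_apply, pow_zero]

lemma mono_single (θ : R →+* k) (n : ℕ) (r : R) : mono (Pi.single θ n) r = θ r ^ n := by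
  unfold mono
  rw [Finset.prod_eq_single θ, Pi.single_eq_same]
  · intro θ' _ h
    rw [Pi.single_eq_of_ne h, pow_zero]
  · intro h
    exact absurd (Finset.mem_univ _) h

lemma mono_ne_zero (e : (R →+* k) → ℕ) {r : R} (hr : IsUnit r) : mono e r ≠ 0 :=
  Finset.prod_ne_zero_iff.2 fun θ _ => pow_ne_zero _ (hr.map θ).ne_zero

lemma mono_zero' {e : (R →+* k) → ℕ} (he : e ≠ 0) : mono e (0 : R) = 0 := by
  obtain ⟨θ, hθ⟩ := Function.ne_iff.1 he
  exact Finset.prod_eq_zero (Finset.mem_univ θ) (by rw [map_zero, zero_pow hθ])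

/-- the binomial coefficient of digit vectors -/
noncomputable def bin (c e : (R →+* k) → ℕ) : k := ∏ θ, ((c θ).choose (e θ) : k)

lemma mono_expand (c : (R →+* k) → ℕ) (a b μ : R) : mono c (a + μ * b) =
    ∑ e ∈ Fintype.piFinset (fun θ => Finset.range (c θ + 1)),
      mono e μ * (bin c e * (mono e b * mono (c - e) a)) := by
  unfold mono bin
  have h1 : ∀ θ : R →+* k, θ (a + μ * b) ^ c θ = ∑ j ∈ Finset.range (c θ + 1),
      θ μ ^ j * (((c θ).choose j : k) * (θ b ^ j * θ a ^ (c θ - j))) := by
    intro θ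
    rw [map_add, map_mul, add_comm, add_pow]
    exact Finset.sum_congr rfl fun j _ => by rw [mul_pow]; ring
  simp only [h1]
  rw [Finset.prod_univ_sum]
  refine Finset.sum_congr rfl fun e _ => ?_
  rw [Finset.prod_mul_distrib, Finset.prod_mul_distrib, Finset.prod_mul_distrib]
  rfl

variable {p : ℕ} [hp : Fact p.Prime] [CharP k p]

lemma bin_ne_zero {c e : (R →+* k) → ℕ} (hc : ∀ θ, c θ < p) (he : e ≤ c) : bin c e ≠ 0 := by
  refine Finset.prod_ne_zero_iff.2 fun θ _ => ?_
  rw [Ne, CharP.cast_eq_zero_iff k p]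
  intro h
  have h1 := h.trans (Dvd.intro _ (by
    have := Nat.choose_mul_factorial_mul_factorial (he θ)
    rwa [mul_assoc] at this) : (c θ).choose (e θ) ∣ (c θ).factorial)
  rw [hp.out.dvd_factorial] at h1
  exact absurd (hc θ) (not_lt.2 h1)

/-- Frobenius twist -/
def Fr (p : ℕ) [Fact p.Prime] [CharP k p] (θ : R →+* k) : R →+* k := (frobenius k p).comp θ

lemma Fr_apply (θ : R →+* k) (r : R) : Fr p θ r = θ r ^ p := rfl

lemma Fr_inj : Function.Injective (Fr p : (R →+* k) → _) := fun a b h =>
  RingHom.ext fun r => frobenius_inj k p (DFunLike.congr_fun h r)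

lemma mono_mem (e : (R →+* k) → ℕ) : mono e ∈ Submodule.span k
    (Set.range fun c : (R →+* k) → Fin p => mono fun θ => (c θ : ℕ)) := by
  induction h : ∑ θ, e θ using Nat.strong_induction_on generalizing e with
  | _ n ih =>
    by_cases h1 : ∀ θ, e θ < p
    · exact Submodule.subset_span ⟨fun θ => ⟨e θ, h1 θ⟩, rfl⟩
    · push Not at h1
      obtain ⟨θ, hθ⟩ := h1
      have h2 : e = (e - Pi.single θ p) + Pi.single θ p := by
        funext θ'
        rw [Pi.add_apply, Pi.sub_apply]
        by_cases h3 : θ' = θ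
        · subst h3
          rw [Pi.single_eq_same]
          omega
        · rw [Pi.single_eq_of_ne h3]
          omega
      have h3 : mono e = mono ((e - Pi.single θ p) + Pi.single (Fr p θ) 1) := by
        funext r
        conv_lhs => rw [h2]
        rw [mono_add, mono_add, mono_single, mono_single, pow_one, Fr_apply]
      rw [h3]
      refine ih _ ?_ _ rfl
      have h4 : ∑ θ', e θ' = ∑ θ', (e - Pi.single θ p : (R →+* k) → ℕ) θ' + p := by
        conv_lhs => rw [h2]
        simp only [Pi.add_apply, Finset.sum_add_distrib, Finset.sum_pi_single', Finset.mem_univ,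
          if_true]
      have h5 := hp.out.one_lt
      simp only [Pi.add_apply, Finset.sum_add_distrib, Finset.sum_pi_single', Finset.mem_univ,
        if_true]
      omega

variable [CharP R p] [IsAlgClosed k]

include hp in
lemma exists_hom_of_prime (P : Ideal R) [P.IsPrime] : ∃ θ : R →+* k, ∀ r, θ r = 0 ↔ r ∈ P := by
  have : Finite (R ⧸ P) := Finite.of_surjective _ Ideal.Quotient.mk_surjective
  have : CharP (R ⧸ P) p := by
    refine (CharP.charP_iff_prime_eq_zero hp.out).2 ?_
    rw [← map_natCast (Ideal.Quotient.mk P), CharP.cast_eq_zero, map_zero]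
  letI : Algebra (ZMod p) (R ⧸ P) := ZMod.algebra _ p
  letI : Algebra (ZMod p) k := ZMod.algebra _ p
  have : Module.Finite (ZMod p) (R ⧸ P) := Module.Finite.of_finite
  let f : (R ⧸ P) →ₐ[ZMod p] k := IsAlgClosed.lift
  letI : Field (R ⧸ P) := (Finite.isField_of_domain _).toField
  refine ⟨(f : (R ⧸ P) →+* k).comp (Ideal.Quotient.mk P), fun r => ?_⟩
  rw [RingHom.comp_apply, map_eq_zero_iff _ (f : (R ⧸ P) →+* k).injective,
    Ideal.Quotient.eq_zero_iff_mem]

include hp in
lemma isUnit_of_hom {r : R} (h : ∀ θ : R →+* k, θ r ≠ 0) : IsUnit r := by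
  by_contra hr
  obtain ⟨M, hM, hrM⟩ := exists_max_ideal_of_mem_nonunits hr
  have := hM.isPrime
  obtain ⟨θ, hθ⟩ := exists_hom_of_prime (k := k) (p := p) M
  exact h θ ((hθ r).2 hrM)

variable [IsReduced R]

include hp in
lemma eq_zero_of_hom {r : R} (h : ∀ θ : R →+* k, θ r = 0) : r = 0 := by
  refine IsReduced.eq_zero r ?_
  rw [← mem_nilradical, nilradical_eq_sInf, Ideal.mem_sInf]
  intro P (hP : P.IsPrime)
  obtain ⟨θ, hθ⟩ := exists_hom_of_prime (k := k) (p := p) P
  exact (hθ r).1 (h θ)

include hp in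
lemma eq_of_hom {r s : R} (h : ∀ θ : R →+* k, θ r = θ s) : r = s :=
  sub_eq_zero.1 (eq_zero_of_hom (k := k) (p := p) fun θ => by rw [map_sub, h, sub_self])

lemma span_mono : Submodule.span k
    (Set.range fun c : (R →+* k) → Fin p => mono fun θ => (c θ : ℕ)) = ⊤ := by
  classical
  set W := Submodule.span k
    (Set.range fun c : (R →+* k) → Fin p => mono fun θ => (c θ : ℕ)) with hW
  have h1 : ∀ (θ : R →+* k) (f : R → k), f ∈ W → (fun r => θ r * f r) ∈ W := by
    intro θ f hf
    induction hf using Submodule.span_induction with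
    | mem x hx =>
      obtain ⟨c, rfl⟩ := hx
      have := mono_mem (p := p) (Pi.single θ 1 + fun θ => (c θ : ℕ))
      convert this using 1
      funext r
      rw [mono_add, mono_single, pow_one]
    | zero => convert W.zero_mem using 1; funext r; simp
    | add x y _ _ hx hy => convert W.add_mem hx hy using 1; funext r; simp [mul_add]
    | smul a x _ hx => convert W.smul_mem a hx using 1; funext r; simp; ring
  have h2 : ∀ (r0 : R) (s : Finset R), r0 ∉ s → ∃ f ∈ W, f r0 ≠ 0 ∧ ∀ r ∈ s, f r = 0 := by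
    intro r0 s
    induction s using Finset.induction_on with
    | empty =>
      intro _
      exact ⟨mono 0, mono_mem 0, by rw [mono_zero]; exact one_ne_zero, by simp⟩
    | insert a s ha ih =>
      intro h
      rw [Finset.mem_insert, not_or] at h
      obtain ⟨f, hf, hf0, hfs⟩ := ih h.2
      have h3 : ∃ θ : R →+* k, θ r0 ≠ θ a := by
        by_contra h4
        push Not at h4
        exact h.1 (eq_of_hom (p := p) h4)
      obtain ⟨θ, hθ⟩ := h3
      refine ⟨(fun r => θ r * f r) - θ a • f, W.sub_mem (h1 θ f hf) (W.smul_mem _ hf), ?_, ?_⟩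
      · simp only [Pi.sub_apply, Pi.smul_apply, smul_eq_mul]
        rw [← sub_mul]
        exact mul_ne_zero (sub_ne_zero.2 hθ) hf0
      · intro r hr
        simp only [Pi.sub_apply, Pi.smul_apply, smul_eq_mul]
        rcases Finset.mem_insert.1 hr with rfl | hr
        · exact sub_self _
        · rw [hfs r hr, mul_zero, mul_zero, sub_self]
  have := Fintype.ofFinite R
  rw [eq_top_iff]
  intro g _
  rw [pi_eq_sum_univ' g]
  refine W.sum_mem fun r0 _ => W.smul_mem _ ?_
  obtain ⟨f, hf, hf0, hfs⟩ := h2 r0 (Finset.univ.erase r0) (Finset.notMem_erase _ _)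
  convert W.smul_mem (f r0)⁻¹ hf using 1
  funext r
  by_cases h : r = r0
  · subst h
    simp [hf0]
  · rw [Pi.smul_apply, hfs r (Finset.mem_erase.2 ⟨h, Finset.mem_univ _⟩), smul_zero,
      Pi.single_eq_of_ne h]

omit [IsReduced R] [IsAlgClosed k] in
lemma card_hom_le : p ^ Fintype.card (R →+* k) ≤ Nat.card R := by
  letI : Algebra (ZMod p) R := ZMod.algebra _ p
  letI : Algebra (ZMod p) k := ZMod.algebra _ p
  have : Module.Finite (ZMod p) R := Module.Finite.of_finite
  let φ : (R →+* k) → (R →ₗ[ZMod p] k) := fun θ => θ.toAddMonoidHom.toZModLinearMap p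
  have h1 : LinearIndependent k φ := by
    refine LinearIndependent.of_comp
      (⟨⟨fun f => (f : R → k), fun _ _ => rfl⟩, fun _ _ => rfl⟩ : (R →ₗ[ZMod p] k) →ₗ[k] (R → k)) ?_
    exact (linearIndependent_monoidHom R k).comp (fun θ : R →+* k => (θ : R →* k))
      (fun a b h => RingHom.coe_monoidHom_injective h)
  have h2 := h1.fintype_card_le_finrank
  rw [Module.finrank_linearMap_self] at h2
  rw [Module.natCard_eq_pow_finrank (K := ZMod p), Nat.card_zmod]
  exact Nat.pow_le_pow_right hp.out.pos h2

lemma indep_mono :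
    LinearIndependent k fun c : (R →+* k) → Fin p => mono fun θ => (c θ : ℕ) := by
  have := Fintype.ofFinite R
  refine linearIndependent_of_top_le_span_of_card_le_finrank (span_mono).ge ?_
  rw [Fintype.card_fun, Fintype.card_fin, Module.finrank_fintype_fun_eq_card,
    ← Nat.card_eq_fintype_card (α := R)]
  exact card_hom_le

/-- dual functions -/
lemma exists_dual [Fintype R] {c : (R →+* k) → ℕ} (hc : ∀ θ, c θ < p) : ∃ a : R → k,
    ∀ e : (R →+* k) → ℕ, (∀ θ, e θ < p) → ∑ r, a r * mono e r = if e = c then 1 else 0 := by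
  classical
  let b := Module.Basis.mk (indep_mono (R := R) (k := k) (p := p)) span_mono.ge
  refine ⟨fun r => b.coord (fun θ => ⟨c θ, hc θ⟩) (Pi.single r 1), fun e he => ?_⟩
  have h1 : mono e = b fun θ => ⟨e θ, he θ⟩ := by rw [Module.Basis.mk_apply]
  have h2 : ∑ r, b.coord (fun θ => ⟨c θ, hc θ⟩) (Pi.single r 1) * mono e r =
      b.coord (fun θ => ⟨c θ, hc θ⟩) (mono e) := by
    conv_rhs => rw [pi_eq_sum_univ' (mono e), map_sum]
    exact Finset.sum_congr rfl fun r _ => by rw [map_smul, smul_eq_mul, mul_comm]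
  rw [h2, h1, Module.Basis.coord_apply, Module.Basis.repr_self, Finsupp.single_apply]
  refine if_congr ⟨fun h => ?_, fun h => ?_⟩ rfl rfl
  · funext θ
    exact congrArg Fin.val (congrFun h θ)
  · subst h
    rfl

/-- extraction of coefficients -/
theorem extract {M : Type*} [AddCommGroup M] [Module k M] (W : Submodule k M)
    (s : Finset ((R →+* k) → ℕ)) (hs : ∀ e ∈ s, ∀ θ, e θ < p) (w : ((R →+* k) → ℕ) → M)
    (h : ∀ μ : R, ∑ e ∈ s, mono e μ • w e ∈ W) : ∀ e ∈ s, w e ∈ W := by
  classical
  intro c hc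
  have := Fintype.ofFinite R
  obtain ⟨a, ha⟩ := exists_dual (hs c hc)
  have h1 : ∑ μ, a μ • ∑ e ∈ s, mono e μ • w e = w c := by
    simp only [Finset.smul_sum, smul_smul]
    rw [Finset.sum_comm, Finset.sum_eq_single c]
    · rw [← Finset.sum_smul, ha c (hs c hc), if_pos rfl, one_smul]
    · intro e he hec
      rw [← Finset.sum_smul, ha e (hs e he), if_neg hec, zero_smul]
    · intro h2
      exact absurd hc h2
  rw [← h1]
  exact W.sum_mem fun μ _ => W.smul_mem _ (h μ)

end

end Vale.Agent.P183M
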