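import Vale.Agent.P183M.IF2
import Vale.Agent.P183M.B1
import Vale.Agent.P183M.Gal

/-!
Kronecker products and coefficients of root elements.
-/

set_option autoImplicit false
set_option linter.all false

namespace Vale.Agent.P183M

open Matrix Subgroup

section
variable {k : Type} [CommRing k] {A : Type} [Fintype A] [DecidableEq A] {I : Type} [Fintype I]
  [DecidableEq I]

lemma kr_apply (M : A → Matrix I I k) (α β : A → I) : kr M α β = ∏ a, M a (α a) (β a) := rfl

lemma kr_mul (M M' : A → Matrix I I k) : kr M * kr M' = kr fun a => M a * M' a := by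
  ext α β
  simp only [mul_apply, kr_apply]
  rw [Finset.prod_univ_sum, Fintype.piFinset_univ]
  exact Finset.sum_congr rfl fun γ _ => Finset.prod_mul_distrib.symm

lemma kr_one : kr (fun _ : A => (1 : Matrix I I k)) = 1 := by
  ext α β
  simp only [kr_apply, one_apply]
  rw [Fintype.prod_boole]
  exact if_congr funext_iff.symm rfl rfl

lemma kr_zero {M : A → Matrix I I k} {a : A} (h : M a = 0) : kr M = 0 := by
  ext α β
  exact Finset.prod_eq_zero (Finset.mem_univ a) (by rw [h]; rfl)

lemma kr_update (M : A → Matrix I I k) (a : A) (X : Matrix I I k) (α β : A → I) :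
    kr (Function.update M a X) α β = X (α a) (β a) * ∏ b ∈ Finset.univ.erase a, M b (α b) (β b) := by
  rw [kr_apply, ← Finset.mul_prod_erase _ _ (Finset.mem_univ a), Function.update_self]
  congr 1
  exact Finset.prod_congr rfl fun b hb => by rw [Function.update_of_ne (Finset.ne_of_mem_erase hb)]

/-- the factor embeddings -/
def jj (a : A) : Matrix I I k →ₐ[k] Matrix (A → I) (A → I) k :=
  AlgHom.ofLinearMap
    { toFun := fun X => kr (Function.update (fun _ => 1) a X)
      map_add' := fun X Y => by
        ext α β
        simp only [Matrix.add_apply, kr_update, add_mul]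
      map_smul' := fun c X => by
        ext α β
        simp only [Matrix.smul_apply, kr_update, smul_eq_mul, mul_assoc, RingHom.id_apply] }
    (by
      change kr _ = 1
      rw [Function.update_eq_self, kr_one])
    fun X Y => by
      change kr _ = kr _ * kr _
      rw [kr_mul]
      congr 1
      funext b
      by_cases h : b = a
      · subst h
        simp
      · simp [Function.update_of_ne h]

lemma jj_apply (a : A) (X : Matrix I I k) : jj a X = kr (Function.update (fun _ => 1) a X) := rfl

lemma kr_insert (M : A → Matrix I I k) {s : Finset A} {a : A} (h : a ∉ s) :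
    kr (fun b => if b ∈ insert a s then M b else 1) =
      jj a (M a) * kr fun b => if b ∈ s then M b else 1 := by
  rw [jj_apply, kr_mul]
  congr 1
  funext b
  by_cases h1 : b = a
  · subst h1
    simp [h]
  · simp [Function.update_of_ne h1, h1]

lemma kr_ind' {P : Finset A → Matrix (A → I) (A → I) k → Prop} (M : A → Matrix I I k) (h1 : P ∅ 1)
    (h2 : ∀ s a X, a ∉ s → P s X → P (insert a s) (jj a (M a) * X)) (s : Finset A) :
    P s (kr fun b => if b ∈ s then M b else 1) := by
  induction s using Finset.induction_on with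
  | empty => simpa [kr_one] using h1
  | insert a s ha ih =>
    rw [kr_insert M ha]
    exact h2 s a _ ha ih

lemma kr_ind {P : Matrix (A → I) (A → I) k → Prop} (M : A → Matrix I I k) (h1 : P 1)
    (h2 : ∀ a X, P X → P (jj a (M a) * X)) : P (kr M) := by
  simpa using kr_ind' (P := fun _ X => P X) M h1 (fun s a X _ => h2 a X) Finset.univ

lemma jj_comm {a b : A} (h : a ≠ b) (X Y : Matrix I I k) : Commute (jj a X) (jj b Y) := by
  change _ * _ = _ * _
  rw [jj_apply, jj_apply, kr_mul, kr_mul]
  congr 1
  funext c
  by_cases h1 : c = a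
  · subst h1
    simp [Function.update_of_ne h]
  · simp [Function.update_of_ne h1]

lemma kr_split (M : A → Matrix I I k) (a : A) :
    kr M = jj a (M a) * kr fun b => if b ∈ Finset.univ.erase a then M b else 1 := by
  rw [← kr_insert M (Finset.notMem_erase a _), Finset.insert_erase (Finset.mem_univ a)]
  simp

/-- pure tensors -/
def pv (v : A → I → k) : (A → I) → k := fun α => ∏ a, v a (α a)

lemma kr_pv (M : A → Matrix I I k) (v : A → I → k) : kr M *ᵥ pv v = pv fun a => M a *ᵥ v a := by
  funext α
  simp only [mulVec, dotProduct, kr_apply, pv]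
  rw [Finset.prod_univ_sum, Fintype.piFinset_univ]
  exact Finset.sum_congr rfl fun γ _ => Finset.prod_mul_distrib.symm

lemma pv_zero {v : A → I → k} {a : A} (h : v a = 0) : pv v = 0 := by
  funext α
  exact Finset.prod_eq_zero (Finset.mem_univ a) (by rw [h]; rfl)

lemma single_eq_kr (α β : A → I) : single α β (1 : k) = kr fun a => single (α a) (β a) 1 := by
  ext γ δ
  simp only [kr_apply, single_apply]
  rw [Fintype.prod_boole]
  exact if_congr (by simp only [funext_iff, forall_and]) rfl rfl

end

section
variable {F k : Type} [CommRing F] [Field k] {A : Type} [Fintype A] [DecidableEq A] {I : Type}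
  [Fintype I] [DecidableEq I]

open Classical in
/-- products of nilpotent factors -/
noncomputable def kq (δ : A → (F →+* k)) (N : A → Matrix I I k) (S : Finset (F →+* k)) :
    Matrix (A → I) (A → I) k :=
  if ↑S ⊆ Set.range δ then kr fun a => if δ a ∈ S then N a else 1 else 0

variable {δ : A → (F →+* k)}

lemma kq_pos (N : A → Matrix I I k) {S : Finset (F →+* k)} (h : ↑S ⊆ Set.range δ) :
    kq δ N S = kr fun a => if δ a ∈ S then N a else 1 := if_pos h

lemma kq_neg (N : A → Matrix I I k) {S : Finset (F →+* k)} (h : ¬ ↑S ⊆ Set.range δ) :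
    kq δ N S = 0 := if_neg h

lemma kr_exp [Finite F] (hδ : Function.Injective δ) (N : A → Matrix I I k) (t : F) :
    kr (fun a => 1 + δ a t • N a) = ∑ S, χ S t • kq δ N S := by
  ext α β
  rw [Matrix.sum_apply, kr_apply]
  simp only [Matrix.add_apply, Matrix.smul_apply, smul_eq_mul, add_comm ((1 : Matrix I I k) _ _)]
  rw [Fintype.prod_add]
  refine Finset.sum_of_injOn (fun s => s.image δ) (Finset.image_injective hδ).injOn
    (fun _ _ => Finset.mem_univ _) (fun S _ hS => ?_) fun s _ => ?_
  · rw [kq_neg, Matrix.zero_apply, mul_zero]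
    intro h
    refine hS ⟨Finset.univ.filter fun a => δ a ∈ S, Finset.mem_univ _, Finset.ext fun b => ?_⟩
    simp only [Finset.mem_image, Finset.mem_filter, Finset.mem_univ, true_and]
    exact ⟨fun ⟨a, h1, h2⟩ => h2 ▸ h1, fun h1 => let ⟨a, ha⟩ := h h1; ⟨a, ha.symm ▸ h1, ha⟩⟩
  · rw [kq_pos _ (by simp [Set.image_subset_range]), kr_apply, χ,
      Finset.prod_image fun a _ b _ h => hδ h, Finset.prod_mul_distrib, mul_assoc,
      ← Finset.prod_mul_prod_compl s]
    congr 2
    · exact Finset.prod_congr rfl fun a ha => by rw [if_pos (Finset.mem_image_of_mem _ ha)]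
    · exact Finset.prod_congr rfl fun a ha => by
        rw [if_neg fun h => Finset.mem_compl.1 ha (hδ.mem_finset_image.1 h)]

lemma kq_mul (N N' : A → Matrix I I k) (S : Finset (F →+* k)) :
    kq δ N S * kq δ N' S = kq δ (fun a => N a * N' a) S := by
  by_cases h : ↑S ⊆ Set.range δ
  · simp only [kq_pos _ h, kr_mul]
    congr 1
    funext a
    split_ifs <;> simp
  · simp only [kq_neg _ h, zero_mul]

lemma kq_comm (N N' : A → Matrix I I k) {S S' : Finset (F →+* k)} (hS : Disjoint S S') :
    Commute (kq δ N S) (kq δ N' S') := by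
  by_cases h : ↑S ⊆ Set.range δ
  · by_cases h' : ↑S' ⊆ Set.range δ
    · change _ * _ = _ * _
      simp only [kq_pos _ h, kq_pos _ h', kr_mul]
      congr 1
      funext a
      split_ifs with h1 h2
      · exact absurd h2 (Finset.disjoint_left.1 hS h1)
      all_goals simp
    · rw [kq_neg _ h']
      exact Commute.zero_right _
  · rw [kq_neg _ h]
    exact Commute.zero_left _

lemma kq_union (N : A → Matrix I I k) {S S' : Finset (F →+* k)} (hS : Disjoint S S') :
    kq δ N (S ∪ S') = kq δ N S * kq δ N S' := by
  by_cases h : ↑(S ∪ S') ⊆ Set.range δ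
  · have h' := h
    rw [Finset.coe_union, Set.union_subset_iff] at h'
    rw [kq_pos _ h, kq_pos _ h'.1, kq_pos _ h'.2, kr_mul]
    congr 1
    funext a
    by_cases h1 : δ a ∈ S
    · simp [h1, Finset.disjoint_left.1 hS h1]
    · simp [h1]
  · rw [kq_neg _ h]
    rw [Finset.coe_union, Set.union_subset_iff, not_and_or] at h
    rcases h with h | h
    · rw [kq_neg _ h, zero_mul]
    · rw [kq_neg _ h, mul_zero]

lemma kq_zero {S : Finset (F →+* k)} (hS : S.Nonempty) :
    kq δ (fun _ => (0 : Matrix I I k)) S = 0 := by
  by_cases h : ↑S ⊆ Set.range δ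
  · obtain ⟨b, hb⟩ := hS
    obtain ⟨a, rfl⟩ := h hb
    rw [kq_pos _ h]
    exact kr_zero (a := a) (if_pos hb)
  · exact kq_neg _ h

lemma kq_empty (N : A → Matrix I I k) : kq δ N ∅ = 1 := by
  rw [kq_pos _ (by simp)]
  simpa using kr_one

lemma kq_single (hδ : Function.Injective δ) (N : A → Matrix I I k) (a : A) :
    kq δ N {δ a} = jj a (N a) := by
  rw [kq_pos _ (by simp), jj_apply]
  congr 1
  funext b
  by_cases h : b = a
  · subst h
    simp
  · simp [Function.update_of_ne h, hδ.eq_iff, h]

end

end Vale.Agent.P183M
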